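import Vale.Agent.P048.Full.Clash.Defs

/-! # A state gives cycles -/

namespace Vale.Agent.P048.Full

open Finset

variable {V : Type} {G : SimpleGraph V}

/-- A list of distinct, consecutively adjacent vertices is a path. -/
theorem list_pth : ∀ (x : V) (l : List V), (x :: l).Nodup → List.IsChain G.Adj (x :: l) →
    Pth G x ((x :: l).getLast (List.cons_ne_nil x l)) (l.length + 1) {v | v ∈ x :: l} := by
  intro x l
  induction l generalizing x with
  | nil => exact fun _ _ => (Pth.single x).mono (by simp)
  | cons y t ih =>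
    intro hn hc
    rw [List.isChain_cons_cons] at hc
    rw [List.nodup_cons] at hn
    have P := (Pth.single x).append hc.1 (ih y hn.2 hc.2)
      (Set.disjoint_singleton_left.2 fun h => hn.1 h)
    rw [Nat.add_comm 1] at P
    rw [List.getLast_cons (List.cons_ne_nil y t), List.length_cons]
    refine P.mono ?_
    rintro v (h | h)
    · simp [Set.mem_singleton_iff.1 h]
    · exact List.mem_cons_of_mem x h

theorem Next.mem {l : List V} {a b : V} (h : Next l a b) : a ∈ l ∧ b ∈ l := by
  rcases h with h | h <;> exact ⟨h.subset (by simp), h.subset (by simp)⟩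

theorem not_next_singleton {x a b : V} : ¬Next [x] a b := by
  rintro (h | h) <;> simpa using h.length_le

theorem Next.cons_cons {x y a b : V} {t : List V} (h : Next (x :: y :: t) a b) :
    (a = x ∧ b = y ∨ a = y ∧ b = x) ∨ Next (y :: t) a b := by
  rcases h with h | h <;> rcases List.infix_cons_iff.1 h with h | h
  · simp only [List.cons_prefix_cons] at h
    exact Or.inl (Or.inl ⟨h.1, h.2.1⟩)
  · exact Or.inr (Or.inl h)
  · simp only [List.cons_prefix_cons] at h
    exact Or.inl (Or.inr ⟨h.2.1, h.1⟩)
  · exact Or.inr (Or.inr h)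

theorem Next.filter {l : List V} {a b : V} (p : V → Bool) (h : Next l a b) (ha : p a = true)
    (hb : p b = true) : Next (l.filter p) a b := by
  rcases h with h | h
  · exact Or.inl (by simpa [ha, hb] using h.filter p)
  · exact Or.inr (by simpa [ha, hb] using h.filter p)

open Classical in
/-- The path through the whole order and all runs. -/
theorem exists_route (Q : Finset V) (hQ : G.IsClique (Q : Set V)) :
    ∀ (x : V) (l : List V) (rs : List (Run V)), (x :: l).Nodup → (∀ v ∈ x :: l, v ∈ Q) →
      (∀ r ∈ rs, r.mid ≠ [] ∧ List.IsChain G.Adj (r.a :: (r.mid ++ [r.b])) ∧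
        (∀ v ∈ r.mid, v ∉ Q) ∧ Next (x :: l) r.a r.b) →
      (rs.flatMap Run.mid).Nodup → rs.Pairwise (fun r s => ¬SameEnds r s) →
      Pth G x ((x :: l).getLast (List.cons_ne_nil x l))
        (l.length + 1 + (rs.map fun r => r.mid.length).sum)
        {v | v ∈ x :: l ∨ ∃ r ∈ rs, v ∈ r.mid} := by
  intro x l
  induction l generalizing x with
  | nil =>
    intro rs _ _ hr _ _
    cases rs with
    | nil => exact (Pth.single x).mono (by simp)
    | cons r rs => exact absurd (hr r (by simp)).2.2.2 not_next_singleton
  | cons y t ih =>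
    intro rs hn hm hr hd hp
    rw [List.nodup_cons] at hn
    let p : Run V → Bool := fun r => decide (r.a = x ∨ r.b = x)
    have perm := List.filter_append_perm p rs
    have hd' : ((rs.filter p ++ rs.filter fun r => !p r).flatMap Run.mid).Nodup :=
      (perm.flatMap_right Run.mid).nodup_iff.2 hd
    rw [List.flatMap_append, List.nodup_append] at hd'
    have hxy : ∀ r ∈ rs, p r = true → (r.a = x ∧ r.b = y ∨ r.a = y ∧ r.b = x) := by
      intro r h1 h2
      rcases (hr r h1).2.2.2.cons_cons with h | h
      · exact h
      · simp only [p, decide_eq_true_eq] at h2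
        exact absurd (h2.elim (fun e => e ▸ h.mem.1) fun e => e ▸ h.mem.2) hn.1
    have hxne : ∀ r ∈ rs, p r = false → Next (y :: t) r.a r.b := by
      intro r h1 h2
      simp only [p, decide_eq_false_iff_not, not_or] at h2
      rcases (hr r h1).2.2.2.cons_cons with (h | h) | h
      · exact absurd h.1 h2.1
      · exact absurd h.2 h2.2
      · exact h
    have P := ih y (rs.filter fun r => !p r) hn.2 (fun v hv => hm v (List.mem_cons_of_mem x hv))
      (fun r h => by
        simp only [List.mem_filter, Bool.not_eq_true', p] at h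
        exact ⟨(hr r h.1).1, (hr r h.1).2.1, (hr r h.1).2.2.1, hxne r h.1 h.2⟩)
      hd'.2.1 (hp.sublist List.filter_sublist)
    have hsum : ((rs.filter p).map fun r => r.mid.length).sum +
        ((rs.filter fun r => !p r).map fun r => r.mid.length).sum =
          (rs.map fun r => r.mid.length).sum := by
      rw [← List.sum_append, ← List.map_append]
      exact (perm.map _).sum_eq
    have hlast : ((x :: y :: t).getLast (List.cons_ne_nil _ _)) =
        (y :: t).getLast (List.cons_ne_nil _ _) := List.getLast_cons _
    rw [hlast, List.length_cons, ← hsum]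
    rcases hf : rs.filter p with _ | ⟨D, rest⟩
    · have hadj : G.Adj x y :=
        hQ (hm x (by simp)) (hm y (by simp)) (fun e => hn.1 (by simp [e]))
      have R := (Pth.single x).append hadj P (Set.disjoint_singleton_left.2 fun h => by
        rcases h with h | ⟨r, h1, h2⟩
        · exact hn.1 h
        · exact (hr r (List.mem_filter.1 h1).1).2.2.1 x h2 (hm x (by simp)))
      rw [show t.length + 1 + 1 + ((([] : List (Run V)).map fun r => r.mid.length).sum +
          ((rs.filter fun r => !p r).map fun r => r.mid.length).sum) = 1 + (t.length + 1 +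
            ((rs.filter fun r => !p r).map fun r => r.mid.length).sum) by
        simp only [List.map_nil, List.sum_nil]; omega]
      refine R.mono ?_
      rintro v (h | h | ⟨r, h1, h2⟩)
      · exact Or.inl (by simp [Set.mem_singleton_iff.1 h])
      · exact Or.inl (List.mem_cons_of_mem x h)
      · exact Or.inr ⟨r, (List.mem_filter.1 h1).1, h2⟩
    have hrest : rest = [] := by
      cases rest with
      | nil => rfl
      | cons E rest' =>
        have h := hp.sublist (List.filter_sublist (p := p))
        rw [hf, List.pairwise_cons] at h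
        have mD : D ∈ rs.filter p := by rw [hf]; simp
        have mE : E ∈ rs.filter p := by rw [hf]; simp
        have eD := hxy D (List.mem_filter.1 mD).1 (List.mem_filter.1 mD).2
        have eE := hxy E (List.mem_filter.1 mE).1 (List.mem_filter.1 mE).2
        refine absurd ?_ (h.1 E (by simp))
        rcases eD with ⟨a1, a2⟩ | ⟨a1, a2⟩ <;> rcases eE with ⟨b1, b2⟩ | ⟨b1, b2⟩ <;>
          simp [SameEnds, a1, a2, b1, b2]
    subst hrest
    have mD : D ∈ rs := by
      have : D ∈ rs.filter p := by rw [hf]; simp
      exact (List.mem_filter.1 this).1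
    have pD : p D = true := by
      have : D ∈ rs.filter p := by rw [hf]; simp
      exact (List.mem_filter.1 this).2
    obtain ⟨hne, hch, hout, -⟩ := hr D mD
    obtain ⟨h0, tl, hmid⟩ := List.exists_cons_of_ne_nil hne
    rw [hmid] at hch
    rw [List.cons_append, List.isChain_cons_cons, ← List.cons_append, List.isChain_append] at hch
    have hnd : D.mid.Nodup := by simpa [hf] using hd'.1
    have M := list_pth h0 tl (hmid ▸ hnd) hch.2.1
    have hlastD : G.Adj ((h0 :: tl).getLast (List.cons_ne_nil _ _)) D.b :=
      hch.2.2.2 _ (List.getLast_mem_getLast? _) D.b (by simp)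
    have M' : ∃ u v, G.Adj x u ∧ G.Adj v y ∧ Pth G u v (tl.length + 1) {w | w ∈ D.mid} := by
      rcases hxy D mD pD with ⟨a1, a2⟩ | ⟨a1, a2⟩
      · exact ⟨_, _, a1 ▸ hch.1, a2 ▸ hlastD, hmid.symm ▸ M⟩
      · exact ⟨_, _, a2 ▸ hlastD.symm, a1 ▸ hch.1.symm, hmid.symm ▸ M.symm⟩
    obtain ⟨u, v, hu, hv, M⟩ := M'
    have R := ((Pth.single x).append hu M (Set.disjoint_singleton_left.2 fun h =>
      hout x h (hm x (by simp)))).append hv P (by
        rw [Set.disjoint_left]
        rintro w (h | h) (h' | ⟨r, h1, h2⟩)
        · exact hn.1 ((Set.mem_singleton_iff.1 h) ▸ h')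
        · exact (hr r (List.mem_filter.1 h1).1).2.2.1 w h2
            ((Set.mem_singleton_iff.1 h).symm ▸ hm x (by simp))
        · exact hout w h (hm w (List.mem_cons_of_mem x h'))
        · exact hd'.2.2 w (List.mem_flatMap.2 ⟨D, by simp [hf], h⟩) w
            (List.mem_flatMap.2 ⟨r, h1, h2⟩) rfl)
    rw [show t.length + 1 + 1 + (([D].map fun r => r.mid.length).sum +
        ((rs.filter fun r => !p r).map fun r => r.mid.length).sum) = 1 + (tl.length + 1) +
          (t.length + 1 + ((rs.filter fun r => !p r).map fun r => r.mid.length).sum) by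
      simp only [List.map_cons, List.map_nil, List.sum_cons, List.sum_nil, hmid, List.length_cons]
      omega]
    refine R.mono ?_
    rintro w ((h | h) | h | ⟨r, h1, h2⟩)
    · exact Or.inl (by simp [Set.mem_singleton_iff.1 h])
    · exact Or.inr ⟨D, mD, h⟩
    · exact Or.inl (List.mem_cons_of_mem x h)
    · exact Or.inr ⟨r, (List.mem_filter.1 h1).1, h2⟩

/-- Runs of total `σ` give cycles of every order between `σ` plus the used vertices of `Q` and
`σ` plus all of `Q`. -/
theorem cycPin : CycPin := by
  classical
  intro V G m X Q c hQ hc hne hm hlo hhi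
  have hsub : c.ends ⊆ Q := by
    intro v hv
    simp only [Conf.ends, List.mem_toFinset, List.mem_flatMap] at hv
    obtain ⟨r, hr, h⟩ := hv
    have h' := (hc.next r hr).mem
    simp only [List.mem_cons, List.not_mem_nil, or_false] at h
    rcases h with rfl | rfl
    · exact (hc.memL _).1 h'.1
    · exact (hc.memL _).1 h'.2
  obtain ⟨Q', h1, h2, h3⟩ := Finset.exists_subsuperset_card_eq hsub
    (show c.ends.card ≤ m - c.sig by omega) (by omega)
  let l := c.L.filter fun v => decide (v ∈ Q')
  have hnd : l.Nodup := hc.nodupL.filter _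
  have hlen : l.length = Q'.card := by
    rw [← List.toFinset_card_of_nodup hnd]
    congr 1
    ext v
    simp only [l, List.mem_toFinset, List.mem_filter, decide_eq_true_eq, hc.memL]
    exact ⟨fun h => h.2, fun h => ⟨h2 h, h⟩⟩
  have hends : ∀ r ∈ c.rs, r.a ∈ Q' ∧ r.b ∈ Q' := fun r hr =>
    ⟨h1 (List.mem_toFinset.2 (List.mem_flatMap.2 ⟨r, hr, by simp⟩)),
      h1 (List.mem_toFinset.2 (List.mem_flatMap.2 ⟨r, hr, by simp⟩))⟩
  obtain ⟨r0, hr0⟩ := List.exists_mem_of_ne_nil _ hne
  have hnx : ∀ r ∈ c.rs, Next l r.a r.b := fun r hr =>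
    (hc.next r hr).filter _ (by simpa using (hends r hr).1) (by simpa using (hends r hr).2)
  have h2l : 2 ≤ l.length := by
    rcases hnx r0 hr0 with h | h <;> simpa using h.length_le
  obtain ⟨x, t, hl⟩ := List.exists_cons_of_ne_nil (show l ≠ [] by
    intro e; simp [e] at h2l)
  have hQmem : ∀ v ∈ x :: t, v ∈ Q := fun v hv => by
    rw [← hl] at hv
    simp only [l, List.mem_filter, hc.memL] at hv
    exact hv.1
  have P := exists_route Q hQ x t c.rs (hl ▸ hnd) hQmem
    (fun r hr => ⟨hc.ne r hr, hc.chain r hr, fun v hv => (hc.out r hr v hv).2, hl ▸ hnx r hr⟩)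
    hc.nodupM hc.apart
  have hn : t.length + 1 + (c.rs.map fun r => r.mid.length).sum = m := by
    have : t.length + 1 = Q'.card := by rw [← hlen, hl, List.length_cons]
    unfold Conf.sig at hlo hhi h3
    omega
  rw [hn] at P
  refine P.cycle (hQ (hQmem _ (List.getLast_mem _)) (hQmem x (by simp)) fun e => ?_) hm
  cases t with
  | nil => simp [hl] at h2l
  | cons y t' =>
    rw [hl, List.nodup_cons] at hnd
    rw [List.getLast_cons (List.cons_ne_nil y t')] at e
    exact hnd.1 (e ▸ List.getLast_mem _)

end Vale.Agent.P048.Full
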