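import Vale.Agent.P048.Full.Base

/-! # Linear forests of detours on a clique: definitions

A state lists the vertices of the clique `Q` in some order and gives runs, each a path outside `Q`
between two consecutive vertices of the list. -/

namespace Vale.Agent.P048.Full

open Finset

variable {V : Type}

/-- A detour from `a` to `b` through `mid`. -/
structure Run (V : Type) where
  a : V
  b : V
  mid : List V

/-- An ordering of the clique with runs on some of its consecutive pairs. -/
structure Conf (V : Type) where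
  L : List V
  rs : List (Run V)

/-- `a` and `b` are next to each other in `l`. -/
def Next (l : List V) (a b : V) : Prop := [a, b] <:+: l ∨ [b, a] <:+: l

/-- Two runs join the same pair. -/
def SameEnds (r s : Run V) : Prop := r.a = s.a ∧ r.b = s.b ∨ r.a = s.b ∧ r.b = s.a

/-- Two runs share no end. -/
def EndsDisj (r s : Run V) : Prop := r.a ≠ s.a ∧ r.a ≠ s.b ∧ r.b ≠ s.a ∧ r.b ≠ s.b

/-- A state is valid. -/
structure Conf.Valid (G : SimpleGraph V) (X Q : Finset V) (c : Conf V) : Prop where
  nodupL : c.L.Nodup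
  memL : ∀ x, x ∈ c.L ↔ x ∈ Q
  ne : ∀ r ∈ c.rs, r.mid ≠ []
  chain : ∀ r ∈ c.rs, List.IsChain G.Adj (r.a :: (r.mid ++ [r.b]))
  out : ∀ r ∈ c.rs, ∀ x ∈ r.mid, x ∈ X ∧ x ∉ Q
  next : ∀ r ∈ c.rs, Next c.L r.a r.b
  nodupM : (c.rs.flatMap Run.mid).Nodup
  apart : c.rs.Pairwise fun r s => ¬SameEnds r s

/-- The number of vertices inside runs. -/
def Conf.sig (c : Conf V) : ℕ := (c.rs.map fun r => r.mid.length).sum

open Classical in
/-- The vertices of `Q` on runs. -/
noncomputable def Conf.ends (c : Conf V) : Finset V :=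
  (c.rs.flatMap fun r => [r.a, r.b]).toFinset

/-- The longest run admitted in an extremal state. -/
def lim (m q : ℕ) : ℕ := if m = 2 * q then m - q - 2 else m - q - 1

/-- `(σ₀, k₀)` is the best pair (largest total, then fewest runs) of a state below the threshold. -/
def Best (G : SimpleGraph V) (X Q : Finset V) (m q σ₀ k₀ : ℕ) : Prop :=
  ∀ c : Conf V, c.Valid G X Q → c.sig + q + 1 ≤ m → (∀ r ∈ c.rs, r.mid.length ≤ lim m q) →
    c.sig < σ₀ ∨ c.sig = σ₀ ∧ k₀ ≤ c.rs.length

/-- What is known when a run `D` has been added to part of an extremal state. -/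
structure Added (G : SimpleGraph V) (X Q : Finset V) (m q σ₀ k₀ : ℕ) (c : Conf V) (D : Run V)
    (O : List (Run V)) : Prop where
  valid : c.Valid G X Q
  rs : c.rs = D :: O
  lo : σ₀ + q + 1 ≤ m
  best : Best G X Q m q σ₀ k₀
  lim : ∀ r ∈ O, r.mid.length ≤ lim m q
  sum : (O.map fun r => r.mid.length).sum ≤ σ₀
  cnt : O.length ≤ k₀
  part : (O.map fun r => r.mid.length).sum < σ₀ → O.length < k₀
  tot : m ≤ (O.map fun r => r.mid.length).sum + D.mid.length + q

/-- Adding a run of at least three vertices gives a cycle of length `m`, with two exceptions. -/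
def OverPin : Prop :=
  ∀ (V : Type) (G : SimpleGraph V) (m a q : ℕ) (X Q : Finset V), Clash G m a q X Q →
    ∀ (σ₀ k₀ : ℕ) (c : Conf V) (D : Run V) (O : List (Run V)), Added G X Q m q σ₀ k₀ c D O →
      3 ≤ D.mid.length → D.mid.length + q + 1 ≤ m →
      2 * q ≤ m + 1 ∧
        ((D.mid.length + q + 1 = m ∧ (∀ r ∈ O, r.mid.length ≠ 1) ∧
            ∃ d ∈ O, d.mid.length = lim m q ∧ EndsDisj D d) ∨
          (m = 14 ∧ q = 7 ∧ D.mid.length = 3 ∧
            ∃ d ∈ O, ∃ d' ∈ O, d.mid.length = 3 ∧ d'.mid.length = 3 ∧ EndsDisj D d ∧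
              EndsDisj D d' ∧ EndsDisj d d'))

/-- Adding a run of two vertices gives a cycle of length `m`, unless every vertex of `Q` is used. -/
def Over2Pin : Prop :=
  ∀ (V : Type) (G : SimpleGraph V) (m a q : ℕ) (X Q : Finset V), Clash G m a q X Q →
    ∀ (σ₀ k₀ : ℕ) (c : Conf V) (D : Run V) (O : List (Run V)), Added G X Q m q σ₀ k₀ c D O →
      D.mid.length = 2 →
      (∀ r ∈ O, r.mid.length ≠ 1) ∧ c.ends.card = q ∧ 2 * q ≤ m + 1 ∧
        (O.map fun r => r.mid.length).sum + q + 1 = m

/-- Enough run vertices and few enough vertices of `Q` on them give a cycle of length `m`. -/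
def CycPin : Prop :=
  ∀ (V : Type) (G : SimpleGraph V) (m : ℕ) (X Q : Finset V) (c : Conf V),
    G.IsClique (Q : Set V) → c.Valid G X Q → c.rs ≠ [] → 3 ≤ m →
    c.sig + c.ends.card ≤ m → m ≤ c.sig + Q.card → HasCyc G m

/-- A sublist of runs is still a state. -/
theorem Conf.Valid.sub {G : SimpleGraph V} {X Q : Finset V} {c : Conf V} (h : c.Valid G X Q)
    {rs : List (Run V)} (hs : List.Sublist rs c.rs) : (⟨c.L, rs⟩ : Conf V).Valid G X Q where
  nodupL := h.nodupL
  memL := h.memL
  ne r hr := h.ne r (hs.subset hr)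
  chain r hr := h.chain r (hs.subset hr)
  out r hr := h.out r (hs.subset hr)
  next r hr := h.next r (hs.subset hr)
  nodupM := h.nodupM.sublist (hs.flatMap Run.mid)
  apart := h.apart.sublist hs

end Vale.Agent.P048.Full
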