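import Vale.Agent.P048.Full.Clash.Sides

/-! # Degenerate states: an empty state with `m = 2q`, and a clique on `m - 1` vertices -/

namespace Vale.Agent.P048.Full

open Finset

variable {V : Type} {G : SimpleGraph V} {m a q : ℕ} {X Q : Finset V} {c : Conf V}

/-- For `m = 2q` an extremal state has a run. -/
theorem Ext.empty_even_false (hx : Ext G m a q X Q c) (hO : OverPin) (hO2 : Over2Pin)
    (he : m = 2 * q) (hrs : c.rs = []) : False := by
  classical
  have hm := hx.hC.hm
  have hQ := hx.hC.hQ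
  have hends : c.ends = ∅ := by simp [Conf.ends, hrs]
  have hin : inner c = ∅ := by simp [inner, hrs]
  have hnot : ∀ u, u ∉ c.ends := by simp [hends]
  have sep : ∀ u ∈ Q, ∀ v ∈ Q, u ≠ v →
      ∀ y ∈ att G X Q c u, ∀ z ∈ att G X Q c v, y ≠ z ∧ ¬G.Adj y z := fun u hu v hv hne =>
    hx.att_sep hO hO2 (by omega) (apart_of_notMem_ends hx.valid hu hv hne.symm (hnot u)).1
      (not_middle_of_notMem_ends hx.valid (hnot u)) (not_middle_of_notMem_ends hx.valid (hnot v))
      (Or.inr fun c' l h => Or.inl (by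
        have h1 := Finset.card_le_card (ends_cons_subset (c := c) (D := ⟨u, v, l⟩) h)
        have h2 := Finset.card_insert_le u (insert v c.ends)
        have h3 := Finset.card_insert_le v c.ends
        rw [hends, Finset.card_empty] at h3
        rw [hends] at h1 h2
        simp only at h1
        omega))
  have two : ∀ u ∈ Q, 2 ≤ alpha G (att G X Q c u) := by
    intro u hu
    by_contra h
    have hc := isClique_of_alpha_le_one (G := G) (show alpha G (att G X Q c u) ≤ 1 by omega)
    have hcard := hx.att_card hu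
    rw [hin, Finset.filter_empty, Finset.card_empty] at hcard
    have hnu : u ∉ att G X Q c u := fun h => (mem_att.1 h).2.2.1 hu
    have := hx.hC.hω (insert u (att G X Q c u))
      (Finset.insert_subset (hx.hC.hQX hu) fun z hz => (mem_att.1 hz).1) (by
        rw [Finset.coe_insert]
        exact hc.insert fun z hz _ => (mem_att.1 hz).2.1)
    rw [Finset.card_insert_of_notMem hnu] at this
    omega
  have key : ∀ T : Finset V, T ⊆ Q → 2 * T.card ≤ alpha G (T.biUnion (att G X Q c)) := by
    intro T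
    induction T using Finset.induction_on with
    | empty => simp
    | insert u T hu ih =>
      intro hsub
      obtain ⟨huQ, hT⟩ := Finset.insert_subset_iff.1 hsub
      have hs : ∀ y ∈ att G X Q c u, ∀ z ∈ T.biUnion (att G X Q c), y ≠ z ∧ ¬G.Adj y z := by
        intro y hy z hz
        obtain ⟨v, hv, hzv⟩ := Finset.mem_biUnion.1 hz
        exact sep u huQ v (hT hv) (fun e => hu (e ▸ hv)) y hy z hzv
      have h1 := alpha_add_le (G := G) (W := (insert u T).biUnion (att G X Q c))
        (X := att G X Q c u) (Y := T.biUnion (att G X Q c))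
        (Finset.subset_biUnion_of_mem _ (Finset.mem_insert_self u T))
        (Finset.biUnion_subset_biUnion_of_subset_left _ (Finset.subset_insert u T))
        (Finset.disjoint_left.2 fun y hy hz => (hs y hy y hz).1 rfl) fun y hy z hz => (hs y hy z hz).2
      have := two u huQ
      have := ih hT
      rw [Finset.card_insert_of_notMem hu]
      omega
  have h1 := key Q (Finset.Subset.refl Q)
  have h2 : alpha G (Q.biUnion (att G X Q c)) ≤ alpha G X := alpha_mono fun z hz => by
    obtain ⟨v, -, hv⟩ := Finset.mem_biUnion.1 hz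
    exact (mem_att.1 hv).1
  have := hx.hC.hX
  have := hx.hC.ha
  rw [hx.hC.hQc] at h1
  omega

/-- No clique on `m - 1` vertices. -/
theorem Clash.top_false (hC : Clash G m a q X Q) (hq : q + 1 = m) : False := by
  classical
  have hm := hC.hm
  -- an outside path of at most four vertices between two vertices of the clique closes a cycle
  have noPath : ∀ u ∈ Q, ∀ v ∈ Q, u ≠ v → ∀ l : List V, l ≠ [] → l.length ≤ 4 →
      List.IsChain G.Adj (u :: (l ++ [v])) → (∀ x ∈ l, x ∈ X ∧ x ∉ Q) → l.Nodup → False := by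
    intro u hu v hv hne l h1 h2 h3 h4 h5
    have hv0 : (⟨Q.toList, []⟩ : Conf V).Valid G X Q := ⟨Q.nodup_toList,
      fun x => Finset.mem_toList, by simp, by simp, by simp, by simp, by simp, by simp⟩
    have hnot : ∀ w, w ∉ (⟨Q.toList, []⟩ : Conf V).ends := by simp [Conf.ends]
    obtain ⟨c', hv', hrs⟩ := join hv0 (apart_of_notMem_ends hv0 hu hv hne.symm (hnot u)).1
      (not_middle_of_notMem_ends hv0 (hnot u)) (not_middle_of_notMem_ends hv0 (hnot v)) h1 h3 h4 h5
      (by simp)
    have hpos := List.length_pos_iff.2 h1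
    exact hC.solo hv' (hrs ▸ List.mem_cons_self) (by simp only; omega) (by simp only; omega)
  -- outside neighbours
  have hout : ∀ u ∈ Q, ∃ y, y ∈ X ∧ y ∉ Q ∧ G.Adj u y := by
    intro u hu
    by_contra h
    push Not at h
    have hsub : nb G X u ⊆ Q.erase u := fun y hy => by
      obtain ⟨h1, h2⟩ := mem_nb.1 hy
      refine Finset.mem_erase.2 ⟨h2.ne.symm, ?_⟩
      by_contra h3
      exact h y h1 h3 h2
    have := Finset.card_le_card hsub
    rw [Finset.card_erase_of_mem hu, hC.hQc] at this
    have := hC.deg u (hC.hQX hu)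
    omega
  obtain ⟨c0, hc0⟩ := Finset.card_pos.1 (show 0 < Q.card by rw [hC.hQc]; omega)
  obtain ⟨f, hf⟩ : ∃ f : V → V, ∀ u ∈ Q, f u ∈ X ∧ f u ∉ Q ∧ G.Adj u (f u) := by
    refine ⟨fun u => if hu : u ∈ Q then (hout u hu).choose else u, fun u hu => ?_⟩
    simp only [dif_pos hu]
    exact (hout u hu).choose_spec
  -- outside neighbours of different vertices are distinct and non-adjacent
  have one : ∀ u ∈ Q, ∀ v ∈ Q, u ≠ v → ∀ y, y ∈ X → y ∉ Q → G.Adj u y → ∀ z, z ∈ X → z ∉ Q →
      G.Adj v z → y ≠ z ∧ ¬G.Adj y z := by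
    intro u hu v hv hne y yX yQ hy z zX zQ hz
    refine ⟨?_, fun e => noPath u hu v hv hne [y, z] (by simp) (by simp)
      (by simp [hy, e, hz.symm]) (by simp [yX, yQ, zX, zQ]) (by simp [e.ne])⟩
    rintro rfl
    exact noPath u hu v hv hne [y] (by simp) (by simp) (by simp [hy, hz.symm]) (by simp [yX, yQ])
      (by simp)
  let S := (Q.erase c0).image f
  have hSc : S.card + 2 = m := by
    have hinj : Set.InjOn f (Q.erase c0 : Finset V) := fun u hu v hv e => by
      by_contra hne
      have hu' := Finset.mem_of_mem_erase (Finset.mem_coe.1 hu)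
      have hv' := Finset.mem_of_mem_erase (Finset.mem_coe.1 hv)
      exact (one u hu' v hv' hne (f u) (hf u hu').1 (hf u hu').2.1 (hf u hu').2.2 (f v)
        (hf v hv').1 (hf v hv').2.1 (hf v hv').2.2).1 e
    rw [Finset.card_image_of_injOn hinj, Finset.card_erase_of_mem hc0, hC.hQc]
    omega
  have hS : Indep G S := by
    intro p hp r hr e
    obtain ⟨u, hu, rfl⟩ := Finset.mem_image.1 hp
    obtain ⟨v, hv, rfl⟩ := Finset.mem_image.1 hr
    have hu' := Finset.mem_of_mem_erase hu
    have hv' := Finset.mem_of_mem_erase hv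
    exact (one u hu' v hv' (fun h => e.ne (h ▸ rfl)) (f u) (hf u hu').1 (hf u hu').2.1
      (hf u hu').2.2 (f v) (hf v hv').1 (hf v hv').2.1 (hf v hv').2.2).2 e
  have hSX : S ⊆ X := fun p hp => by
    obtain ⟨u, hu, rfl⟩ := Finset.mem_image.1 hp
    exact (hf u (Finset.mem_of_mem_erase hu)).1
  have finish : ∀ p r, p ∈ X → r ∈ X → p ≠ r → ¬G.Adj p r →
      (∀ s ∈ S, p ≠ s ∧ ¬G.Adj p s ∧ r ≠ s ∧ ¬G.Adj r s) → False := by
    intro p r hp hr hne hn h
    have hd : Disjoint ({p, r} : Finset V) S := by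
      rw [Finset.disjoint_left]
      intro z hz hzS
      simp only [Finset.mem_insert, Finset.mem_singleton] at hz
      rcases hz with rfl | rfl
      · exact (h z hzS).1 rfl
      · exact (h z hzS).2.2.1 rfl
    have hI : Indep G ({p, r} ∪ S) := (Indep.pair hn).union hS fun z hz s hs => by
      simp only [Finset.mem_insert, Finset.mem_singleton] at hz
      rcases hz with rfl | rfl
      · exact (h s hs).2.1
      · exact (h s hs).2.2.2
    have h1 := le_alpha (G := G) (W := X)
      (Finset.union_subset (Finset.insert_subset hp (Finset.singleton_subset_iff.2 hr)) hSX) hI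
    rw [Finset.card_union_of_disjoint hd, Finset.card_pair hne] at h1
    have := hC.hX
    have := hC.ha
    omega
  obtain ⟨yX, yQ, hy⟩ := hf c0 hc0
  generalize f c0 = y at yX yQ hy
  let N := (nb G X y).erase c0
  have hN : ∀ z ∈ N, z ∈ X ∧ z ∉ Q ∧ G.Adj y z := by
    intro z hz
    obtain ⟨hne, hz⟩ := Finset.mem_erase.1 hz
    obtain ⟨zX, hyz⟩ := mem_nb.1 hz
    exact ⟨zX, fun zQ => noPath c0 hc0 z zQ hne.symm [y] (by simp) (by simp) (by simp [hy, hyz])
      (by simp [yX, yQ]) (by simp), hyz⟩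
  have hNc : m ≤ N.card + 2 := by
    have h1 := hC.deg y yX
    have h2 : (nb G X y).card - 1 ≤ N.card := Finset.pred_card_le_card_erase
    omega
  have sepS : ∀ z ∈ N, ∀ s ∈ S, z ≠ s ∧ ¬G.Adj z s ∧ y ≠ s ∧ ¬G.Adj y s := by
    intro z hz s hs
    obtain ⟨zX, zQ, hyz⟩ := hN z hz
    obtain ⟨u, hu, rfl⟩ := Finset.mem_image.1 hs
    obtain ⟨huc, hu'⟩ := Finset.mem_erase.1 hu
    obtain ⟨sX, sQ, hus⟩ := hf u hu'
    have hys := one c0 hc0 u hu' (Ne.symm huc) y yX yQ hy (f u) sX sQ hus
    refine ⟨fun e => hys.2 (e ▸ hyz), fun e => ?_, hys⟩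
    exact noPath u hu' c0 hc0 huc [f u, z, y] (by simp) (by simp)
      (by simp [hus, e.symm, hyz.symm, hy.symm]) (by simp [sX, sQ, zX, zQ, yX, yQ])
      (by simp [e.ne.symm, hys.1.symm, hyz.ne.symm])
  by_cases hNq : G.IsClique (N : Set V)
  · have hyN : y ∉ N := fun h => G.irrefl (hN y h).2.2
    have hNX : insert y N ⊆ X := Finset.insert_subset yX fun z hz => (hN z hz).1
    have hK : G.IsClique ((insert y N : Finset V) : Set V) := by
      rw [Finset.coe_insert]
      exact hNq.insert fun z hz _ => (hN z hz).2.2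
    have hKc := hC.hω _ hNX hK
    rw [Finset.card_insert_of_notMem hyN] at hKc
    obtain ⟨z, hz, hzc⟩ : ∃ z ∈ N, ¬G.Adj c0 z := by
      by_contra h
      push Not at h
      have := hC.hω (insert c0 (insert y N)) (Finset.insert_subset (hC.hQX hc0) hNX) (by
        rw [Finset.coe_insert]
        exact hK.insert fun w hw _ => by
          rcases Finset.mem_insert.1 (Finset.mem_coe.1 hw) with rfl | hw
          · exact hy
          · exact h w hw)
      rw [Finset.card_insert_of_notMem, Finset.card_insert_of_notMem hyN] at this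
      · omega
      · simp only [Finset.mem_insert, not_or]
        exact ⟨hy.ne, fun h => (hN c0 h).2.1 hc0⟩
    obtain ⟨zX, zQ, hyz⟩ := hN z hz
    obtain ⟨w, hw, hwK⟩ : ∃ w ∈ nb G X z, w ∉ (insert y N).erase z := by
      by_contra h
      push Not at h
      have h1 := Finset.card_le_card (fun w hw => h w hw : nb G X z ⊆ (insert y N).erase z)
      rw [Finset.card_erase_of_mem (Finset.mem_insert_of_mem hz),
        Finset.card_insert_of_notMem hyN] at h1
      have := hC.deg z zX
      omega
    obtain ⟨wX, hzw⟩ := mem_nb.1 hw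
    simp only [Finset.mem_erase, Finset.mem_insert, not_and, not_or] at hwK
    obtain ⟨hwy, hwN⟩ := hwK hzw.ne.symm
    have wQ : w ∉ Q := fun wQ => by
      by_cases hwc : w = c0
      · exact hzc (hwc ▸ hzw.symm)
      · exact noPath w wQ c0 hc0 hwc [z, y] (by simp) (by simp)
          (by simp [hzw.symm, hyz.symm, hy.symm]) (by simp [zX, zQ, yX, yQ]) (by simp [hyz.ne.symm])
    have hyw : ¬G.Adj y w := fun h => hwN (Finset.mem_erase.2
      ⟨fun e => wQ (e ▸ hc0), mem_nb.2 ⟨wX, h⟩⟩)
    refine finish y w yX wX (Ne.symm hwy) hyw fun s hs => ?_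
    obtain ⟨h1, h2, h3, h4⟩ := sepS z hz s hs
    obtain ⟨u, hu, rfl⟩ := Finset.mem_image.1 hs
    obtain ⟨huc, hu'⟩ := Finset.mem_erase.1 hu
    obtain ⟨sX, sQ, hus⟩ := hf u hu'
    have hws : w ≠ f u := fun e => h2 (e ▸ hzw)
    refine ⟨h3, h4, hws, fun e => ?_⟩
    exact noPath u hu' c0 hc0 huc [f u, w, z, y] (by simp) (by simp)
      (by simp [hus, e.symm, hzw.symm, hyz.symm, hy.symm])
      (by simp [sX, sQ, wX, wQ, zX, zQ, yX, yQ])
      (by simp [hws.symm, h1.symm, h3.symm, hzw.ne.symm, hwy, hyz.ne.symm])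
  · simp only [SimpleGraph.isClique_iff, Set.Pairwise, Finset.mem_coe] at hNq
    push Not at hNq
    obtain ⟨p, hp, r, hr, hne, hn⟩ := hNq
    exact finish p r (hN p hp).1 (hN r hr).1 hne hn fun s hs =>
      ⟨(sepS p hp s hs).1, (sepS p hp s hs).2.1, (sepS r hr s hs).1, (sepS r hr s hs).2.1⟩

end Vale.Agent.P048.Full
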