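import Vale.Agent.P048.Full.Clash.Ten

/-! # The general case: few single runs and two free vertices -/

namespace Vale.Agent.P048.Full

open Finset

variable {V : Type} {G : SimpleGraph V} {m a q : ℕ} {X Q : Finset V} {c : Conf V}

theorem Ext.len_le_sig (hx : Ext G m a q X Q c) : c.rs.length ≤ c.sig := by
  have := List.length_le_sum_of_one_le (c.rs.map fun r => r.mid.length) (by
    simp only [List.mem_map]
    rintro _ ⟨r, hr, rfl⟩
    exact List.length_pos_iff.2 (hx.valid.ne r hr))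
  simpa [Conf.sig] using this

theorem Ext.two_len_le_sig (hx : Ext G m a q X Q c) (h : ∀ r ∈ c.rs, r.mid.length ≠ 1) :
    2 * c.rs.length ≤ c.sig := by
  have := List.card_nsmul_le_sum (c.rs.map fun r => r.mid.length) 2 (by
    simp only [List.mem_map]
    rintro _ ⟨r, hr, rfl⟩
    have := List.length_pos_iff.2 (hx.valid.ne r hr)
    have := h r hr
    omega)
  simpa [Conf.sig, Nat.mul_comm] using this

/-- The first exception forces a single run of the largest length. -/
theorem Ext.excA (hx : Ext G m a q X Q c) (hq : 2 * q ≤ m + 1)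
    (hno : ∀ r ∈ c.rs, r.mid.length ≠ 1) {d : Run V} (hd : d ∈ c.rs)
    (hl : d.mid.length = Full.lim m q) : c.rs = [d] := by
  obtain ⟨A, B, e⟩ := List.mem_iff_append.1 hd
  rcases hAB : A ++ B with _ | ⟨s, T⟩
  · obtain ⟨rfl, rfl⟩ := List.append_eq_nil_iff.1 hAB
    simpa using e
  exfalso
  have hs : s ∈ c.rs := by
    have : s ∈ A ++ B := by rw [hAB]; simp
    rw [e]
    simp only [List.mem_append, List.mem_cons] at this ⊢
    tauto
  have h2 : 2 ≤ s.mid.length := by
    have := List.length_pos_iff.2 (hx.valid.ne s hs)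
    have := hno s hs
    omega
  have hle : s.mid.length ≤ ((A ++ B).map fun r => r.mid.length).sum :=
    List.le_sum_of_mem (List.mem_map.2 ⟨s, by rw [hAB]; simp, rfl⟩)
  have hsig : c.sig = d.mid.length + ((A ++ B).map fun r => r.mid.length).sum := by
    simp [Conf.sig, e]; omega
  have := hx.lo
  simp only [Full.lim] at hl
  split at hl <;> omega

/-- The second exception forces two runs of three vertices. -/
theorem Ext.excB (hx : Ext G m a q X Q c) (hm : m = 14) (hq : q = 7) {d d' : Run V}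
    (hd : d ∈ c.rs) (hd' : d' ∈ c.rs) (e1 : d.mid.length = 3) (e2 : d'.mid.length = 3)
    (hdd : EndsDisj d d') :
    c.rs.length = 2 ∧ (∀ r ∈ c.rs, r = d ∨ r = d') ∧ 4 ≤ c.ends.card := by
  classical
  obtain ⟨A, B, e⟩ := List.mem_iff_append.1 hd
  have hd'' : d' ∈ A ++ B := by
    rw [e] at hd'
    simp only [List.mem_append, List.mem_cons] at hd' ⊢
    rcases hd' with h | h | h
    · exact Or.inl h
    · exact absurd (show d.a = d'.a by rw [h]) hdd.1
    · exact Or.inr h
  obtain ⟨C, D, e'⟩ := List.mem_iff_append.1 hd''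
  have hsig : c.sig = d.mid.length + ((A ++ B).map fun r => r.mid.length).sum := by
    simp [Conf.sig, e]; omega
  have hlen : c.rs.length = 1 + (A ++ B).length := by simp [e]; omega
  have hmem : ∀ r ∈ c.rs, r = d ∨ r ∈ A ++ B := fun r hr => by
    rw [e] at hr
    simp only [List.mem_append, List.mem_cons] at hr ⊢
    tauto
  rw [e'] at hsig hlen hmem
  have hlo := hx.lo
  rcases hCD : C ++ D with _ | ⟨s, T⟩
  · obtain ⟨rfl, rfl⟩ := List.append_eq_nil_iff.1 hCD
    refine ⟨by simpa using hlen, fun r hr => by simpa using hmem r hr, ?_⟩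
    have hsub : ({d.a, d.b, d'.a, d'.b} : Finset V) ⊆ c.ends := by
      intro x hx'
      simp only [Finset.mem_insert, Finset.mem_singleton] at hx'
      rcases hx' with rfl | rfl | rfl | rfl
      exacts [mem_ends.2 ⟨d, hd, Or.inl rfl⟩, mem_ends.2 ⟨d, hd, Or.inr rfl⟩,
        mem_ends.2 ⟨d', hd', Or.inl rfl⟩, mem_ends.2 ⟨d', hd', Or.inr rfl⟩]
    have := Finset.card_le_card hsub
    have n1 := hx.valid.ne_ends hd
    have n2 := hx.valid.ne_ends hd'
    obtain ⟨x1, x2, x3, x4⟩ := hdd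
    simp [n1, n2, x1, x2, x3, x4] at this
    exact this
  · exfalso
    have hs : s ∈ C ++ D := by rw [hCD]; simp
    have hsm : s ∈ c.rs := by
      have : s ∈ A ++ B := by
        rw [e']; simp only [List.mem_append, List.mem_cons] at hs ⊢; tauto
      rw [e]
      simp only [List.mem_append, List.mem_cons] at this ⊢
      tauto
    have := List.length_pos_iff.2 (hx.valid.ne s hsm)
    have hle : s.mid.length ≤ ((C ++ D).map fun r => r.mid.length).sum :=
      List.le_sum_of_mem (List.mem_map.2 ⟨s, hs, rfl⟩)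
    simp only [List.map_append, List.map_cons, List.sum_append, List.sum_cons] at hsig hle
    omega

theorem att_notMem {R : Finset V} {u x : V} (hR : ∀ y ∈ R, y ∈ Q ∨ y ∈ inner c)
    (hx : x ∈ att G X Q c u) : x ∉ R := fun h => by
  obtain ⟨-, -, h1, h2⟩ := mem_att.1 hx
  exact (hR x h).elim h1 h2

open Classical in
/-- Two free vertices with a join of two vertices still have attachment sets of independence
number two. -/
theorem Ext.free_pair (hx : Ext G m a q X Q c) (hO : OverPin) (hO2 : Over2Pin) (hK : q + 2 ≤ m)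
    (hC0 : m = 2 * q → c.rs ≠ [])
    (hE1 : ∀ r, c.rs = [r] → r.mid.length = Full.lim m q → m + 2 ≤ 2 * q)
    {f₁ f₂ : V} (h1 : f₁ ∈ Q) (h2 : f₂ ∈ Q) (hne : f₁ ≠ f₂) (e1 : f₁ ∉ c.ends)
    (e2 : f₂ ∉ c.ends) (hV : c.ends.card + 2 ≤ q) :
    2 ≤ alpha G (att G X Q c f₁ ∪ att G X Q c f₂) := by
  have hap : Apart c f₁ f₂ := (apart_of_notMem_ends hx.valid h1 h2 hne.symm e1).1
  have n1 := not_middle_of_notMem_ends hx.valid e1
  have n2 := not_middle_of_notMem_ends hx.valid e2
  by_cases hplain : (∃ r ∈ c.rs, r.mid.length = 1) ∨ c.ends.card + 3 ≤ q ∨ m + 2 ≤ 2 * q ∨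
      c.sig + q + 1 ≠ m
  · refine hx.att_pair h1 h2 (hx.att_sep hO hO2 hK hap n1 n2 (hplain.imp_right fun h c' l hrs => ?_))
    rcases h with h | h | h
    · refine Or.inl ?_
      have := Finset.card_le_card (ends_cons_subset hrs)
      have := Finset.card_insert_le f₁ (insert f₂ c.ends)
      have := Finset.card_insert_le f₂ c.ends
      simp only at *
      omega
    · exact Or.inr (Or.inl h)
    · exact Or.inr (Or.inr h)
  simp only [not_or, not_exists, not_and, not_le] at hplain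
  obtain ⟨hno, hV', hq, hs⟩ := hplain
  have hs : c.sig + q + 1 = m := not_ne_iff.1 hs
  have hm := hx.hC.hm
  have hq1 := hx.hC.hq1
  have hk : 2 ≤ c.rs.length := by
    have := ends_card_le c
    omega
  by_contra hlt
  have hcl := isClique_of_alpha_le_one (G := G) (X := att G X Q c f₁ ∪ att G X Q c f₂) (by omega)
  have hdisj : ∀ y ∈ att G X Q c f₁, y ∉ att G X Q c f₂ := by
    intro y hy hy'
    rw [mem_att] at hy hy'
    obtain ⟨c', hv', hrs, h⟩ := hx.joinStep hO hO2 hap n1 n2 (l := [y]) (by simp) (by simp; omega)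
      (by simp [hy.2.1, hy'.2.1.symm]) (by simpa using ⟨hy.1, hy.2.2⟩) (by simp)
    rcases h with ⟨-, ⟨h, -⟩ | ⟨h, -⟩⟩ | ⟨-, h, -⟩
    · simp at h
    · simp at h
    · simp [h] at hk
  obtain ⟨y, hy⟩ := hx.att_nonempty h1
  obtain ⟨z, hz⟩ := hx.att_nonempty h2
  have hyz : y ≠ z := fun e => hdisj y hy (e ▸ hz)
  have hadj : G.Adj y z := hcl (Finset.mem_union_left _ hy) (Finset.mem_union_right _ hz) hyz
  -- no free vertex sees the last but one vertex of a run
  have pen : ∀ f g y z : V, f ∈ Q → g ∈ Q → f ≠ g → f ∉ c.ends → g ∉ c.ends →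
      y ∈ att G X Q c f → z ∈ att G X Q c g → G.Adj y z →
      ∀ r ∈ c.rs, ¬G.Adj f (r.mid.dropLast.getLastD r.a) := by
    intro f g y z hf hg hfg ef eg hy hz hyz r hr hfp
    obtain ⟨O₁, O₂, hsplit⟩ := List.mem_iff_append.1 hr
    obtain ⟨h0, -, hna, -⟩ := erase_run hx.valid hsplit
    have hs0 : List.Sublist (O₁ ++ O₂) c.rs :=
      hsplit ▸ (List.sublist_cons_self r O₂).append_left O₁
    have hlen2 : 2 ≤ r.mid.length := by
      have := List.length_pos_iff.2 (hx.valid.ne r hr)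
      have := hno r hr
      omega
    obtain ⟨ini, p, hini⟩ : ∃ ini p, r.mid.dropLast = ini ++ [p] := by
      rcases r.mid.dropLast.eq_nil_or_concat with h | ⟨ini, p, h⟩
      · exfalso
        have := congrArg List.length h
        simp at this
        omega
      · exact ⟨ini, p, by simpa using h⟩
    obtain ⟨lst, hlst⟩ : ∃ lst, r.mid = ini ++ [p] ++ [lst] := by
      refine ⟨r.mid.getLast (hx.valid.ne r hr), ?_⟩
      rw [← hini, List.dropLast_concat_getLast]
    rw [hini] at hfp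
    simp only [List.getLastD_concat] at hfp
    have hmemE : ∀ w, w ∈ (⟨c.L, O₁ ++ O₂⟩ : Conf V).ends → w ∈ c.ends := by
      intro w hw
      obtain ⟨s, hs', e⟩ := mem_ends.1 hw
      exact mem_ends.2 ⟨s, hs0.subset hs', e⟩
    have hfa : r.a ≠ f := fun e => ef (e ▸ mem_ends.2 ⟨r, hr, Or.inl rfl⟩)
    have haQ : r.a ∈ Q := hx.valid.ends_subset (mem_ends.2 ⟨r, hr, Or.inl rfl⟩)
    have hch := hx.valid.chain r hr
    rw [hlst, show r.a :: (ini ++ [p] ++ [lst] ++ [r.b]) =
      (r.a :: (ini ++ [p])) ++ [lst, r.b] by simp] at hch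
    have hndM := hx.valid.nodupM
    rw [hsplit] at hndM
    have hnd' : ((r :: (O₁ ++ O₂)).flatMap Run.mid).Nodup :=
      (List.perm_middle.flatMap_right Run.mid).nodup_iff.1 hndM
    rw [List.flatMap_cons, List.nodup_append] at hnd'
    have hini_mem : ∀ w ∈ ini ++ [p], w ∈ r.mid := fun w hw => by
      rw [hlst]; exact List.mem_append_left _ hw
    obtain ⟨c₁, hv1, hrs1⟩ := join h0 (u := r.a) (v := f)
      (apart_of_notMem_ends h0 hf haQ hfa fun e => ef (hmemE f e)).1.symm hna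
      (not_middle_of_notMem_ends h0 fun e => ef (hmemE f e)) (mid := ini ++ [p]) (by simp)
      (by
        rw [← List.cons_append]
        refine hch.left_of_append.append (List.IsChain.singleton f) fun w hw s hs => ?_
        simp only [List.getLast?_cons, List.getLast?_concat, Option.getD_some, Option.mem_def,
          Option.some.injEq] at hw
        simp only [List.head?_cons, Option.mem_def, Option.some.injEq] at hs
        exact hw ▸ hs ▸ hfp.symm)
      (fun w hw => hx.valid.out r hr w (hini_mem w hw))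
      (hnd'.1.sublist (hlst ▸ List.sublist_append_left _ _))
      (fun s hs w hw hw' => hnd'.2.2 w (hini_mem w hw') w
        (List.mem_flatMap.2 ⟨s, hs, hw⟩) rfl)
    have hE1' : ∀ w, w ∈ c₁.ends → w = r.a ∨ w = f ∨ w ∈ c.ends := by
      intro w hw
      obtain ⟨s, hs', e⟩ := mem_ends.1 hw
      rw [hrs1, List.mem_cons] at hs'
      rcases hs' with rfl | hs'
      · simp only at e
        tauto
      · exact Or.inr (Or.inr (mem_ends.2 ⟨s, hs0.subset hs', e⟩))
    have hg1 : g ∉ c₁.ends := by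
      intro hw
      rcases hE1' g hw with rfl | rfl | h
      · exact eg (mem_ends.2 ⟨r, hr, Or.inl rfl⟩)
      · exact hfg rfl
      · exact eg h
    have hnf : ¬Middle c₁ f := by
      intro hM
      obtain ⟨s, hs, t, ht, hst, es, et⟩ := hM.two hv1
      rw [hrs1, List.mem_cons] at hs ht
      have : ∀ w ∈ O₁ ++ O₂, ¬(f = w.a ∨ f = w.b) := fun w hw e =>
        ef (mem_ends.2 ⟨w, hs0.subset hw, e⟩)
      rcases hs with rfl | hs
      · rcases ht with rfl | ht
        · exact hst rfl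
        · exact this t ht et
      · exact this s hs es
    rw [mem_att] at hy hz
    obtain ⟨c₂, hv2, hrs2⟩ := join hv1 (u := f) (v := g)
      (apart_of_notMem_ends hv1 hg hf hfg hg1).1.symm hnf (not_middle_of_notMem_ends hv1 hg1)
      (mid := [y, z]) (by simp) (by simp [hy.2.1, hyz, hz.2.1.symm])
      (by simp [hy.1, hy.2.2.1, hz.1, hz.2.2.1]) (by simp [hyz.ne]) (fun s hs w hw hw' => by
        have hwi : w ∈ inner c := by
          rw [hrs1, List.mem_cons] at hs
          rcases hs with rfl | hs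
          · exact mem_inner.2 ⟨r, hr, hini_mem w hw⟩
          · exact mem_inner.2 ⟨s, hs0.subset hs, hw⟩
        simp only [List.mem_cons, List.not_mem_nil, or_false] at hw'
        rcases hw' with rfl | rfl
        · exact hy.2.2.2 hwi
        · exact hz.2.2.2 hwi)
    refine hx.hC.exact hv2 ?_
    have e : c.sig = r.mid.length + ((O₁ ++ O₂).map fun w => w.mid.length).sum := by
      simp [Conf.sig, hsplit]; omega
    have e' : r.mid.length = ini.length + 2 := by simp [hlst]
    rw [show c₂.sig = 2 + ((ini.length + 1) + ((O₁ ++ O₂).map fun w => w.mid.length).sum) by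
      simp [Conf.sig, hrs2, hrs1]]
    omega
  have count : ∀ f, f ∈ Q → (∀ r ∈ c.rs, ¬G.Adj f (r.mid.dropLast.getLastD r.a)) →
      c.rs.length + 1 ≤ (att G X Q c f).card := by
    intro f hf hp
    have hcard := hx.att_card hf
    let P := c.rs.map fun r => r.mid.dropLast.getLastD r.a
    have hsubl : ∀ O : List (Run V), (∀ r ∈ O, 2 ≤ r.mid.length) →
        List.Sublist (O.map fun r => r.mid.dropLast.getLastD r.a) (O.flatMap Run.mid) := by
      intro O hO
      induction O with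
      | nil => simp
      | cons r t ih =>
        rw [List.map_cons, List.flatMap_cons]
        refine List.Sublist.append (l₁ := [_]) (List.singleton_sublist.2 ?_)
          (ih fun s hs => hO s (List.mem_cons_of_mem r hs))
        have hne : r.mid.dropLast ≠ [] := fun e => by
          have := congrArg List.length e
          simp at this
          have := hO r (by simp)
          omega
        rw [List.getLastD_eq_getLast?, List.getLast?_eq_some_getLast hne]
        exact List.dropLast_subset _ (List.getLast_mem hne)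
    have h2len : ∀ r ∈ c.rs, 2 ≤ r.mid.length := fun r hr => by
      have := List.length_pos_iff.2 (hx.valid.ne r hr)
      have := hno r hr
      omega
    have hPn : P.Nodup := hx.valid.nodupM.sublist (hsubl c.rs h2len)
    have hP : P.toFinset ⊆ (inner c).filter fun x => x ∉ nb G X f := by
      intro x hx'
      rw [List.mem_toFinset] at hx'
      refine Finset.mem_filter.2 ⟨?_, fun h => ?_⟩
      · obtain ⟨r, hr, hxr⟩ := List.mem_flatMap.1 ((hsubl c.rs h2len).subset hx')
        exact mem_inner.2 ⟨r, hr, hxr⟩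
      · obtain ⟨r, hr, rfl⟩ := List.mem_map.1 hx'
        exact hp r hr (mem_nb.1 h).2
    have := Finset.card_le_card hP
    rw [List.toFinset_card_of_nodup hPn, List.length_map] at this
    have hc := Finset.card_filter_add_card_filter_not (s := inner c) (fun x => x ∈ nb G X f)
    rw [inner_card hx.valid] at hc
    omega
  have c1 := count f₁ h1 (pen f₁ f₂ y z h1 h2 hne e1 e2 hy hz hadj)
  have c2 := count f₂ h2 (pen f₂ f₁ z y h2 h1 hne.symm e2 e1 hz hy hadj.symm)
  have hcard : 4 ≤ (att G X Q c f₁ ∪ att G X Q c f₂).card := by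
    rw [Finset.card_union_of_disjoint (Finset.disjoint_left.2 hdisj)]
    omega
  obtain ⟨w, hw⟩ : (((att G X Q c f₁ ∪ att G X Q c f₂).erase y).erase z).Nonempty := by
    rw [← Finset.card_pos, Finset.card_erase_of_mem (Finset.mem_erase.2
      ⟨hyz.symm, Finset.mem_union_right _ hz⟩), Finset.card_erase_of_mem (Finset.mem_union_left _ hy)]
    omega
  obtain ⟨w', hw'⟩ :
      ((((att G X Q c f₁ ∪ att G X Q c f₂).erase y).erase z).erase w).Nonempty := by
    rw [← Finset.card_pos, Finset.card_erase_of_mem hw, Finset.card_erase_of_mem (Finset.mem_erase.2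
      ⟨hyz.symm, Finset.mem_union_right _ hz⟩), Finset.card_erase_of_mem (Finset.mem_union_left _ hy)]
    omega
  simp only [Finset.mem_erase] at hw hw'
  have hmem : ∀ x ∈ [y, w, w', z], x ∈ att G X Q c f₁ ∪ att G X Q c f₂ := by
    simp only [List.mem_cons, List.not_mem_nil, or_false]
    rintro x (rfl | rfl | rfl | rfl)
    · exact Finset.mem_union_left _ hy
    · exact hw.2.2
    · exact hw'.2.2.2
    · exact Finset.mem_union_right _ hz
  obtain ⟨c', hv', hrs, h⟩ := hx.joinStep hO hO2 hap n1 n2 (l := [y, w, w', z]) (by simp)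
    (by simp; omega)
    (by
      simp only [List.cons_append, List.nil_append, List.isChain_cons_cons,
        List.IsChain.singleton, and_true]
      exact ⟨(mem_att.1 hy).2.1, hcl (hmem y (by simp)) (hmem w (by simp)) hw.2.1.symm,
        hcl (hmem w (by simp)) (hmem w' (by simp)) hw'.1.symm,
        hcl (hmem w' (by simp)) (hmem z (by simp)) hw'.2.1, (mem_att.1 hz).2.1.symm⟩)
    (fun x hx' => by
      rcases Finset.mem_union.1 (hmem x hx') with h | h
      · exact ⟨(mem_att.1 h).1, (mem_att.1 h).2.2⟩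
      · exact ⟨(mem_att.1 h).1, (mem_att.1 h).2.2⟩)
    (by simp [hw.2.1.symm, hw'.2.2.1.symm, hyz, hw'.1.symm, hw.1, hw'.2.1])
  rcases h with ⟨hq', ⟨-, ⟨-, hno', d, hd, hdl, -⟩ | ⟨-, -, h3, -⟩⟩ | ⟨h3, -⟩⟩ | ⟨-, h3, -⟩
  · have := hE1 d (hx.excA hq' hno' hd hdl) hdl
    omega
  · simp at h3
  · simp at h3
  · simp [h3] at hk

open Classical in
/-- A free vertex that reaches an inner vertex of one of two double runs closes a cycle. -/
theorem Ext.reach_two (hx : Ext G m a q X Q c) (h10 : m = 10) (h5 : q = 5) (hk : c.rs.length = 2)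
    (hl : ∀ r ∈ c.rs, r.mid.length = 2) {r : Run V} (hr : r ∈ c.rs) {u e e' p p' : V}
    (hu : u ∈ Q) (huE : u ∉ c.ends) (he : e = r.a ∨ e = r.b) (he' : e' = r.a ∨ e' = r.b)
    (hep : G.Adj p e) (hpp : G.Adj p p') (hpe : G.Adj p' e') (hp : p ∈ r.mid) (hp' : p' ∈ r.mid)
    {A : List V} (hA1 : 1 ≤ A.length) (hA7 : A.length ≤ 7)
    (hAch : List.IsChain G.Adj (u :: (A ++ [p]))) (hAnd : A.Nodup)
    (hAout : ∀ x ∈ A, x ∈ X ∧ x ∉ Q ∧ x ∉ inner c) : False := by
  obtain ⟨O₁, O₂, hsplit⟩ := List.mem_iff_append.1 hr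
  obtain ⟨h0, -, hna, hnb⟩ := erase_run hx.valid hsplit
  have hs0 : List.Sublist (O₁ ++ O₂) c.rs :=
    hsplit ▸ (List.sublist_cons_self r O₂).append_left O₁
  have hQE : ∀ {w}, w = r.a ∨ w = r.b → w ∈ Q ∧ w ≠ u := fun {w} hw =>
    ⟨hx.valid.ends_subset (mem_ends.2 ⟨r, hr, hw⟩), fun h => huE (h ▸ mem_ends.2 ⟨r, hr, hw⟩)⟩
  have hout := hx.valid.out r hr
  have hni : ∀ x ∈ r.mid, x ∉ A := fun x hx' hA =>
    (hAout x hA).2.2 (mem_inner.2 ⟨r, hr, hx'⟩)
  have hu0 : u ∉ (⟨c.L, O₁ ++ O₂⟩ : Conf V).ends := fun h => by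
    obtain ⟨t, ht, h⟩ := mem_ends.1 h
    exact huE (mem_ends.2 ⟨t, hs0.subset ht, h⟩)
  have h00 := hx.valid.sub (rs := []) (List.nil_sublist _)
  by_cases hL : A.length = 7
  · refine hx.hC.ten_solo h10 h5 h00 rfl hu (hQE he).1 (hQE he).2 (l := A ++ [p]) (by simp; omega)
      (by simp; omega) ?_ ?_ (List.nodup_append.2 ⟨hAnd, by simp, fun y hy y' hy' h => ?_⟩)
    · simpa using hAch.append_overlap (l₁ := u :: A) (l₂ := [p]) (l₃ := [e]) (by simp [hep]) (by simp)
    · intro y hy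
      rcases List.mem_append.1 hy with h | h
      exacts [⟨(hAout y h).1, (hAout y h).2.1⟩, List.mem_singleton.1 h ▸ hout p hp]
    · rw [List.mem_singleton.1 hy'] at h
      exact hni p hp (h ▸ hy)
  have hch' : List.IsChain G.Adj (u :: ((A ++ [p, p']) ++ [e'])) := by
    simpa using hAch.append_overlap (l₁ := u :: A) (l₂ := [p]) (l₃ := [p', e'])
      (by simp [hpp, hpe]) (by simp)
  have hmem : ∀ y ∈ A ++ [p, p'], y ∈ X ∧ y ∉ Q := by
    intro y hy
    simp only [List.mem_append, List.mem_cons, List.not_mem_nil, or_false] at hy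
    rcases hy with h | rfl | rfl
    exacts [⟨(hAout y h).1, (hAout y h).2.1⟩, hout y hp, hout y hp']
  have hnd : (A ++ [p, p']).Nodup := by
    refine List.nodup_append.2 ⟨hAnd, by simp [hpp.ne], fun y hy y' hy' h => ?_⟩
    simp only [List.mem_cons, List.not_mem_nil, or_false] at hy'
    rcases hy' with rfl | rfl
    exacts [hni _ hp (h ▸ hy), hni _ hp' (h ▸ hy)]
  by_cases hN : 5 ≤ A.length + 2
  · exact hx.hC.ten_solo h10 h5 h00 rfl hu (hQE he').1 (hQE he').2 (l := A ++ [p, p'])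
      (by simp; omega) (by simp; omega) hch' hmem hnd
  obtain ⟨c', hv', hrs⟩ := join h0 (apart_of_notMem_ends h0 hu (hQE he').1 (hQE he').2 hu0).1
    (not_middle_of_notMem_ends h0 hu0) (by rcases he' with rfl | rfl; exacts [hna, hnb])
    (mid := A ++ [p, p']) (by simp) hch' hmem hnd (fun t ht x hx1 hx2 => by
      simp only [List.mem_append, List.mem_cons, List.not_mem_nil, or_false] at hx2
      have hn := hx.valid.nodupM
      rw [hsplit] at hn
      have : ((r :: (O₁ ++ O₂)).flatMap Run.mid).Nodup :=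
        (List.perm_middle.flatMap_right Run.mid).nodup_iff.1 hn
      rw [List.flatMap_cons, List.nodup_append] at this
      have hd := fun {w} (hw : w ∈ r.mid) =>
        this.2.2 w hw x (List.mem_flatMap.2 ⟨t, ht, hx1⟩)
      rcases hx2 with h | rfl | rfl
      exacts [(hAout x h).2.2 (mem_inner.2 ⟨t, hs0.subset ht, hx1⟩), hd hp rfl, hd hp' rfl])
  obtain ⟨s, hO⟩ : ∃ s, O₁ ++ O₂ = [s] := List.length_eq_one_iff.1 (by
    rw [hsplit] at hk
    simp at hk ⊢
    omega)
  have hs2 : s.mid.length = 2 := hl s (hs0.subset (by simp [hO]))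
  have hsig : c'.sig = A.length + 4 := by simp [Conf.sig, hrs, hO, hs2]
  have hce : c'.ends.card ≤ 4 := by
    have := ends_card_le c'
    simpa [hrs, hO] using this
  exact hx.hC.ten_cyc h10 h5 hv' (by omega) (by omega)

open Classical in
/-- Two double runs are not completely joined. -/
theorem Ext.doubles_nadj (hx : Ext G m a q X Q c) (h10 : m = 10) (h5 : q = 5) {r s : Run V}
    {p p' t t' : V} (mr : r ∈ c.rs) (ms : s ∈ c.rs) (hp : r.mid = [p, p']) (ht : s.mid = [t, t'])
    (npp' : p ≠ p') (npt : p ≠ t) (npt' : p ≠ t') (np't : p' ≠ t) (np't' : p' ≠ t') (ntt' : t ≠ t')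
    (a1 : G.Adj p t) (a2 : G.Adj p t') (a3 : G.Adj p' t) (a4 : G.Adj p' t') : False := by
  have hcr := hx.valid.chain r mr
  have hcs := hx.valid.chain s ms
  simp only [hp, ht, List.cons_append, List.nil_append, List.isChain_cons_cons,
    List.IsChain.singleton, and_true] at hcr hcs
  have hor := hx.valid.out r mr
  have hos := hx.valid.out s ms
  rw [hp] at hor
  rw [ht] at hos
  have h00 := hx.valid.sub (rs := []) (List.nil_sublist _)
  have hn0 : ∀ w, w ∉ (⟨c.L, []⟩ : Conf V).ends := fun w hw => by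
    obtain ⟨z, hz, -⟩ := mem_ends.1 hw
    simp at hz
  have four : ∀ {b : V} {l : List V}, (b = s.a ∨ b = s.b) → r.a ≠ b → l.length = 4 →
      List.IsChain G.Adj (r.a :: (l ++ [b])) → (∀ x ∈ l, x ∈ X ∧ x ∉ Q) → l.Nodup → False := by
    intro b l hb hne hlen hch hout hnd
    have hbQ : b ∈ Q := hx.valid.ends_subset (mem_ends.2 ⟨s, ms, hb⟩)
    obtain ⟨c', hv', hrs'⟩ := join h00 (apart_of_notMem_ends h00
      (hx.valid.ends_subset (mem_ends.2 ⟨r, mr, Or.inl rfl⟩)) hbQ hne.symm (hn0 _)).1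
      (not_middle_of_notMem_ends h00 (hn0 _)) (not_middle_of_notMem_ends h00 (hn0 _))
      (List.length_pos_iff.1 (by omega)) hch hout hnd (fun z hz => by simp at hz)
    exact hx.hC.no_four h10 h5 c' hv' _ (hrs' ▸ List.mem_cons_self) hlen
  by_cases hb : r.a = s.b
  · exact four (b := s.a) (l := [p, t', p', t]) (Or.inl rfl)
      (fun e => hx.valid.ne_ends ms (e.symm.trans hb)) rfl
      (by simp [hcr.1, a2, a4.symm, a3, hcs.1.symm])
      (by intro x hx'; simp at hx' hor hos ⊢; rcases hx' with rfl | rfl | rfl | rfl <;> tauto)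
      (by simp [npp', npt, npt', np't, Ne.symm np't', Ne.symm ntt'])
  · exact four (b := s.b) (l := [p, t, p', t']) (Or.inr rfl) hb rfl
      (by simp [hcr.1, a1, a3.symm, a4, hcs.2.2])
      (by intro x hx'; simp at hx' hor hos ⊢; rcases hx' with rfl | rfl | rfl | rfl <;> tauto)
      (by simp [npp', npt, npt', Ne.symm np't, np't', ntt'])

open Classical in
/-- Two double runs and two free vertices are impossible. -/
theorem Ext.two_doubles (hx : Ext G m a q X Q c) (h10 : m = 10) (h5 : q = 5)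
    (hk : c.rs.length = 2) (hl : ∀ r ∈ c.rs, r.mid.length = 2) {f₁ f₂ : V} (hf₁ : f₁ ∈ Q)
    (hf₂ : f₂ ∈ Q) (e₁ : f₁ ∉ c.ends) (e₂ : f₂ ∉ c.ends)
    (hS : 2 ≤ alpha G (att G X Q c f₁ ∪ att G X Q c f₂)) : False := by
  obtain ⟨r, s, hrs⟩ : ∃ r s, c.rs = [r, s] := List.length_eq_two.1 hk
  have mr : r ∈ c.rs := by simp [hrs]
  have ms : s ∈ c.rs := by simp [hrs]
  obtain ⟨p, p', hp⟩ := List.length_eq_two.1 (hl r mr)
  obtain ⟨t, t', ht⟩ := List.length_eq_two.1 (hl s ms)
  have hcr := hx.valid.chain r mr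
  have hcs := hx.valid.chain s ms
  simp only [hp, ht, List.cons_append, List.nil_append, List.isChain_cons_cons,
    List.IsChain.singleton, and_true] at hcr hcs
  have hn := hx.valid.nodupM
  simp only [hrs, List.flatMap_cons, List.flatMap_nil, hp, ht, List.append_nil, List.cons_append,
    List.nil_append, List.nodup_cons, List.mem_cons, List.not_mem_nil, or_false, not_or,
    List.nodup_nil, and_true, not_false_eq_true] at hn
  obtain ⟨⟨npp', npt, npt'⟩, ⟨np't, np't'⟩, ntt'⟩ := hn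
  have hor := hx.valid.out r mr
  have hos := hx.valid.out s ms
  rw [hp] at hor
  rw [ht] at hos
  have hi : ∀ x, x ∈ inner c ↔ x = p ∨ x = p' ∨ x = t ∨ x = t' := fun x => by
    simp [mem_inner, hrs, hp, ht, or_assoc]
  by_cases hall : G.Adj p t ∧ G.Adj p t' ∧ G.Adj p' t ∧ G.Adj p' t'
  · exact hx.doubles_nadj h10 h5 mr ms hp ht npp' npt npt' np't np't' ntt' hall.1 hall.2.1
      hall.2.2.1 hall.2.2.2
  obtain ⟨x, y, hx', hy', hxy, hnadj⟩ : ∃ x y, (x = p ∨ x = p') ∧ (y = t ∨ y = t') ∧ x ≠ y ∧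
      ¬G.Adj x y := by
    by_contra hc
    push Not at hc
    exact hall ⟨hc p t (Or.inl rfl) (Or.inl rfl) npt, hc p t' (Or.inl rfl) (Or.inr rfl) npt',
      hc p' t (Or.inr rfl) (Or.inl rfl) np't, hc p' t' (Or.inr rfl) (Or.inr rfl) np't'⟩
  have hxyi : ∀ w ∈ ({x, y} : Finset V), w ∈ inner c := by
    intro w hw
    rw [Finset.mem_insert, Finset.mem_singleton] at hw
    rw [hi]
    rcases hw with rfl | rfl
    · rcases hx' with h | h
      exacts [Or.inl h, Or.inr (Or.inl h)]
    · rcases hy' with h | h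
      exacts [Or.inr (Or.inr (Or.inl h)), Or.inr (Or.inr (Or.inr h))]
  have hFc : (inner c \ {x, y}).card ≤ 3 := by
    rw [Finset.card_sdiff_of_subset hxyi, Finset.card_pair hxy, inner_card hx.valid]
    simp [Conf.sig, hrs, hp, ht]
  obtain ⟨u, z, A, hu, hz, hA1, hA7, hAch, hAnd, hAout⟩ := hx.hC.ten_route h10 h5 (c := c)
    (F := inner c \ {x, y}) (Z := ({x, y} : Finset V)) hFc
    (fun w hw => (Finset.mem_sdiff.1 hw).1)
    (fun w hw => (Classical.em (w ∈ ({x, y} : Finset V))).elim Or.inr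
      fun h => Or.inl (Finset.mem_sdiff.2 ⟨hw, h⟩))
    (fun w hw => by
      obtain ⟨r', hr', hwm⟩ := mem_inner.1 (hxyi w hw)
      exact ⟨(hx.valid.out r' hr' w hwm).1, (hx.valid.out r' hr' w hwm).2,
        fun h => (Finset.mem_sdiff.1 h).2 hw⟩)
    hxyi hS (two_le_alpha (Finset.mem_insert_self x {y})
      (Finset.mem_insert_of_mem (Finset.mem_singleton_self y)) hxy hnadj)
  obtain ⟨huQ, huE⟩ : u ∈ Q ∧ u ∉ c.ends := by rcases hu with rfl | rfl <;> exact ⟨‹_›, ‹_›⟩
  have go : ∀ {r₀ : Run V} {e e' w w' : V}, r₀ ∈ c.rs → (e = r₀.a ∨ e = r₀.b) →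
      (e' = r₀.a ∨ e' = r₀.b) → G.Adj w e → G.Adj w w' → G.Adj w' e' → w ∈ r₀.mid → w' ∈ r₀.mid →
      z = w → False := fun h1 h2 h3 h4 h5' h6 h7 h8 hz =>
    hx.reach_two h10 h5 hk hl h1 huQ huE h2 h3 h4 h5' h6 h7 h8 hA1 hA7 (hz ▸ hAch) hAnd hAout
  have hz4 : z = p ∨ z = p' ∨ z = t ∨ z = t' := (hi z).1 (hxyi z hz)
  rcases hz4 with h | h | h | h
  · exact go mr (Or.inl rfl) (Or.inr rfl) hcr.1.symm hcr.2.1 hcr.2.2 (by simp [hp]) (by simp [hp]) h
  · exact go mr (Or.inr rfl) (Or.inl rfl) hcr.2.2 hcr.2.1.symm hcr.1.symm (by simp [hp])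
      (by simp [hp]) h
  · exact go ms (Or.inl rfl) (Or.inr rfl) hcs.1.symm hcs.2.1 hcs.2.2 (by simp [ht]) (by simp [ht]) h
  · exact go ms (Or.inr rfl) (Or.inl rfl) hcs.2.2 hcs.2.1.symm hcs.1.symm (by simp [ht])
      (by simp [ht]) h

open Classical in
/-- The general case is impossible. -/
theorem Ext.general_false (hx : Ext G m a q X Q c) (hO : OverPin) (hO2 : Over2Pin)
    (hK : q + 2 ≤ m) (hns : (∀ r ∈ c.rs, r.mid.length ≠ 1) ∨ c.rs.length ≤ 2 ∧ q + 5 ≤ m ∧ 6 ≤ q)
    (hC0 : m = 2 * q → c.rs ≠ [])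
    (hE1 : ∀ r, c.rs = [r] → r.mid.length = Full.lim m q → m + 2 ≤ 2 * q)
    (hV : c.ends.card + 2 ≤ q) : False := by
  have hm := hx.hC.hm
  have hq1 := hx.hC.hq1
  have hlo := hx.lo
  have hks := hx.len_le_sig
  have hk2 : 2 * c.rs.length ≤ c.sig ∨ c.rs.length ≤ 2 ∧ q + 5 ≤ m ∧ 6 ≤ q :=
    hns.imp_left hx.two_len_le_sig
  have hQc : Q.card = q := hx.hC.hQc
  have hfree : 1 < (Q \ c.ends).card := by
    rw [Finset.card_sdiff_of_subset hx.valid.ends_subset, hQc]
    omega
  obtain ⟨f₁, hf₁, f₂, hf₂, hne⟩ := Finset.one_lt_card.1 hfree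
  rw [Finset.mem_sdiff] at hf₁ hf₂
  have hS := hx.free_pair hO hO2 hK hC0 hE1 hf₁.1 hf₂.1 hne hf₁.2 hf₂.2 hV
  by_cases hten : m = 10 ∧ q = 5 ∧ c.rs.length = 2
  · obtain ⟨h10, h5, h2⟩ := hten
    have hno : ∀ r ∈ c.rs, r.mid.length ≠ 1 := hns.resolve_right (by omega)
    have hs4 : c.sig = 4 := by
      have := hx.two_len_le_sig hno
      omega
    refine hx.two_doubles h10 h5 h2 (fun r hr => ?_) hf₁.1 hf₂.1 hf₁.2 hf₂.2 hS
    obtain ⟨r₁, r₂, hrs⟩ := List.length_eq_two.1 h2
    have e1 := List.length_pos_iff.2 (hx.valid.ne r₁ (by simp [hrs]))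
    have e2 := List.length_pos_iff.2 (hx.valid.ne r₂ (by simp [hrs]))
    have n1 := hno r₁ (by simp [hrs])
    have n2 := hno r₂ (by simp [hrs])
    have : r₁.mid.length + r₂.mid.length = 4 := by simpa [Conf.sig, hrs] using hs4
    rw [hrs] at hr
    simp only [List.mem_cons, List.not_mem_nil, or_false] at hr
    rcases hr with rfl | rfl <;> omega
  have hapf : ∀ {u v : V}, (u = f₁ ∨ u = f₂) → v ∈ Q → v ≠ f₁ → v ≠ f₂ →
      Apart c u v ∧ ¬Middle c u := by
    rintro u v (rfl | rfl) hv h1 h2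
    · exact apart_of_notMem_ends hx.valid hf₁.1 hv h1 hf₁.2
    · exact apart_of_notMem_ends hx.valid hf₂.1 hv h2 hf₂.2
  have hTpair : ∀ t₁ t₂, t₁ ∈ Q → t₂ ∈ Q → t₁ ≠ f₁ → t₂ ≠ f₁ → t₁ ≠ t₂ → ¬Left c t₁ → ¬Left c t₂ →
      2 ≤ alpha G (att G X Q c t₁ ∪ att G X Q c t₂) := by
    intro t₁ t₂ h1 h2 g1 g2 hne l1 l2
    refine hx.att_pair h1 h2 (hx.att_sep hO hO2 hK (apart_of_not_left hx.valid h1 h2 hne.symm l1 l2)
      (fun h => l1 h.2) (fun h => l2 h.2) (Or.inr fun c' l hrs => Or.inl ?_))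
    calc c'.ends.card ≤ (Q.erase f₁).card := Finset.card_le_card fun w hw => by
          have := ends_cons_subset hrs hw
          simp only [Finset.mem_insert] at this
          rcases this with rfl | rfl | h
          · exact Finset.mem_erase.2 ⟨g1, h1⟩
          · exact Finset.mem_erase.2 ⟨g2, h2⟩
          · exact Finset.mem_erase.2 ⟨fun e => hf₁.2 (e ▸ h), hx.valid.ends_subset h⟩
      _ < q := by rw [Finset.card_erase_of_mem hf₁.1, hQc]; omega
  -- what an exception says
  have hexc : ∀ {u v : V} {l : List V} {c' : Conf V}, c'.rs = ⟨u, v, l⟩ :: c.rs →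
      (Exc m q c' ⟨u, v, l⟩ c.rs ∨ m = 2 * q ∧ c.rs = [] ∧ l.length + q + 1 = m) →
      2 * q ≤ m + 1 ∧ ((c.rs.length = 2 ∧ 4 ≤ c.ends.card ∧
          ∀ r ∈ c.rs, v ≠ r.a ∧ v ≠ r.b) ∨
        (2 * c.rs.length ≤ c.sig ∧ q ≤ (insert u (insert v c.ends)).card)) := by
    intro u v l c' hrs h
    rcases h with ⟨hq, ⟨-, ⟨-, hno, d, hd, hdl, -⟩ | ⟨hm', hq', -, d, hd, d', hd', e1, e2, x1,
        x2, x3⟩⟩ | ⟨-, hno, hc, -⟩⟩ | ⟨h1, h2, -⟩
    · have := hE1 d (hx.excA hq hno hd hdl) hdl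
      omega
    · obtain ⟨b1, b2, b3⟩ := hx.excB hm' hq' hd hd' e1 e2 x3
      refine ⟨hq, Or.inl ⟨b1, b3, fun r hr => ?_⟩⟩
      rcases b2 r hr with rfl | rfl
      · exact ⟨x1.2.2.1, x1.2.2.2⟩
      · exact ⟨x2.2.2.1, x2.2.2.2⟩
    · exact ⟨hq, Or.inr ⟨hx.two_len_le_sig hno, hc ▸ Finset.card_le_card (ends_cons_subset hrs)⟩⟩
    · exact absurd h2 (hC0 h1)
  by_cases hA : 2 * q ≤ m + 1 ∧ 2 ≤ (c.ends.filter fun u => ¬Left c u).card
  · obtain ⟨hq, hcomp⟩ := hA
    obtain ⟨t₁, ht₁, t₂, ht₂, htne⟩ := Finset.one_lt_card.1 hcomp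
    rw [Finset.mem_filter] at ht₁ ht₂
    have hQt : ∀ {t}, t ∈ c.ends → t ∈ Q := fun h => hx.valid.ends_subset h
    have htf : ∀ {t}, t ∈ c.ends → t ≠ f₁ ∧ t ≠ f₂ := fun h =>
      ⟨fun e => hf₁.2 (e ▸ h), fun e => hf₂.2 (e ▸ h)⟩
    let R := inner c ∪ Q \ {t₁, t₂}
    have hRc : R.card + 2 * q + 2 ≤ 2 * m := by
      have := Finset.card_union_le (inner c) (Q \ {t₁, t₂})
      rw [inner_card hx.valid, Finset.card_sdiff_of_subset (by
        simp [Finset.insert_subset_iff, hQt ht₁.1, hQt ht₂.1]), hQc,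
        Finset.card_pair htne] at this
      simp only [R]
      omega
    have hR' : ∀ y ∈ R, y ∈ Q ∨ y ∈ inner c := fun y hy => by
      simp only [R, Finset.mem_union, Finset.mem_sdiff] at hy
      tauto
    obtain ⟨u, v, l, hu, hv, hne', hlen, hch, hout, -, hnd⟩ := hx.route hRc
      Finset.subset_union_left
      (fun x h => (Finset.mem_union.1 h).elim (att_notMem hR') (att_notMem hR'))
      (fun x h => (Finset.mem_union.1 h).elim (att_notMem hR') (att_notMem hR')) hS
      (hTpair t₁ t₂ (hQt ht₁.1) (hQt ht₂.1) (htf ht₁.1).1 (htf ht₂.1).1 htne ht₁.2 ht₂.2)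
    have hvt : v = t₁ ∨ v = t₂ := by
      rcases hv with h | ⟨hvQ, hvR⟩
      · exact h
      · by_contra hno
        exact hvR (by simp [R, hvQ, not_or.1 hno])
    have hvE : v ∈ c.ends ∧ ¬Left c v := by rcases hvt with rfl | rfl <;> assumption
    obtain ⟨hap, hnu⟩ := hapf hu (hQt hvE.1) (htf hvE.1).1 (htf hvE.1).2
    obtain ⟨c', -, hrs, h⟩ :=
      hx.joinStep hO hO2 hap hnu (fun h => hvE.2 h.2) hne' hlen hch hout hnd
    rcases hexc hrs h with ⟨-, ⟨-, -, hB⟩ | ⟨-, hD⟩⟩
    · obtain ⟨r, hr, e⟩ := mem_ends.1 hvE.1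
      exact e.elim (hB r hr).1 (hB r hr).2
    · rw [Finset.insert_eq_of_mem hvE.1] at hD
      have := Finset.card_insert_le u c.ends
      omega
  let H := ((Q.filter fun u => ¬Left c u).erase f₁).erase f₂
  have hH : 1 < H.card := by
    have h1 := (card_left hx.valid).1
    have := Finset.pred_card_le_card_erase (a := f₁) (s := Q.filter fun u => ¬Left c u)
    have := Finset.pred_card_le_card_erase (a := f₂) (s := (Q.filter fun u => ¬Left c u).erase f₁)
    simp only [H]
    omega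
  obtain ⟨t₁, ht₁, t₂, ht₂, htne⟩ := Finset.one_lt_card.1 hH
  simp only [H, Finset.mem_erase, Finset.mem_filter] at ht₁ ht₂
  let R := inner c ∪ (Q.filter fun u => Middle c u) ∪ {f₁, f₂}
  have hRc : R.card + 2 * q + 2 ≤ 2 * m := by
    have h1 := Finset.card_union_le (inner c ∪ Q.filter fun u => Middle c u) {f₁, f₂}
    have h2 := Finset.card_union_le (inner c) (Q.filter fun u => Middle c u)
    rw [inner_card hx.valid] at h2
    rw [Finset.card_pair hne] at h1
    have h3 := card_middle_le hx.valid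
    have h4 := card_middle hx.valid
    have h5 : c.rs.length ≠ 1 ∨ 2 ≤ c.ends.card := by
      refine or_iff_not_imp_left.2 fun h => ?_
      rw [not_not] at h
      obtain ⟨r, hr⟩ := List.length_eq_one_iff.1 h
      have hr' : r ∈ c.rs := by simp [hr]
      exact Finset.one_lt_card.2 ⟨r.a, mem_ends.2 ⟨r, hr', Or.inl rfl⟩, r.b,
        mem_ends.2 ⟨r, hr', Or.inr rfl⟩, hx.valid.ne_ends hr'⟩
    have h6 : 1 ≤ c.rs.length ∨ c.sig = 0 := by
      rcases hc : c.rs with _ | ⟨r, t⟩
      · exact Or.inr (by simp [Conf.sig, hc])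
      · exact Or.inl (by simp)
    simp only [R]
    omega
  have hR' : ∀ y ∈ R, y ∈ Q ∨ y ∈ inner c := fun y hy => by
    simp only [R, Finset.mem_union, Finset.mem_filter, Finset.mem_insert,
      Finset.mem_singleton] at hy
    rcases hy with (h | h) | rfl | rfl
    exacts [Or.inr h, Or.inl h.1, Or.inl hf₁.1, Or.inl hf₂.1]
  obtain ⟨u, v, l, hu, hv, hne', hlen, hch, hout, -, hnd⟩ := hx.route hRc
    (Finset.subset_union_left.trans Finset.subset_union_left)
    (fun x h => (Finset.mem_union.1 h).elim (att_notMem hR') (att_notMem hR'))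
    (fun x h => (Finset.mem_union.1 h).elim (att_notMem hR') (att_notMem hR')) hS
    (hTpair t₁ t₂ ht₁.2.2.1 ht₂.2.2.1 ht₁.2.1 ht₂.2.1 htne ht₁.2.2.2 ht₂.2.2.2)
  have hvp : v ∈ Q ∧ v ≠ f₁ ∧ v ≠ f₂ ∧ ¬Middle c v := by
    rcases hv with (rfl | rfl) | ⟨hvQ, hvR⟩
    · exact ⟨ht₁.2.2.1, ht₁.2.1, ht₁.1, fun h => ht₁.2.2.2 h.2⟩
    · exact ⟨ht₂.2.2.1, ht₂.2.1, ht₂.1, fun h => ht₂.2.2.2 h.2⟩
    · simp only [R, Finset.mem_union, Finset.mem_filter, Finset.mem_insert, Finset.mem_singleton,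
        not_or, not_and] at hvR
      exact ⟨hvQ, hvR.2.1, hvR.2.2, hvR.1.2 hvQ⟩
  obtain ⟨hap, hnu⟩ := hapf hu hvp.1 hvp.2.1 hvp.2.2.1
  obtain ⟨c', -, hrs, h⟩ := hx.joinStep hO hO2 hap hnu hvp.2.2.2 hne' hlen hch hout hnd
  obtain ⟨hq, h⟩ := hexc hrs h
  have hcomp := (card_left hx.valid).2
  rw [not_and, not_le] at hA
  have := hA hq
  rcases h with ⟨h1, h2, -⟩ | ⟨h1, h2⟩
  · omega
  · have := Finset.card_insert_le u (insert v c.ends)
    have := Finset.card_insert_le v c.ends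
    omega

end Vale.Agent.P048.Full
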