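import Vale.Agent.P048.Full.Clash.General

/-! # Double runs covering all but one vertex of `Q` -/

namespace Vale.Agent.P048.Full

open Finset

variable {V : Type} {G : SimpleGraph V} {m a q : ℕ} {X Q : Finset V} {c : Conf V}

/-- When no vertex is between two runs, vertices not joined by a run are separate. -/
theorem apart_of_no_middle (h : c.Valid G X Q) (hno : ∀ w ∈ Q, ¬Middle c w) {u v : V}
    (hu : u ∈ Q) (hv : v ∈ Q) (hne : u ≠ v)
    (hr : ∀ r ∈ c.rs, ¬(r.a = u ∧ r.b = v ∨ r.a = v ∧ r.b = u)) : Apart c u v := by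
  have key : ∀ x y A B C, c.L = A ++ x :: (B ++ y :: C) →
      (∀ r ∈ c.rs, ¬(r.a = x ∧ r.b = y ∨ r.a = y ∧ r.b = x)) → Apart c x y := by
    intro x y A B C hl hxy
    rcases B with _ | ⟨w, B⟩
    · rw [List.nil_append] at hl
      refine ⟨A ++ [x], y :: C, cut_of_not_right h hl ?_, Or.inl ⟨by simp, by simp⟩⟩
      rintro ⟨r, hr', z, hz, e⟩
      have := infix_pair_succ h.nodupL hl hz
      simp only [List.head?_cons, Option.some.injEq] at this
      subst this
      exact hxy r hr' e
    · have hwQ : w ∈ Q := (h.memL w).1 (by simp [hl])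
      by_cases hw : Left c w
      · have hw' : ¬Right c w := fun e => hno w hwQ ⟨e, hw⟩
        exact ⟨A ++ [x] ++ [w], B ++ y :: C,
          cut_of_not_right h (A := A ++ [x]) (by simp [hl]) hw', Or.inl ⟨by simp, by simp⟩⟩
      · exact ⟨A ++ [x], w :: (B ++ y :: C), cut_of_not_left h (by simp [hl]) hw,
          Or.inl ⟨by simp, by simp⟩⟩
  obtain ⟨A, B, hl⟩ := List.mem_iff_append.1 ((h.memL u).2 hu)
  have hvL := (h.memL v).2 hv
  rw [hl, List.mem_append, List.mem_cons] at hvL
  rcases hvL with e | e | e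
  · obtain ⟨A₁, A₂, rfl⟩ := List.mem_iff_append.1 e
    exact (key v u A₁ A₂ B (by simp [hl]) fun r hr' e => hr r hr' e.symm).symm
  · exact absurd e.symm hne
  · obtain ⟨B₁, B₂, rfl⟩ := List.mem_iff_append.1 e
    exact key u v A B₁ B₂ hl hr

open Classical in
/-- Runs without single ones never use all but one vertex of `Q`. -/
theorem Ext.matching_false (hx : Ext G m a q X Q c) (hO : OverPin) (hO2 : Over2Pin)
    (hno : ∀ r ∈ c.rs, r.mid.length ≠ 1) (hV : q ≤ c.ends.card + 1) : False := by
  have hm := hx.hC.hm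
  have hq1 := hx.hC.hq1
  have hlo := hx.lo
  have hk2 := hx.two_len_le_sig hno
  have hec := ends_card_le c
  have hQc : Q.card = q := hx.hC.hQc
  obtain ⟨hmq, hk, hsig, hends⟩ : m = 2 * q ∧ 2 ≤ c.rs.length ∧ c.sig = 2 * c.rs.length ∧
      c.ends.card + 1 = q := by omega
  -- every end belongs to one run, every run is double
  have hnd : (c.rs.flatMap fun r => [r.a, r.b]).Nodup := by
    have h : c.ends.card = (c.rs.flatMap fun r => [r.a, r.b]).dedup.length := List.card_toFinset _
    have h2 : (c.rs.flatMap fun r => [r.a, r.b]).length = 2 * c.rs.length := by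
      clear h hec hk2 hk hsig hV
      induction c.rs with
      | nil => simp
      | cons r t ih => simp [ih]; omega
    have e := (List.dedup_sublist (c.rs.flatMap fun r => [r.a, r.b])).eq_of_length (by omega)
    rw [← e]
    exact List.nodup_dedup _
  have huniq : ∀ r ∈ c.rs, ∀ s ∈ c.rs, r ≠ s → EndsDisj r s := by
    have hp := (List.nodup_flatMap.1 hnd).2
    intro r hr s hs hne
    have : Std.Symm (Function.onFun List.Disjoint fun r : Run V => [r.a, r.b]) :=
      ⟨fun _ _ h => List.Disjoint.symm h⟩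
    have := hp.forall hr hs hne
    simp [Function.onFun, List.Disjoint] at this
    exact ⟨this.1.1, this.1.2, this.2.1, this.2.2⟩
  have hlen2 : ∀ r ∈ c.rs, r.mid.length = 2 := by
    intro r hr
    have h1 := ((List.perm_cons_erase hr).map fun s : Run V => s.mid.length).sum_eq
    have h2 := List.card_nsmul_le_sum ((c.rs.erase r).map fun s => s.mid.length) 2 (by
      simp only [List.mem_map]
      rintro _ ⟨s, hs, rfl⟩
      have := List.length_pos_iff.2 (hx.valid.ne s (List.mem_of_mem_erase hs))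
      have := hno s (List.mem_of_mem_erase hs)
      omega)
    have hpos := List.length_pos_iff.2 (hx.valid.ne r hr)
    have := hno r hr
    simp only [List.length_map, List.length_erase_of_mem hr, smul_eq_mul] at h2
    simp only [List.map_cons, List.sum_cons] at h1
    have : c.sig = (c.rs.map fun s => s.mid.length).sum := rfl
    omega
  have hmid : ∀ w ∈ Q, ¬Middle c w := by
    intro w hw hM
    have := card_middle hx.valid
    have : 1 ≤ (Q.filter fun u => Middle c u).card :=
      Finset.card_pos.2 ⟨w, Finset.mem_filter.2 ⟨hw, hM⟩⟩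
    omega
  have hQe : ∀ {u}, u ∈ c.ends → u ∈ Q := fun h => hx.valid.ends_subset h
  have hjoin : ∀ {u v : V}, u ∈ c.ends → v ∈ c.ends → Apart c u v → ∀ l : List V, l ≠ [] →
      l.length + 2 ≤ m → List.IsChain G.Adj (u :: (l ++ [v])) →
      (∀ x ∈ l, x ∈ X ∧ x ∉ Q ∧ x ∉ inner c) → l.Nodup → False := by
    intro u v hu hv hA l h1 h2 h3 h4 h5
    obtain ⟨c', -, hrs, h⟩ :=
      hx.joinStep hO hO2 hA (hmid u (hQe hu)) (hmid v (hQe hv)) h1 h2 h3 h4 h5
    rcases h with ⟨-, ⟨-, ⟨-, -, d, hd, hdl, -⟩ | ⟨-, -, -, d, hd, -, -, e, -⟩⟩ | ⟨-, -, hc, -⟩⟩ |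
      ⟨-, h, -⟩
    · have := hlen2 d hd
      simp only [Full.lim, if_pos hmq] at hdl
      omega
    · have := hlen2 d hd
      omega
    · have := Finset.card_le_card (ends_cons_subset hrs)
      rw [Finset.insert_eq_of_mem (show u ∈ insert v c.ends from Finset.mem_insert_of_mem hu),
        Finset.insert_eq_of_mem hv] at this
      omega
    · simp [h] at hk
  have hap : ∀ r ∈ c.rs, ∀ s ∈ c.rs, r ≠ s → ∀ u v, (u = r.a ∨ u = r.b) → (v = s.a ∨ v = s.b) →
      u ∈ c.ends ∧ v ∈ c.ends ∧ u ≠ v ∧ Apart c u v := by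
    intro r hr s hs hne u v hu hv
    obtain ⟨d1, d2, d3, d4⟩ := huniq r hr s hs hne
    have hu' : u ∈ c.ends := mem_ends.2 ⟨r, hr, hu⟩
    have hv' : v ∈ c.ends := mem_ends.2 ⟨s, hs, hv⟩
    have huv : u ≠ v := by
      rcases hu with rfl | rfl <;> rcases hv with rfl | rfl <;> assumption
    refine ⟨hu', hv', huv, apart_of_no_middle hx.valid hmid (hQe hu') (hQe hv') huv ?_⟩
    intro t ht e
    have h1 : u = t.a ∨ u = t.b := e.elim (fun e => Or.inl e.1.symm) fun e => Or.inr e.2.symm
    have h2 : v = t.a ∨ v = t.b := e.elim (fun e => Or.inr e.2.symm) fun e => Or.inl e.1.symm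
    by_cases htr : t = r
    · subst htr
      obtain ⟨g1, g2, g3, g4⟩ := huniq t ht s hs hne
      rcases h2 with rfl | rfl <;> rcases hv with h | h <;> tauto
    · obtain ⟨g1, g2, g3, g4⟩ := huniq t ht r hr htr
      rcases h1 with rfl | rfl <;> rcases hu with h | h <;> tauto
  have hT' : ∀ r3 ∈ c.rs, 2 ≤ alpha G (att G X Q c r3.a ∪ att G X Q c r3.b) := by
    intro r3 m3
    have ha3 : r3.a ∈ c.ends := mem_ends.2 ⟨r3, m3, Or.inl rfl⟩
    have hb3 : r3.b ∈ c.ends := mem_ends.2 ⟨r3, m3, Or.inr rfl⟩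
    -- the end of a double sees no other double
    have hfor : ∀ x ∈ inner c, G.Adj r3.a x → x ∈ r3.mid := by
      intro x hxi hadj
      by_contra hx3
      obtain ⟨s, hs, hxs⟩ := mem_inner.1 hxi
      have hs3 : s ≠ r3 := fun e => hx3 (e ▸ hxs)
      obtain ⟨d1, d2, d3, d4⟩ := huniq s hs r3 m3 hs3
      obtain ⟨p, p', hp⟩ := List.length_eq_two.1 (hlen2 s hs)
      obtain ⟨O₁, O₂, hsplit⟩ := List.mem_iff_append.1 hs
      obtain ⟨h0, -, -, -⟩ := erase_run hx.valid hsplit
      have hs0 : List.Sublist (O₁ ++ O₂) c.rs :=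
        hsplit ▸ (List.sublist_cons_self s O₂).append_left O₁
      have hsO : s ∉ O₁ ++ O₂ := by
        have hp : c.rs.Nodup := hx.valid.apart.imp fun {x y} h e =>
          h (by subst e; exact Or.inl ⟨rfl, rfl⟩)
        rw [hsplit] at hp
        exact (List.nodup_middle.1 hp).notMem
      have hch := hx.valid.chain s hs
      simp only [hp, List.cons_append, List.nil_append, List.isChain_cons_cons,
        List.IsChain.singleton, and_true] at hch
      obtain ⟨u, w, hu, hw, huw, hch'⟩ : ∃ u w, (u = s.a ∨ u = s.b) ∧ (w = s.a ∨ w = s.b) ∧ u ≠ w ∧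
          ∃ mid : List V, mid.Perm s.mid ∧ List.IsChain G.Adj (u :: (mid ++ [r3.a])) := by
        simp only [hp, List.mem_cons, List.not_mem_nil, or_false] at hxs
        rcases hxs with rfl | rfl
        · exact ⟨s.b, s.a, Or.inr rfl, Or.inl rfl, (hx.valid.ne_ends hs).symm, [p', x],
            hp ▸ List.Perm.swap x p' [], by simp [hch.2.2.symm, hch.2.1.symm, hadj.symm]⟩
        · exact ⟨s.a, s.b, Or.inl rfl, Or.inr rfl, hx.valid.ne_ends hs, [p, x], hp ▸ List.Perm.refl _,
            by simp [hch.1, hch.2.1, hadj.symm]⟩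
      obtain ⟨mid, hperm, hch'⟩ := hch'
      have honly : ∀ t ∈ O₁ ++ O₂, ∀ z, (z = s.a ∨ z = s.b) → ¬(z = t.a ∨ z = t.b) := by
        intro t ht z hz hz'
        obtain ⟨g1, g2, g3, g4⟩ := huniq s hs t (hs0.subset ht) fun e => hsO (e ▸ ht)
        rcases hz with rfl | rfl <;> rcases hz' with h | h <;> tauto
      have hu0 : u ∉ (⟨c.L, O₁ ++ O₂⟩ : Conf V).ends := fun h => by
        obtain ⟨t, ht, h⟩ := mem_ends.1 h
        exact honly t ht u hu h
      have huQ : u ∈ Q := hQe (mem_ends.2 ⟨s, hs, hu⟩)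
      have hua : u ≠ r3.a := by rcases hu with rfl | rfl <;> assumption
      have hwa : w ≠ r3.a := by rcases hw with rfl | rfl <;> assumption
      obtain ⟨c', hv', hrs'⟩ := join h0 (apart_of_notMem_ends h0 huQ (hQe ha3) hua.symm hu0).1
        (not_middle_of_notMem_ends h0 hu0)
        (fun ⟨⟨t, a1, a2⟩, t', a3, a4⟩ => hmid _ (hQe ha3) ⟨⟨t, hs0.subset a1, a2⟩,
          t', hs0.subset a3, a4⟩)
        (mid := mid) (by intro e; rw [e] at hperm; simpa [hp] using hperm.length_eq) hch'
        (fun z hz => hx.valid.out s hs z (hperm.subset hz))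
        (hperm.nodup_iff.2 (List.nodup_flatMap.1 hx.valid.nodupM |>.1 s hs))
        (fun t ht z hz hz' => by
          have hn := hx.valid.nodupM
          rw [hsplit] at hn
          have : ((s :: (O₁ ++ O₂)).flatMap Run.mid).Nodup :=
            (List.perm_middle.flatMap_right Run.mid).nodup_iff.1 hn
          rw [List.flatMap_cons, List.nodup_append] at this
          exact this.2.2 z (hperm.subset hz') z (List.mem_flatMap.2 ⟨t, ht, hz⟩) rfl)
      have hml : mid.length = 2 := hperm.length_eq.trans (hlen2 s hs)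
      have hl' : c'.rs.length = c.rs.length := by simp [hrs', hsplit]; omega
      have hσ : c'.sig = c.sig := by
        simp only [Conf.sig, hrs', hsplit, List.map_cons, List.map_append, List.sum_cons,
          List.sum_append, hml, hlen2 s hs]
        omega
      have hx' : Ext G m a q X Q c' := ⟨hx.hC, hv', hσ ▸ hlo, fun t ht => by
        rw [hrs', List.mem_cons] at ht
        rcases ht with rfl | ht
        · have := hx.lim s hs
          simp only [hlen2 s hs] at this
          simpa [hml] using this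
        · exact hx.lim t (hs0.subset ht), by rw [hσ, hl']; exact hx.best⟩
      have hsub : c'.ends ⊆ c.ends.erase w := by
        intro z hz
        obtain ⟨t, ht, hz⟩ := mem_ends.1 hz
        rw [hrs', List.mem_cons] at ht
        rw [Finset.mem_erase]
        rcases ht with rfl | ht
        · rcases hz with rfl | rfl
          · exact ⟨huw, mem_ends.2 ⟨s, hs, hu⟩⟩
          · exact ⟨hwa.symm, ha3⟩
        · exact ⟨fun e => honly t ht w hw (e ▸ hz), mem_ends.2 ⟨t, hs0.subset ht, hz⟩⟩
      have hc' := Finset.card_le_card hsub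
      rw [Finset.card_erase_of_mem (mem_ends.2 ⟨s, hs, hw⟩)] at hc'
      refine hx'.general_false hO hO2 (by omega) (Or.inl fun t ht => ?_) (fun _ e => ?_)
        (fun t e _ => ?_) (by omega)
      · rw [hrs', List.mem_cons] at ht
        rcases ht with rfl | ht
        · simp [hml]
        · exact hno t (hs0.subset ht)
      · simp [e] at hl'
        omega
      · simp [e] at hl'
        omega
    have hT : 2 ≤ alpha G (att G X Q c r3.a ∪ att G X Q c r3.b) := by
      by_contra hlt
      have hcl := isClique_of_alpha_le_one (G := G) (X := att G X Q c r3.a ∪ att G X Q c r3.b)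
        (by omega)
      have hbig : 3 ≤ (att G X Q c r3.a).card := by
        have h1 := hx.att_card (hQe ha3)
        have h2 : ((inner c).filter fun x => x ∈ nb G X r3.a).card ≤ 2 := by
          refine (Finset.card_le_card (t := r3.mid.toFinset) fun x h => ?_).trans
            ((List.toFinset_card_le _).trans (hlen2 r3 m3).le)
          rw [Finset.mem_filter] at h
          exact List.mem_toFinset.2 (hfor x h.1 (mem_nb.1 h.2).2)
        omega
      obtain ⟨z, hz⟩ := hx.att_nonempty (hQe hb3)
      obtain ⟨y, hy, hyz⟩ := Finset.exists_mem_ne (show 1 < (att G X Q c r3.a).card by omega) z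
      obtain ⟨w, hw⟩ : (((att G X Q c r3.a).erase y).erase z).Nonempty := by
        rw [← Finset.card_pos]
        have := Finset.pred_card_le_card_erase (a := z) (s := (att G X Q c r3.a).erase y)
        have := Finset.pred_card_le_card_erase (a := y) (s := att G X Q c r3.a)
        omega
      simp only [Finset.mem_erase] at hw
      obtain ⟨O₁, O₂, hsplit⟩ := List.mem_iff_append.1 m3
      obtain ⟨h0, hA, hna, hnb⟩ := erase_run hx.valid hsplit
      have hs0 : List.Sublist (O₁ ++ O₂) c.rs :=
        hsplit ▸ (List.sublist_cons_self r3 O₂).append_left O₁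
      have hmem : ∀ x ∈ [y, w, z], x ∈ X ∧ x ∉ Q ∧ x ∉ inner c := by
        simp only [List.mem_cons, List.not_mem_nil, or_false]
        rintro x (rfl | rfl | rfl)
        · exact ⟨(mem_att.1 hy).1, (mem_att.1 hy).2.2⟩
        · exact ⟨(mem_att.1 hw.2.2).1, (mem_att.1 hw.2.2).2.2⟩
        · exact ⟨(mem_att.1 hz).1, (mem_att.1 hz).2.2⟩
      obtain ⟨c', hv', hrs'⟩ := join h0 hA hna hnb (mid := [y, w, z]) (by simp)
        (by
          simp only [List.cons_append, List.nil_append, List.isChain_cons_cons,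
            List.IsChain.singleton, and_true]
          exact ⟨(mem_att.1 hy).2.1, hcl (Finset.mem_union_left _ hy)
            (Finset.mem_union_left _ hw.2.2) hw.2.1.symm, hcl (Finset.mem_union_left _ hw.2.2)
            (Finset.mem_union_right _ hz) hw.1, (mem_att.1 hz).2.1.symm⟩)
        (fun x h => ⟨(hmem x h).1, (hmem x h).2.1⟩) (by simp [hw.2.1.symm, hyz, hw.1])
        (fun s hs x h h' => (hmem x h').2.2 (mem_inner.2 ⟨s, hs0.subset hs, h⟩))
      refine hx.hC.exact hv' ?_
      have : c.sig = ((O₁ ++ O₂).map fun s => s.mid.length).sum + 2 := by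
        simp [Conf.sig, hsplit, hlen2 r3 m3]; omega
      show (c'.rs.map fun s => s.mid.length).sum + q = m
      simp only [hrs', List.map_cons, List.sum_cons, List.length_cons, List.length_nil]
      omega
    exact hT
  by_cases hk3 : c.rs.length = 2
  · obtain ⟨r1, r2, hrs⟩ := List.length_eq_two.1 hk3
    have m1 : r1 ∈ c.rs := by simp [hrs]
    have m2 : r2 ∈ c.rs := by simp [hrs]
    have hne : r1 ≠ r2 := fun e => by
      have := hx.valid.apart
      rw [hrs, e] at this
      simp [SameEnds] at this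
    have ha2 : r2.a ∈ c.ends := mem_ends.2 ⟨r2, m2, Or.inl rfl⟩
    let R := inner c ∪ Q.erase r2.a
    have hRc : R.card + 2 * q + 2 ≤ 2 * m := by
      have := Finset.card_union_le (inner c) (Q.erase r2.a)
      rw [inner_card hx.valid, Finset.card_erase_of_mem (hQe ha2), hQc] at this
      simp only [R]
      omega
    have hR' : ∀ y ∈ R, y ∈ Q ∨ y ∈ inner c := fun y hy =>
      (Finset.mem_union.1 hy).symm.imp (fun h => Finset.mem_of_mem_erase h) id
    obtain ⟨u, v, l, hu, hv, hne', hlen, hch, hout, -, hnd'⟩ := hx.route hRc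
      Finset.subset_union_left
      (fun x h => (Finset.mem_union.1 h).elim (att_notMem hR') (att_notMem hR'))
      (fun x h => (Finset.mem_union.1 h).elim (att_notMem hR') (att_notMem hR'))
      (hT' r1 m1) (hT' r2 m2)
    have hv2 : v = r2.a ∨ v = r2.b := by
      rcases hv with h | ⟨hvQ, hvR⟩
      · exact h
      · refine Or.inl ?_
        by_contra hne
        exact hvR (Finset.mem_union_right _ (Finset.mem_erase.2 ⟨hne, hvQ⟩))
    obtain ⟨h1, h2, -, h4⟩ := hap r1 m1 r2 m2 hne u v hu hv2
    exact hjoin h1 h2 h4 l hne' hlen hch hout hnd'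
  obtain ⟨r1, r2, r3, T, hrs⟩ : ∃ r1 r2 r3 T, c.rs = r1 :: r2 :: r3 :: T := by
    rcases hc : c.rs with _ | ⟨r1, _ | ⟨r2, _ | ⟨r3, T⟩⟩⟩
    all_goals first
      | exact ⟨_, _, _, _, rfl⟩
      | (simp [hc] at hk hk3)
  have hne : r1 ≠ r2 ∧ r1 ≠ r3 ∧ r2 ≠ r3 := by
    have hp : (c.rs).Nodup := by
      refine hx.valid.apart.imp fun {x y} h e => h ?_
      subst e
      exact Or.inl ⟨rfl, rfl⟩
    simp only [hrs, List.nodup_cons, List.mem_cons, not_or] at hp
    exact ⟨hp.1.1, hp.1.2.1, hp.2.1.1⟩
  have m1 : r1 ∈ c.rs := by simp [hrs]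
  have m2 : r2 ∈ c.rs := by simp [hrs]
  have m3 : r3 ∈ c.rs := by simp [hrs]
  obtain ⟨e1, e2, -, hap12⟩ := hap r1 m1 r2 m2 hne.1 r1.a r2.a (Or.inl rfl) (Or.inl rfl)
  have hS : 2 ≤ alpha G (att G X Q c r1.a ∪ att G X Q c r2.a) :=
    hx.att_pair (hQe e1) (hQe e2) (hx.att_sep hO hO2 (by omega) hap12 (hmid _ (hQe e1))
      (hmid _ (hQe e2)) (Or.inr fun c' l hr => Or.inl (by
        have := Finset.card_le_card (ends_cons_subset hr)
        simp only at this
        rw [Finset.insert_eq_of_mem (show r1.a ∈ insert r2.a c.ends from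
          Finset.mem_insert_of_mem e1), Finset.insert_eq_of_mem e2] at this
        omega)))
  have ha3 : r3.a ∈ c.ends := mem_ends.2 ⟨r3, m3, Or.inl rfl⟩
  have hT := hT' r3 m3
  let R := inner c ∪ Q.erase r3.a
  have hRc : R.card + 2 * q + 2 ≤ 2 * m := by
    have := Finset.card_union_le (inner c) (Q.erase r3.a)
    rw [inner_card hx.valid, Finset.card_erase_of_mem (hQe ha3), hQc] at this
    simp only [R]
    omega
  have hR' : ∀ y ∈ R, y ∈ Q ∨ y ∈ inner c := fun y hy =>
    (Finset.mem_union.1 hy).symm.imp (fun h => Finset.mem_of_mem_erase h) id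
  obtain ⟨u, v, l, hu, hv, hne', hlen, hch, hout, -, hnd'⟩ := hx.route hRc
    Finset.subset_union_left
    (fun x h => (Finset.mem_union.1 h).elim (att_notMem hR') (att_notMem hR'))
    (fun x h => (Finset.mem_union.1 h).elim (att_notMem hR') (att_notMem hR')) hS hT
  have hv3 : v = r3.a ∨ v = r3.b := by
    rcases hv with h | ⟨hvQ, hvR⟩
    · exact h
    · refine Or.inl ?_
      by_contra hne
      exact hvR (Finset.mem_union_right _ (Finset.mem_erase.2 ⟨hne, hvQ⟩))
  rcases hu with rfl | rfl
  · obtain ⟨h1, h2, -, h4⟩ := hap r1 m1 r3 m3 hne.2.1 r1.a v (Or.inl rfl) hv3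
    exact hjoin h1 h2 h4 l hne' hlen hch hout hnd'
  · obtain ⟨h1, h2, -, h4⟩ := hap r2 m2 r3 m3 hne.2.2 r2.a v (Or.inl rfl) hv3
    exact hjoin h1 h2 h4 l hne' hlen hch hout hnd'

end Vale.Agent.P048.Full
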