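import Vale.Agent.P048.Full.Clash.Defs

/-! # Adding a run to an extremal state: the subfamily that closes a cycle of length `m` -/

namespace Vale.Agent.P048.Full

open Finset

variable {V : Type} {G : SimpleGraph V} {X Q : Finset V} {m a q σ₀ k₀ : ℕ} {c : Conf V}
  {D : Run V} {O : List (Run V)}

/-- The ends of a list of runs are at most two per run. -/
theorem card_ends_le (L : List V) (T : List (Run V)) :
    (⟨L, T⟩ : Conf V).ends.card ≤ 2 * T.length := by
  classical
  refine le_trans (List.toFinset_card_le _) ?_
  induction T with
  | nil => simp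
  | cons r t ih => simp only [List.flatMap_cons, List.length_append, List.length_cons,
      List.length_nil] at ih ⊢; omega

/-- A repeated end saves a vertex. -/
theorem card_ends_lt (L : List V) (T : List (Run V))
    (h : ¬(T.flatMap fun r => [r.a, r.b]).Nodup) :
    (⟨L, T⟩ : Conf V).ends.card < 2 * T.length := by
  classical
  unfold Conf.ends
  rw [List.card_toFinset]
  have h2 : (T.flatMap fun r => [r.a, r.b]).length = 2 * T.length := by
    clear h
    induction T with
    | nil => simp
    | cons r t ih => simp only [List.flatMap_cons, List.length_append, List.length_cons,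
        List.length_nil] at ih ⊢; omega
  refine h2 ▸ lt_of_le_of_ne (List.dedup_sublist _).length_le fun e => h ?_
  rw [← (List.dedup_sublist _).eq_of_length e]
  exact List.nodup_dedup _

theorem lim_bounds (m q : ℕ) : m - q - 2 ≤ lim m q ∧ lim m q ≤ m - q - 1 ∧
    (m = 2 * q → lim m q = m - q - 2) ∧ (m ≠ 2 * q → lim m q = m - q - 1) := by
  unfold lim
  split <;> omega

/-- Every subfamily with total at least `m - q` touches too many vertices of `Q`. -/
theorem Added.no_cyc (hC : Clash G m a q X Q) (hA : Added G X Q m q σ₀ k₀ c D O) (hc : CycPin)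
    {T : List (Run V)} (hs : List.Sublist T (D :: O))
    (h1 : m ≤ (T.map fun r => r.mid.length).sum + q)
    (h2 : (T.map fun r => r.mid.length).sum + (⟨c.L, T⟩ : Conf V).ends.card ≤ m) : False := by
  have hlo := hA.lo
  have hm := hC.hm
  refine hC.free (hc V G m X Q ⟨c.L, T⟩ hC.hQ (hA.valid.sub (hA.rs ▸ hs)) ?_ (by omega) h2 ?_)
  · intro e
    subst e
    simp only [List.map_nil, List.sum_nil] at h1
    omega
  · rw [hC.hQc]
    exact h1

/-- A subfamily of total exactly `m - q` always gives a cycle of length `m`. -/
theorem Added.no_exact (hC : Clash G m a q X Q) (hA : Added G X Q m q σ₀ k₀ c D O) (hc : CycPin)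
    {T : List (Run V)} (hs : List.Sublist T (D :: O))
    (h1 : (T.map fun r => r.mid.length).sum + q = m) : False := by
  classical
  refine hA.no_cyc hC hc hs h1.ge ?_
  have hv := hA.valid.sub (hA.rs ▸ hs)
  have : (⟨c.L, T⟩ : Conf V).ends ⊆ Q := by
    intro v hv'
    simp only [Conf.ends, List.mem_toFinset, List.mem_flatMap] at hv'
    obtain ⟨r, hr, h⟩ := hv'
    have hn := hv.next r hr
    have hmem : r.a ∈ c.L ∧ r.b ∈ c.L := by
      rcases hn with h | h <;> exact ⟨h.subset (by simp), h.subset (by simp)⟩
    simp only [List.mem_cons, List.not_mem_nil, or_false] at h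
    rcases h with rfl | rfl
    · exact (hv.memL _).1 hmem.1
    · exact (hv.memL _).1 hmem.2
  have := Finset.card_le_card this
  rw [hC.hQc] at this
  omega

/-- Runs of an `Added` state are non-empty. -/
theorem Added.pos (hA : Added G X Q m q σ₀ k₀ c D O) {r : Run V} (hr : r ∈ D :: O) :
    1 ≤ r.mid.length :=
  List.length_pos_iff.2 (hA.valid.ne r (hA.rs ▸ hr))

theorem len_le_tot {T : List (Run V)} {b : ℕ} (h : ∀ r ∈ T, b ≤ r.mid.length) :
    b * T.length ≤ (T.map fun r => r.mid.length).sum := by
  have := List.card_nsmul_le_sum (T.map fun r => r.mid.length) b (by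
    intro x hx
    obtain ⟨r, hr, rfl⟩ := List.mem_map.1 hx
    exact h r hr)
  simpa [Nat.mul_comm] using this

theorem tot_le_of_sublist {S T : List (Run V)} (h : List.Sublist S T) :
    (S.map fun r => r.mid.length).sum ≤ (T.map fun r => r.mid.length).sum :=
  List.Sublist.sum_le_sum (h.map _) fun _ _ => Nat.zero_le _

/-- The run of three or more vertices. -/
theorem overPin (hc : CycPin) : OverPin := by
  classical
  intro V G m a q X Q hC σ₀ k₀ c D O hA h3 hDm
  have hm := hC.hm
  have hq1 := hC.hq1
  have hlo := hA.lo
  have hS := hA.sum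
  have htot := hA.tot
  have hcnt := hA.cnt
  obtain ⟨hl1, hl2, hl3, hl4⟩ := lim_bounds m q
  have hK : m - q ≤ q := by omega
  -- the cheapest subfamily reaching the threshold
  have hex : ∃ n, ∃ T, List.Sublist T (D :: O) ∧
      (T.map fun r => r.mid.length).sum = n ∧ m ≤ n + q := by
    refine ⟨_, D :: O, List.Sublist.refl _, rfl, ?_⟩
    simp only [List.map_cons, List.sum_cons]
    omega
  obtain ⟨T, hT, hTn, hTK⟩ := Nat.find_spec hex
  generalize hn : Nat.find hex = n at hTn hTK
  have hmin : ∀ S, List.Sublist S (D :: O) → m ≤ (S.map fun r => r.mid.length).sum + q →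
      n ≤ (S.map fun r => r.mid.length).sum := fun S hS' h =>
    hn ▸ Nat.find_le ⟨S, hS', rfl, h⟩
  obtain ⟨T', rfl, hT'⟩ : ∃ T', T = D :: T' ∧ List.Sublist T' O := by
    rcases List.sublist_cons_iff.1 hT with h | h
    · have := tot_le_of_sublist h
      omega
    · exact h
  simp only [List.map_cons, List.sum_cons] at hTn
  have hne : n + q ≠ m := fun e => hA.no_exact hC hc hT (by
    simp only [List.map_cons, List.sum_cons]; omega)
  have herase : ∀ r ∈ T',
      ((T'.erase r).map fun r => r.mid.length).sum + r.mid.length + D.mid.length = n := by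
    intro r hr
    have := (List.perm_cons_erase hr).map (fun r : Run V => r.mid.length)
    have := this.sum_eq
    simp only [List.map_cons, List.sum_cons] at this
    omega
  have hbig : ∀ r ∈ T', n + q + 1 ≤ m + r.mid.length := by
    intro r hr
    by_contra hh
    have h := hmin (D :: T'.erase r) (((List.erase_sublist).trans hT').cons_cons D)
    have := herase r hr
    have := hA.pos (List.mem_cons_of_mem D (hT'.subset hr))
    simp only [List.map_cons, List.sum_cons] at h
    omega
  have hT'S := tot_le_of_sublist hT'
  obtain ⟨x, rfl⟩ : ∃ x, n = m - q + x := ⟨n - (m - q), by omega⟩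
  have hsum : (x + 1) * T'.length ≤ (T'.map fun r => r.mid.length).sum :=
    len_le_tot fun r hr => by have := hbig r hr; omega
  have hlen : 1 ≤ T'.length := by
    rcases T' with _ | ⟨r, t⟩
    · simp only [List.map_nil, List.sum_nil] at hTn
      omega
    · simp
  have hends := card_ends_le c.L (D :: T')
  rw [List.length_cons] at hends
  have hfail : q + 1 ≤ x + 2 * (T'.length + 1) := by
    by_contra hh
    refine hA.no_cyc hC hc hT ?_ ?_ <;> simp only [List.map_cons, List.sum_cons] <;> omega
  have hq : 2 * q ≤ m + 1 := by
    by_contra hh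
    have : x + T'.length ≤ x * T'.length + 1 := by
      obtain ⟨y, hy⟩ : ∃ y, x = y + 1 := ⟨x - 1, by omega⟩
      obtain ⟨z, hz⟩ : ∃ z, T'.length = z + 1 := ⟨T'.length - 1, by omega⟩
      rw [hy, hz]
      nlinarith [Nat.zero_le (y * z)]
    rw [Nat.succ_mul] at hsum
    omega
  refine ⟨hq, ?_⟩
  by_cases hD : D.mid.length + q + 1 = m
  · -- the longest new run
    left
    have h1 : ∀ r ∈ O, r.mid.length ≠ 1 := fun r hr e =>
      hA.no_exact hC hc (T := [D, r]) ((List.singleton_sublist.2 hr).cons_cons D) (by simp; omega)
    refine ⟨hD, h1, ?_⟩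
    obtain ⟨d, hd⟩ := List.exists_mem_of_ne_nil T' (List.ne_nil_of_length_pos hlen)
    have hd := hT'.subset hd
    have hs : List.Sublist [D, d] (D :: O) := (List.singleton_sublist.2 hd).cons_cons D
    have hdl := hA.lim d hd
    have hd1 := h1 d hd
    have hdp := hA.pos (List.mem_cons_of_mem D hd)
    have key : ∀ e, (⟨c.L, [D, d]⟩ : Conf V).ends.card ≤ e → d.mid.length + e ≤ q + 1 → False := by
      intro e he he2
      refine hA.no_cyc hC hc hs ?_ ?_ <;>
        simp only [List.map_cons, List.sum_cons, List.map_nil, List.sum_nil] <;> omega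
    have h4 := card_ends_le c.L [D, d]
    simp only [List.length_cons, List.length_nil] at h4
    have hdeq : d.mid.length = lim m q := by
      by_contra hh
      exact key 4 h4 (by omega)
    refine ⟨d, hd, hdeq, ?_⟩
    by_contra hh
    have h5 := card_ends_lt c.L [D, d] (fun hn => hh (by
      simp only [List.flatMap_cons, List.flatMap_nil, List.append_nil, List.cons_append,
        List.nil_append, List.nodup_cons, List.mem_cons, List.not_mem_nil, or_false, not_or] at hn
      exact ⟨hn.1.2.1, hn.1.2.2, hn.2.1.1, hn.2.1.2⟩))
    simp only [List.length_cons, List.length_nil] at h5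
    exact key 3 (by omega) (by omega)
  · right
    have hDl : D.mid.length ≤ lim m q := by omega
    by_cases hone : T'.length = 1
    · exfalso
      obtain ⟨d, rfl⟩ := List.length_eq_one_iff.1 hone
      have := hA.lim d (hT'.subset (by simp))
      simp only [List.map_cons, List.map_nil, List.sum_cons, List.sum_nil] at hTn
      simp only [List.length_cons, List.length_nil] at hfail
      omega
    obtain ⟨j, hj⟩ : ∃ j, T'.length = j + 2 := ⟨T'.length - 2, by omega⟩
    rw [hj] at hsum hfail
    have hD3 : D.mid.length = 3 ∧ (x = 1 ∨ j = 0) := by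
      rcases Nat.eq_zero_or_pos j with rfl | hjp
      · constructor <;> omega
      · rcases Nat.lt_or_ge x 2 with hx | hx
        · obtain rfl : x = 1 := by omega
          constructor <;> omega
        · exfalso
          have : 2 * j + x ≤ x * j + 2 := by
            obtain ⟨y, hy⟩ : ∃ y, x = y + 2 := ⟨x - 2, by omega⟩
            obtain ⟨z, hz⟩ : ∃ z, j = z + 1 := ⟨j - 1, by omega⟩
            rw [hy, hz]
            nlinarith [Nat.zero_le (y * z)]
          rw [Nat.succ_mul, Nat.mul_add] at hsum
          omega
    obtain ⟨hD3, hxj⟩ := hD3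
    have hxD : x < D.mid.length := by omega
    rcases Nat.lt_or_ge x 2 with hx | hx
    · -- all further runs are doubles
      exfalso
      obtain rfl : x = 1 := by omega
      obtain ⟨r, hr⟩ := List.exists_mem_of_ne_nil T' (List.ne_nil_of_length_pos hlen)
      have e1 := herase r hr
      have e2 : r.mid.length = 2 := by
        have := hbig r hr
        have h' := (List.perm_cons_erase hr).map (fun r : Run V => r.mid.length)
        have h' := h'.sum_eq
        have h'' := len_le_tot (T := T'.erase r) (b := 2) fun s hs => by
          have := hbig s (List.mem_of_mem_erase hs); omega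
        rw [List.length_erase_of_mem hr, hj] at h''
        simp only [List.map_cons, List.sum_cons] at h'
        omega
      have hb := hA.best ⟨c.L, D :: T'.erase r⟩
        (hA.valid.sub (hA.rs ▸ ((List.erase_sublist).trans hT').cons_cons D))
        (by simp only [Conf.sig, List.map_cons, List.sum_cons]; omega) (fun s hs => by
          rcases List.mem_cons.1 hs with rfl | hs
          · exact hDl
          · exact hA.lim s (hT'.subset (List.mem_of_mem_erase hs)))
      simp only [Conf.sig, List.map_cons, List.sum_cons, List.length_cons] at hb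
      rw [List.length_erase_of_mem hr] at hb
      have hle := hT'.length_le
      by_cases hlt : (O.map fun r => r.mid.length).sum < σ₀
      · have := hA.part hlt
        omega
      · have : T' = O := hT'.eq_of_length_le (by omega)
        subst this
        omega
    · obtain rfl : j = 0 := by omega
      obtain ⟨d, d', rfl⟩ : ∃ d d', T' = [d, d'] := List.length_eq_two.1 (by simpa using hj)
      have := hbig d (by simp)
      have := hbig d' (by simp)
      simp only [List.map_cons, List.map_nil, List.sum_cons, List.sum_nil] at hTn
      refine ⟨by omega, by omega, hD3, d, hT'.subset (by simp), d', hT'.subset (by simp),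
        by omega, by omega, ?_⟩
      by_contra hh
      have h5 := card_ends_lt c.L [D, d, d'] (fun hn => hh (by
        simp only [List.flatMap_cons, List.flatMap_nil, List.append_nil, List.cons_append,
          List.nil_append, List.nodup_cons, List.mem_cons, List.not_mem_nil, or_false, not_or] at hn
        obtain ⟨⟨-, a1, a2, a3, a4⟩, ⟨b1, b2, b3, b4⟩, ⟨-, c3, c4⟩, ⟨d3, d4⟩, -⟩ := hn
        exact ⟨⟨a1, a2, b1, b2⟩, ⟨a3, a4, b3, b4⟩, c3, c4, d3, d4⟩))
      simp only [List.length_cons, List.length_nil] at h5
      refine hA.no_cyc hC hc hT ?_ ?_ <;>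
        simp only [List.map_cons, List.map_nil, List.sum_cons, List.sum_nil] <;> omega

/-- The run of two vertices. -/
theorem over2Pin (hc : CycPin) : Over2Pin := by
  classical
  intro V G m a q X Q hC σ₀ k₀ c D O hA h2
  have hm := hC.hm
  have hq1 := hC.hq1
  have hlo := hA.lo
  have hS := hA.sum
  have htot := hA.tot
  have hex : (O.map fun r => r.mid.length).sum + q + 1 = m := by
    by_contra hh
    exact hA.no_exact hC hc (List.Sublist.refl _) (by
      simp only [List.map_cons, List.sum_cons]; omega)
  have h1 : ∀ r ∈ O, r.mid.length ≠ 1 := fun r hr e =>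
    hA.no_exact hC hc (T := D :: O.erase r) (List.erase_sublist.cons_cons D) (by
      have := ((List.perm_cons_erase hr).map (fun r : Run V => r.mid.length)).sum_eq
      simp only [List.map_cons, List.sum_cons] at this ⊢
      omega)
  have hcL : (⟨c.L, D :: O⟩ : Conf V).ends = c.ends := by
    unfold Conf.ends
    simp only [hA.rs]
  have hsub : c.ends ⊆ Q := by
    intro v hv
    simp only [Conf.ends, List.mem_toFinset, List.mem_flatMap] at hv
    obtain ⟨r, hr, h⟩ := hv
    have hmem : r.a ∈ c.L ∧ r.b ∈ c.L := by
      rcases hA.valid.next r hr with h | h <;> exact ⟨h.subset (by simp), h.subset (by simp)⟩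
    simp only [List.mem_cons, List.not_mem_nil, or_false] at h
    rcases h with rfl | rfl
    · exact (hA.valid.memL _).1 hmem.1
    · exact (hA.valid.memL _).1 hmem.2
  have hle := Finset.card_le_card hsub
  rw [hC.hQc] at hle
  have heq : c.ends.card = q := by
    by_contra hh
    refine hA.no_cyc hC hc (List.Sublist.refl _) ?_ ?_ <;>
      simp only [List.map_cons, List.sum_cons, hcL] <;> omega
  have h4 := card_ends_le c.L (D :: O)
  rw [hcL, heq, List.length_cons] at h4
  have h5 := len_le_tot (T := O) (b := 2) fun r hr => by
    have := hA.pos (List.mem_cons_of_mem D hr)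
    have := h1 r hr
    omega
  exact ⟨h1, heq, by omega, hex⟩

end Vale.Agent.P048.Full
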