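import Vale.Agent.P048.Full.Clash.Sides

/-! # The case of a run with one inner vertex

One side is given by the attachment sets of two separate vertices of `Q`, so that the first piece
of a path leaving it joins two separate vertices. The other side takes middles of one-vertex runs.
If nearly all of `Q` is used, all runs have one inner vertex and `Q` itself may be avoided. -/

namespace Vale.Agent.P048.Full

open Finset

variable {V : Type} {G : SimpleGraph V} {m a q : ℕ} {X Q : Finset V} {c : Conf V}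

theorem apart_of_not_right (h : c.Valid G X Q) {u v : V} (hu : u ∈ Q) (hv : v ∈ Q) (hne : v ≠ u)
    (h1 : ¬Right c u) (h2 : ¬Right c v) : Apart c u v := by
  obtain ⟨A, B, hl⟩ := List.mem_iff_append.1 ((h.memL u).2 hu)
  have hvL := (h.memL v).2 hv
  rw [hl, List.mem_append, List.mem_cons] at hvL
  rcases hvL with e | e | e
  · obtain ⟨A₁, A₂, hA⟩ := List.mem_iff_append.1 e
    exact ⟨A₁ ++ [v], A₂ ++ u :: B, cut_of_not_right h (by simp [hl, hA]) h2,
      Or.inr ⟨by simp, by simp⟩⟩
  · exact absurd e hne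
  · exact ⟨A ++ [u], B, cut_of_not_right h hl h1, Or.inl ⟨by simp, e⟩⟩

open Classical in
/-- The vertices that a run from `u` must not end at. -/
noncomputable def blocked (Q : Finset V) (c : Conf V) (u : V) : Finset V :=
  Q.filter fun v => ¬Middle c v ∧ ¬Apart c u v

theorem blocked_card (h : c.Valid G X Q) {u : V} (hu : u ∈ Q) :
    (blocked Q c u).card ≤ 2 ∧ (u ∉ c.ends → (blocked Q c u).card ≤ 1) := by
  classical
  have split : ∀ {v v' : V}, ¬Apart c u v → ¬Apart c u v' → Apart c v v' → False := by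
    rintro v v' h1 h2 ⟨P, S, hcut, hvv⟩
    have huL := (h.memL u).2 hu
    rw [hcut.1, List.mem_append] at huL
    rcases huL with e | e <;> rcases hvv with ⟨p, s⟩ | ⟨p, s⟩
    · exact h2 ⟨P, S, hcut, Or.inl ⟨e, s⟩⟩
    · exact h1 ⟨P, S, hcut, Or.inl ⟨e, s⟩⟩
    · exact h1 ⟨P, S, hcut, Or.inr ⟨p, e⟩⟩
    · exact h2 ⟨P, S, hcut, Or.inr ⟨p, e⟩⟩
  refine ⟨?_, fun hf => ?_⟩
  · have e1 : ((blocked Q c u).filter fun v => ¬Left c v).card ≤ 1 :=
      Finset.card_le_one.2 fun v hv v' hv' => by
        simp only [blocked, Finset.mem_filter] at hv hv'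
        by_contra hne
        exact split hv.1.2.2 hv'.1.2.2 (apart_of_not_left h hv.1.1 hv'.1.1 (Ne.symm hne) hv.2 hv'.2)
    have e2 : ((blocked Q c u).filter fun v => ¬¬Left c v).card ≤ 1 :=
      Finset.card_le_one.2 fun v hv v' hv' => by
        simp only [blocked, Finset.mem_filter, not_not] at hv hv'
        by_contra hne
        exact split hv.1.2.2 hv'.1.2.2 (apart_of_not_right h hv.1.1 hv'.1.1 (Ne.symm hne)
          (fun e => hv.1.2.1 ⟨e, hv.2⟩) fun e => hv'.1.2.1 ⟨e, hv'.2⟩)
    have := Finset.card_filter_add_card_filter_not (s := blocked Q c u) (fun v => ¬Left c v)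
    omega
  · refine le_trans (Finset.card_le_card (t := {u}) fun v hv => ?_) (by simp)
    simp only [blocked, Finset.mem_filter] at hv
    by_contra hne
    exact hv.2.2 (apart_of_notMem_ends h hu hv.1 (by simpa using hne) hf).1

theorem not_left_of_notMem_ends {u : V} (hu : u ∉ c.ends) : ¬Left c u := by
  rintro ⟨r, hr, w, -, e⟩
  refine hu (mem_ends.2 ⟨r, hr, ?_⟩)
  rcases e with ⟨e, -⟩ | ⟨-, e⟩
  · exact Or.inl e.symm
  · exact Or.inr e.symm

/-- Two representatives of separate places, free vertices preferred. -/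
theorem pick_two (h : c.Valid G X Q) (h2 : c.rs.length + 2 ≤ Q.card) :
    ∃ u₁ ∈ Q, ∃ u₂ ∈ Q, u₁ ≠ u₂ ∧ ¬Left c u₁ ∧ ¬Left c u₂ ∧
      (blocked Q c u₁).card + (blocked Q c u₂).card + min (Q.card - c.ends.card) 2 ≤ 4 := by
  classical
  have hF : (Q \ c.ends).card = Q.card - c.ends.card :=
    Finset.card_sdiff_of_subset h.ends_subset
  let T := Q.filter fun u => ¬Left c u
  have hT : 2 ≤ T.card := by
    have := (card_left h).1
    simp only [T]
    omega
  have memT : ∀ {u}, u ∈ T → u ∈ Q ∧ ¬Left c u := fun hu => Finset.mem_filter.1 hu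
  rcases Nat.lt_or_ge (Q \ c.ends).card 2 with hf | hf
  · rcases (Q \ c.ends).eq_empty_or_nonempty with h0 | ⟨u, hu⟩
    · obtain ⟨u₁, h1, u₂, h2, hne⟩ := Finset.one_lt_card.1 (show 1 < T.card by omega)
      rw [h0, Finset.card_empty] at hF
      have := (blocked_card h (memT h1).1).1
      have := (blocked_card h (memT h2).1).1
      exact ⟨u₁, (memT h1).1, u₂, (memT h2).1, hne, (memT h1).2, (memT h2).2, by omega⟩
    · obtain ⟨huQ, hue⟩ := Finset.mem_sdiff.1 hu
      obtain ⟨u₂, h2, hne⟩ := Finset.exists_mem_ne (show 1 < T.card by omega) u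
      have := (blocked_card h huQ).2 hue
      have := (blocked_card h (memT h2).1).1
      exact ⟨u, huQ, u₂, (memT h2).1, hne.symm, not_left_of_notMem_ends hue, (memT h2).2,
        by omega⟩
  · obtain ⟨u₁, h1, u₂, h2, hne⟩ := Finset.one_lt_card.1 (show 1 < (Q \ c.ends).card by omega)
    obtain ⟨q1, e1⟩ := Finset.mem_sdiff.1 h1
    obtain ⟨q2, e2⟩ := Finset.mem_sdiff.1 h2
    have := (blocked_card h q1).2 e1
    have := (blocked_card h q2).2 e2
    exact ⟨u₁, q1, u₂, q2, hne, not_left_of_notMem_ends e1, not_left_of_notMem_ends e2, by omega⟩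

theorem Conf.Valid.eq_of_mem_mid (h : c.Valid G X Q) {r s : Run V} (hr : r ∈ c.rs) (hs : s ∈ c.rs)
    {x : V} (hxr : x ∈ r.mid) (hxs : x ∈ s.mid) : r = s := by
  by_contra hne
  have key : ∀ {r s : Run V} (A B : List (Run V)), c.rs = A ++ r :: B → s ∈ A ++ B →
      x ∈ r.mid → x ∈ s.mid → False := by
    intro r s A B e hsAB h1 h2
    have hn := h.nodupM
    rw [e] at hn
    have hn' : ((r :: (A ++ B)).flatMap Run.mid).Nodup :=
      (List.perm_middle.flatMap_right Run.mid).nodup_iff.1 hn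
    rw [List.flatMap_cons, List.nodup_append] at hn'
    exact hn'.2.2 x h1 x (List.mem_flatMap.2 ⟨s, hsAB, h2⟩) rfl
  obtain ⟨A, B, e⟩ := List.mem_iff_append.1 hr
  rw [e] at hs
  simp only [List.mem_append, List.mem_cons] at hs
  refine key A B e ?_ hxr hxs
  rcases hs with hs | hs | hs
  · exact List.mem_append_left _ hs
  · exact absurd hs.symm hne
  · exact List.mem_append_right _ hs

open Classical in
/-- The middles of runs with one inner vertex. -/
noncomputable def ones (c : Conf V) : Finset V :=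
  (inner c).filter fun x => ∃ r ∈ c.rs, r.mid = [x]

theorem mem_ones {x : V} : x ∈ ones c ↔ ∃ r ∈ c.rs, r.mid = [x] := by
  classical
  simp only [ones, Finset.mem_filter, mem_inner, and_iff_right_iff_imp]
  rintro ⟨r, hr, e⟩
  exact ⟨r, hr, by simp [e]⟩

theorem ones_subset : ones c ⊆ inner c := by
  classical exact Finset.filter_subset _ _

/-- Runs with one inner vertex are rare when the total is large. -/
theorem two_mul_length_le (h : c.Valid G X Q) : 2 * c.rs.length ≤ c.sig + (ones c).card := by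
  classical
  have key : ∀ l : List (Run V), (∀ r ∈ l, r.mid ≠ []) →
      2 * l.length ≤ (l.map fun r => r.mid.length).sum +
        ((l.filter fun r => r.mid.length = 1).map fun r => r.mid.length).sum := by
    intro l
    induction l with
    | nil => simp
    | cons r t ih =>
      intro hne
      have hr := List.length_pos_iff.2 (hne r (by simp))
      have := ih fun s hs => hne s (by simp [hs])
      by_cases e : r.mid.length = 1
      · simp [e]; omega
      · simp [e]; omega
  refine (key c.rs h.ne).trans (Nat.add_le_add_left ?_ _)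
  rw [← List.length_flatMap (f := Run.mid), ← List.toFinset_card_of_nodup
    (h.nodupM.sublist (List.filter_sublist.flatMap Run.mid))]
  refine Finset.card_le_card fun x hx => ?_
  simp only [List.mem_toFinset, List.mem_flatMap, List.mem_filter, decide_eq_true_eq] at hx
  obtain ⟨r, ⟨hr, h1⟩, hxr⟩ := hx
  obtain ⟨y, hy⟩ := List.length_eq_one_iff.1 h1
  rw [hy, List.mem_singleton] at hxr
  exact mem_ones.2 ⟨r, hr, hxr ▸ hy⟩

theorem Conf.Valid.rs_nodup (h : c.Valid G X Q) : c.rs.Nodup :=
  h.apart.imp fun {r s} hn e => hn (by subst e; exact Or.inl ⟨rfl, rfl⟩)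

theorem length_le_sig (h : c.Valid G X Q) : c.rs.length ≤ c.sig := by
  have := List.length_le_sum_of_one_le (c.rs.map fun r => r.mid.length) (by
    simp only [List.mem_map]
    rintro _ ⟨r, hr, rfl⟩
    exact List.length_pos_iff.2 (h.ne r hr))
  simpa [Conf.sig] using this

/-- A run between separate places is impossible next to a run with one inner vertex. -/
theorem Ext.no_join (hx : Ext G m a q X Q c) (hO : OverPin) (hO2 : Over2Pin)
    (h1 : ∃ r ∈ c.rs, r.mid.length = 1) {u v : V} (hA : Apart c u v) (hu : ¬Middle c u)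
    (hv : ¬Middle c v) {l : List V} (hne : l ≠ []) (hlen : l.length + 2 ≤ m)
    (hch : List.IsChain G.Adj (u :: (l ++ [v]))) (hout : ∀ x ∈ l, x ∈ X ∧ x ∉ Q ∧ x ∉ inner c)
    (hnd : l.Nodup) : False := by
  classical
  obtain ⟨r, hr, hr1⟩ := h1
  obtain ⟨c', -, -, h⟩ := hx.joinStep hO hO2 hA hu hv hne hlen hch hout hnd
  rcases h with ⟨-, ⟨-, ⟨-, hno, -⟩ | ⟨hm, hq, -, d, hd, d', hd', e1, e2, -, -, edd⟩⟩ | ⟨-, hno, -⟩⟩
    | ⟨-, h0, -⟩
  · exact hno r hr hr1
  · have hne' : d ≠ d' := fun e => edd.1 (by rw [e])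
    have hsub : ({r, d, d'} : Finset (Run V)) ⊆ c.rs.toFinset := by
      simp [Finset.insert_subset_iff, hr, hd, hd']
    have hnd' := hx.valid.rs_nodup
    have hle := Finset.sum_le_sum_of_subset (f := fun t : Run V => t.mid.length) hsub
    rw [List.sum_toFinset _ hnd', Finset.sum_insert, Finset.sum_insert, Finset.sum_singleton] at hle
    · have := hx.lo
      simp only [Conf.sig] at this
      omega
    · simpa using hne'
    · simp only [Finset.mem_insert, Finset.mem_singleton, not_or]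
      exact ⟨fun e => by rw [e] at hr1; omega, fun e => by rw [e] at hr1; omega⟩
  · exact hno r hr hr1
  · simp [h0] at hr

/-- The path between an attachment side and another side is contradictory. -/
theorem Ext.side_false (hx : Ext G m a q X Q c) (hO : OverPin) (hO2 : Over2Pin)
    (h1 : ∃ r ∈ c.rs, r.mid.length = 1) (hk : 3 ≤ c.rs.length ∨ m ≤ q + 4 ∨ m = 10 ∧ q = 5 ∧ NoFour G X Q) {R Z : Finset V}
    {u₁ u₂ : V} (hu₁ : u₁ ∈ Q ∧ ¬Middle c u₁) (hu₂ : u₂ ∈ Q ∧ ¬Middle c u₂)
    (hap : Apart c u₁ u₂) (hR : R.card + 2 * q + 2 ≤ 2 * m) (hRs : ∀ x ∈ R, x ∈ Q ∨ x ∈ inner c)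
    (hin : ∀ x ∈ inner c, x ∈ R ∨ x ∈ Z)
    (hblock : ∀ v ∈ Q, v ∉ R → ¬Middle c v ∧ Apart c u₁ v ∧ Apart c u₂ v)
    (aZ : 2 ≤ alpha G Z) (hZR : ∀ z ∈ Z, z ∉ R)
    (hZ : ∀ z ∈ Z, z ∈ ones c ∨
      ∃ w ∈ Q, ¬Middle c w ∧ Apart c u₁ w ∧ Apart c u₂ w ∧ z ∈ att G X Q c w) :
    False := by
  classical
  have hm := hx.hC.hm
  have hK : q + 2 ≤ m := by
    obtain ⟨r, hr, hr1⟩ := h1
    have : r.mid.length ≤ c.sig := List.le_sum_of_mem (List.mem_map.2 ⟨r, hr, rfl⟩)
    have := hx.lo
    omega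
  let W := att G X Q c u₁ ∪ att G X Q c u₂
  have hW : ∀ x ∈ W, x ∈ X ∧ x ∉ Q ∧ x ∉ inner c := fun x h => by
    rcases Finset.mem_union.1 h with h | h <;> exact ⟨(mem_att.1 h).1, (mem_att.1 h).2.2⟩
  have hZX : ∀ z ∈ Z, z ∈ X ∧ z ∉ Q := fun z hz => by
    rcases hZ z hz with h | ⟨w, -, -, -, -, h⟩
    · obtain ⟨r, hr, e⟩ := mem_ones.1 h
      exact hx.valid.out r hr z (by simp [e])
    · exact ⟨(mem_att.1 h).1, (mem_att.1 h).2.2.1⟩
  have hsep := hx.att_sep hO hO2 hK hap hu₁.2 hu₂.2 (Or.inl h1)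
  obtain ⟨l, hl⟩ := hx.hC.near (R := R) (W₀ := W) (Z := Z) hR
    (fun x h => ⟨(hW x h).1, fun e => (hRs x e).elim (hW x h).2.1 (hW x h).2.2⟩)
    (fun z h => ⟨(hZX z h).1, hZR z h⟩) (hx.att_pair hu₁.1 hu₂.1 hsep) aZ
  obtain ⟨w, z, hw, hz, hwW, hzZ⟩ := hl.ends
  obtain ⟨u, hu, huw⟩ : ∃ u, (u = u₁ ∨ u = u₂) ∧ G.Adj u w := by
    rcases Finset.mem_union.1 hwW with h | h
    · exact ⟨u₁, Or.inl rfl, (mem_att.1 h).2.1⟩
    · exact ⟨u₂, Or.inr rfl, (mem_att.1 h).2.1⟩
  have huQ : u ∈ Q ∧ ¬Middle c u := by rcases hu with rfl | rfl <;> assumption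
  have hsub : ∀ x ∈ l, x ∈ X ∧ x ∉ R := fun x h => Finset.mem_filter.1 (hl.sub x h)
  have hfree : ∀ A v B, l = A ++ v :: B → ∀ x ∈ A, x ∈ X ∧ x ∉ inner c := by
    intro A v B e x hxA
    obtain ⟨A₁, A₂, e'⟩ := List.mem_iff_append.1 hxA
    have hne := (hl.inner A₁ x (A₂ ++ v :: B) (by simp [e, e'])).2 (by simp)
    obtain ⟨h2, h3⟩ := hsub x (e ▸ List.mem_append_left _ hxA)
    exact ⟨h2, fun hi => (hin x hi).elim h3 hne⟩
  have hlen := hl.len
  rcases split_first Q l with hno | ⟨A, v, B, e, hvQ, hA⟩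
  · obtain ⟨A, rfl⟩ := List.getLast?_eq_some_iff.1 hz
    have hfree' := hfree A z [] rfl
    rcases hZ z hzZ with h | ⟨w', hw'Q, hw'm, ha₁, ha₂, hz'⟩
    · obtain ⟨r, hr, hrz⟩ := mem_ones.1 h
      have hA0 : A ≠ [] := by
        rintro rfl
        simp only [List.nil_append, List.head?_cons, Option.some.injEq] at hw
        exact (hW w hwW).2.2 (hw ▸ ones_subset h)
      have hch : List.IsChain G.Adj (z :: (A.reverse ++ [u])) := by
        have h2 : List.IsChain G.Adj (u :: (A ++ [z])) := by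
          rw [List.isChain_cons]
          exact ⟨fun y hy => by
            rw [hw, Option.mem_def, Option.some.injEq] at hy
            exact hy ▸ huw, hl.chain⟩
        have h3 := List.isChain_reverse.2 (h2.imp fun _ _ e => SimpleGraph.Adj.symm e)
        simpa using h3
      refine hx.replaceOne hO hO2 hk hr (by simp [hrz]) huQ.1 huQ.2 (x := z) (by simp [hrz])
        (by simpa [Nat.one_le_iff_ne_zero] using hA0) ?_ hch ?_ ?_
      · simp only [List.length_append, List.length_reverse, List.length_cons, List.length_nil]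
          at hlen ⊢
        omega
      · intro y hy
        rw [List.mem_reverse] at hy
        exact ⟨(hfree' y hy).1, hno y (List.mem_append_left _ hy), (hfree' y hy).2⟩
      · exact List.nodup_reverse.2 (hl.nodup.sublist (List.sublist_append_left A [z]))
    · have hau : Apart c u w' := by rcases hu with rfl | rfl <;> assumption
      refine hx.no_join hO hO2 h1 hau huQ.2 hw'm (l := A ++ [z]) (by simp) (by omega) ?_ ?_
        hl.nodup
      · rw [List.isChain_cons]
        refine ⟨fun y hy => ?_, hl.chain.append (List.IsChain.singleton w') fun p hp t ht => ?_⟩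
        · rw [List.head?_append, hw, Option.some_or, Option.mem_def, Option.some.injEq] at hy
          exact hy ▸ huw
        · rw [hz, Option.mem_def, Option.some.injEq] at hp
          simp only [List.head?_cons, Option.mem_def, Option.some.injEq] at ht
          exact hp ▸ ht ▸ (mem_att.1 hz').2.1.symm
      · intro y hy
        refine ⟨(hsub y hy).1, hno y hy, ?_⟩
        rcases List.mem_append.1 hy with h | h
        · exact (hfree' y h).2
        · rw [List.mem_singleton.1 h]
          exact (mem_att.1 hz').2.2.2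
  · subst e
    have hA0 : A ≠ [] := by
      rintro rfl
      simp only [List.nil_append, List.head?_cons, Option.some.injEq] at hw
      exact (hW w hwW).2.1 (hw ▸ hvQ)
    obtain ⟨hvm, hv₁, hv₂⟩ := hblock v hvQ (hsub v (by simp)).2
    have hau : Apart c u v := by rcases hu with rfl | rfl <;> assumption
    have hfree' := hfree A v B rfl
    refine hx.no_join hO hO2 h1 hau huQ.2 hvm hA0 ?_ ?_
      (fun y hy => ⟨(hfree' y hy).1, hA y hy, (hfree' y hy).2⟩)
      (hl.nodup.sublist (List.sublist_append_left A (v :: B)))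
    · simp only [List.length_append, List.length_cons] at hlen
      omega
    · rw [List.isChain_cons]
      refine ⟨fun y hy => ?_, ?_⟩
      · rw [List.head?_append_of_ne_nil _ hA0] at hw hy
        rw [hw, Option.mem_def, Option.some.injEq] at hy
        exact hy ▸ huw
      · have hc := hl.chain
        rw [show A ++ v :: B = (A ++ [v]) ++ B by simp] at hc
        exact hc.left_of_append

theorem Ext.ones_not_adj (hx : Ext G m a q X Q c) (hO : OverPin) (hO2 : Over2Pin)
    (hk : 3 ≤ c.rs.length ∨ m ≤ q + 4 ∨ m = 10 ∧ q = 5 ∧ NoFour G X Q) {x y : V} (hxo : x ∈ ones c) (hyo : y ∈ ones c)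
    (hne : x ≠ y) : ¬G.Adj x y := by
  intro e
  obtain ⟨r, hr, hrx⟩ := mem_ones.1 hxo
  obtain ⟨s, hs, hsy⟩ := mem_ones.1 hyo
  refine hx.replaceTwo hO hO2 hk hr hs (fun h => hne ?_) (by simp [hrx]) (by simp [hsy])
    (x := x) (y := y) (by simp [hrx]) (by simp [hsy]) (l := []) ?_ (by simp [e]) (by simp)
    List.nodup_nil
  · rw [h, hsy] at hrx
    simpa using hrx.symm
  · have := hx.hC.hm
    simp
    omega

/-- Every run has one inner vertex and `Q` is avoided. -/
theorem Ext.all_ones_false (hx : Ext G m a q X Q c) (hO : OverPin) (hO2 : Over2Pin)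
    (hk : 3 ≤ c.rs.length ∨ m ≤ q + 4 ∨ m = 10 ∧ q = 5 ∧ NoFour G X Q) (h4 : 4 ≤ (ones c).card) (hq2 : 2 * q ≤ m + 3) : False := by
  classical
  obtain ⟨x₁, h₁, x₂, h₂, n12⟩ := Finset.one_lt_card.1 (show 1 < (ones c).card by omega)
  obtain ⟨x₃, h₃, x₄, h₄, n34⟩ := Finset.one_lt_card.1 (show 1 < (ones c \ {x₁, x₂}).card by
    have := Finset.le_card_sdiff {x₁, x₂} (ones c)
    have := Finset.card_le_two (a := x₁) (b := x₂)
    omega)
  simp only [Finset.mem_sdiff, Finset.mem_insert, Finset.mem_singleton, not_or] at h₃ h₄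
  let F : Finset V := {x₁, x₂, x₃, x₄}
  let R : Finset V := (inner c \ F) ∪ Q
  have hFo : F ⊆ ones c := by
    simp [F, Finset.insert_subset_iff, h₁, h₂, h₃.1, h₄.1]
  have hFi : F ⊆ inner c := hFo.trans ones_subset
  have hFX : ∀ x ∈ F, x ∈ X ∧ x ∉ R := fun x hxF => by
    obtain ⟨r, hr, e⟩ := mem_ones.1 (hFo hxF)
    obtain ⟨hX, hQ⟩ := hx.valid.out r hr x (by simp [e])
    exact ⟨hX, by simp [R, hxF, hQ]⟩
  have hR : R.card + 2 * q + 2 ≤ 2 * m := by
    have := Finset.card_union_le (inner c \ F) Q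
    have := Finset.card_sdiff_of_subset hFi
    have hF4 : F.card = 4 := by
      simp only [F]
      rw [Finset.card_insert_of_notMem, Finset.card_insert_of_notMem,
        Finset.card_insert_of_notMem, Finset.card_singleton] <;>
        simp [n12, n34, h₃.2.1, h₃.2.2, h₄.2.1, h₄.2.2, Ne.symm h₃.2.1, Ne.symm h₃.2.2,
          Ne.symm h₄.2.1, Ne.symm h₄.2.2]
    have := Finset.card_le_card hFi
    have := inner_card hx.valid
    have := hx.hC.hQc
    have := hx.lo
    simp only [R] at *
    omega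
  obtain ⟨l, hl⟩ := hx.hC.near (R := R) (W₀ := {x₁, x₂}) (Z := {x₃, x₄}) hR
    (fun x h => hFX x (by simp only [F, Finset.mem_insert, Finset.mem_singleton] at h ⊢; tauto))
    (fun x h => hFX x (by simp only [F, Finset.mem_insert, Finset.mem_singleton] at h ⊢; tauto))
    (two_le_alpha (by simp) (by simp) n12 (hx.ones_not_adj hO hO2 hk h₁ h₂ n12))
    (two_le_alpha (by simp) (by simp) n34 (hx.ones_not_adj hO hO2 hk h₃.1 h₄.1 n34))
  obtain ⟨w, z, hw, hz, hwW, hzZ⟩ := hl.ends
  have hwz : w ≠ z := by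
    rintro rfl
    simp only [Finset.mem_insert, Finset.mem_singleton] at hwW hzZ
    rcases hwW with rfl | rfl <;> rcases hzZ with e | e <;>
      simp_all
  obtain ⟨l₀, rfl⟩ := List.getLast?_eq_some_iff.1 hz
  cases l₀ with
  | nil =>
    simp only [List.nil_append, List.head?_cons, Option.some.injEq] at hw
    exact hwz hw.symm
  | cons w₀ M =>
    simp only [List.cons_append, List.head?_cons, Option.some.injEq] at hw
    subst hw
    obtain ⟨r, hr, hrw⟩ := mem_ones.1 (hFo (show w₀ ∈ F by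
      simp only [F, Finset.mem_insert, Finset.mem_singleton] at hwW ⊢; tauto))
    obtain ⟨s, hs, hsz⟩ := mem_ones.1 (hFo (show z ∈ F by
      simp only [F, Finset.mem_insert, Finset.mem_singleton] at hzZ ⊢; tauto))
    have hlen := hl.len
    simp only [List.cons_append, List.length_cons, List.length_append, List.length_nil] at hlen
    refine hx.replaceTwo hO hO2 hk hr hs ?_ (by simp [hrw]) (by simp [hsz]) (x := w₀) (y := z)
      (by simp [hrw]) (by simp [hsz]) (l := M) (by omega) hl.chain ?_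
      (hl.nodup.sublist (((List.sublist_append_left M [z]).trans (List.sublist_cons_self w₀ _))))
    · intro e
      rw [e, hsz] at hrw
      exact hwz (by simpa using hrw.symm)
    · intro y hy
      obtain ⟨hyX, hyR⟩ := Finset.mem_filter.1 (hl.sub y (by simp [hy]))
      simp only [R, Finset.mem_union, Finset.mem_sdiff, not_or, not_and, not_not] at hyR
      refine ⟨hyX, hyR.2, fun hi => ?_⟩
      obtain ⟨M₁, M₂, e⟩ := List.mem_iff_append.1 hy
      obtain ⟨e1, e2⟩ := hl.inner (w₀ :: M₁) y (M₂ ++ [z]) (by simp [e])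
      have h' := hyR.1 hi
      have n1 := e1 (by simp)
      have n2 := e2 (by simp)
      simp only [F, Finset.mem_insert, Finset.mem_singleton] at h' n1 n2
      tauto

theorem side_budget {m q s k M V N₁ N₂ j : ℕ} (hm : 9 ≤ m) (hq : (m - 1) / 2 + 1 ≤ q)
    (hlo : s + q + 1 ≤ m) (hs : 1 ≤ s) (hk : k ≤ s) (hM1 : M ≤ k) (hM0 : k ≤ 1 → M = 0) (hM2 : M + V ≤ 2 * k) (hV : V ≤ q)
    (hN : N₁ + N₂ + min (q - V) 2 ≤ 4)
    (hj : j = 2 ∧ ¬(k = s ∧ s + q + 1 = m ∧ m = 2 * q) ∧ 2 ≤ s ∨ j = 1 ∧ 2 * k ≤ s + 1) :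
    s - j + (M + N₁ + N₂) + 2 * q + 2 ≤ 2 * m := by
  omega

/-- Runs with one inner vertex give a contradiction. -/
theorem Ext.single_false (hx : Ext G m a q X Q c) (hO : OverPin) (hO2 : Over2Pin)
    (h1 : ∃ r ∈ c.rs, r.mid.length = 1) (hk : 3 ≤ c.rs.length ∨ m ≤ q + 4 ∨ m = 10 ∧ q = 5 ∧ NoFour G X Q) : False := by
  classical
  have hm := hx.hC.hm
  have hq1 := hx.hC.hq1
  have hlo := hx.lo
  have hQc := hx.hC.hQc
  have hks := length_le_sig hx.valid
  have hones := two_mul_length_le hx.valid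
  have hi0 := inner_card hx.valid
  obtain ⟨r₀, hr₀, hr₀1⟩ := h1
  obtain ⟨x, hx₀⟩ := List.length_eq_one_iff.1 hr₀1
  have hxo : x ∈ ones c := mem_ones.2 ⟨r₀, hr₀, hx₀⟩
  by_cases hB : c.rs.length = c.sig ∧ c.sig + q + 1 = m ∧ m = 2 * q
  · exact hx.all_ones_false hO hO2 hk (by omega) (by omega)
  have hk2 : c.rs.length + 2 ≤ Q.card := by omega
  obtain ⟨u₁, q₁, u₂, q₂, hne, l₁, l₂, hcost⟩ := pick_two hx.valid hk2
  have hap := apart_of_not_left hx.valid q₁ q₂ hne.symm l₁ l₂
  have nm : ∀ {u}, ¬Left c u → ¬Middle c u := fun h e => h e.2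
  let M := Q.filter fun v => Middle c v
  let N := M ∪ blocked Q c u₁ ∪ blocked Q c u₂
  have hN : N.card ≤ M.card + (blocked Q c u₁).card + (blocked Q c u₂).card :=
    (Finset.card_union_le _ _).trans (Nat.add_le_add_right (Finset.card_union_le _ _) _)
  have hM1 : M.card ≤ c.rs.length := card_middle_le hx.valid
  have hM2 : M.card + c.ends.card ≤ 2 * c.rs.length := card_middle hx.valid
  have hs1 : 1 ≤ c.sig := hi0 ▸ Finset.card_pos.2 ⟨x, ones_subset hxo⟩
  have hM0 : c.rs.length ≤ 1 → M.card = 0 := fun h => by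
    rw [Finset.card_eq_zero, Finset.filter_eq_empty_iff]
    intro v _ hv
    obtain ⟨r, hr, r', hr', hne', -⟩ := hv.two hx.valid
    match hl : c.rs with
    | [] => simp [hl] at hr
    | [r₁] => simp only [hl, List.mem_singleton] at hr hr'; exact hne' (hr.trans hr'.symm)
    | _ :: _ :: _ => simp [hl] at h
  have hNQ : ∀ v ∈ N, v ∈ Q := fun v hv => by
    simp only [N, M, blocked, Finset.mem_union, Finset.mem_filter] at hv
    rcases hv with (h | h) | h <;> exact h.1
  have hblock : ∀ v ∈ Q, v ∉ N → ¬Middle c v ∧ Apart c u₁ v ∧ Apart c u₂ v := fun v hv h => by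
    simp only [N, M, blocked, Finset.mem_union, Finset.mem_filter, not_or, not_and, not_not] at h
    exact ⟨h.1.1 hv, h.1.2 hv (h.1.1 hv), h.2 hv (h.1.1 hv)⟩
  have hEQ := Finset.card_le_card hx.valid.ends_subset
  have hi := inner_card hx.valid
  have hio : ones c ⊆ inner c := ones_subset
  have honeX : ∀ {y}, y ∈ ones c → y ∈ X ∧ y ∉ Q := fun hy => by
    obtain ⟨r, hr, e⟩ := mem_ones.1 hy
    exact hx.valid.out r hr _ (by simp [e])
  by_cases h2 : 2 ≤ (ones c).card
  · obtain ⟨x₁, h₁, x₂, h₂, n12⟩ := Finset.one_lt_card.1 (show 1 < (ones c).card by omega)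
    have hsub : ({x₁, x₂} : Finset V) ⊆ inner c := by
      simp [Finset.insert_subset_iff, hio h₁, hio h₂]
    refine hx.side_false hO hO2 ⟨r₀, hr₀, hr₀1⟩ hk (R := (inner c \ {x₁, x₂}) ∪ N)
      (Z := {x₁, x₂}) ⟨q₁, nm l₁⟩ ⟨q₂, nm l₂⟩ hap ?_ ?_ ?_ ?_
      (two_le_alpha (by simp) (by simp) n12 (hx.ones_not_adj hO hO2 hk h₁ h₂ n12)) ?_ ?_
    · have e1 := Finset.card_union_le (inner c \ {x₁, x₂}) N
      have e2 : (inner c \ {x₁, x₂}).card = c.sig - 2 := by
        rw [Finset.card_sdiff_of_subset hsub, Finset.card_pair n12, hi]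
      have h2s : 2 ≤ c.sig := hi ▸ h2.trans (Finset.card_le_card hio)
      have := side_budget hm hq1 hlo hs1 hks hM1 hM0 hM2 (hQc ▸ hEQ) (hQc ▸ hcost) (Or.inl ⟨rfl, hB, h2s⟩)
      clear hblock hNQ honeX
      omega
    · intro y hy
      simp only [Finset.mem_union, Finset.mem_sdiff] at hy
      exact hy.elim (fun h => Or.inr h.1) fun h => Or.inl (hNQ y h)
    · intro y hy
      by_cases h : y ∈ ({x₁, x₂} : Finset V)
      · exact Or.inr h
      · exact Or.inl (Finset.mem_union_left _ (Finset.mem_sdiff.2 ⟨hy, h⟩))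
    · intro v hv h
      exact hblock v hv fun e => h (Finset.mem_union_right _ e)
    · intro y hy
      have hyo : y ∈ ones c := by
        simp only [Finset.mem_insert, Finset.mem_singleton] at hy
        rcases hy with rfl | rfl <;> assumption
      simp only [Finset.mem_union, Finset.mem_sdiff, not_or, not_and, not_not]
      exact ⟨fun _ => hy, fun e => (honeX hyo).2 (hNQ y e)⟩
    · intro y hy
      simp only [Finset.mem_insert, Finset.mem_singleton] at hy
      rcases hy with rfl | rfl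
      · exact Or.inl h₁
      · exact Or.inl h₂
  · have hk3 : c.rs.length + 3 ≤ Q.card := by omega
    have hl := (card_left hx.valid).1
    obtain ⟨w, hwT, hw⟩ := Finset.exists_mem_notMem_of_card_lt_card
      (show ({u₁, u₂} : Finset V).card < (Q.filter fun u => ¬Left c u).card by
        rw [Finset.card_pair hne]; omega)
    simp only [Finset.mem_filter] at hwT
    simp only [Finset.mem_insert, Finset.mem_singleton, not_or] at hw
    have ha₁ := apart_of_not_left hx.valid q₁ hwT.1 hw.1 l₁ hwT.2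
    have ha₂ := apart_of_not_left hx.valid q₂ hwT.1 hw.2 l₂ hwT.2
    obtain ⟨y, hy⟩ := hx.att_nonempty hwT.1
    have hy' := mem_att.1 hy
    refine hx.side_false hO hO2 ⟨r₀, hr₀, hr₀1⟩ hk (R := (inner c).erase x ∪ N)
      (Z := insert x (att G X Q c w)) ⟨q₁, nm l₁⟩ ⟨q₂, nm l₂⟩ hap ?_ ?_ ?_ ?_ ?_ ?_ ?_
    · have e1 := Finset.card_union_le ((inner c).erase x) N
      have e2 : ((inner c).erase x).card = c.sig - 1 := by
        rw [Finset.card_erase_of_mem (hio hxo), hi]
      have := side_budget hm hq1 hlo hs1 hks hM1 hM0 hM2 (hQc ▸ hEQ) (hQc ▸ hcost)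
        (Or.inr ⟨rfl, by omega⟩)
      clear hblock hNQ honeX
      omega
    · intro y hy
      simp only [Finset.mem_union, Finset.mem_erase] at hy
      exact hy.elim (fun h => Or.inr h.2) fun h => Or.inl (hNQ y h)
    · intro y hy
      by_cases h : y = x
      · exact Or.inr (h ▸ Finset.mem_insert_self _ _)
      · exact Or.inl (Finset.mem_union_left _ (Finset.mem_erase.2 ⟨h, hy⟩))
    · intro v hv h
      exact hblock v hv fun e => h (Finset.mem_union_right _ e)
    · refine two_le_alpha (Finset.mem_insert_self x _) (Finset.mem_insert_of_mem hy) ?_ ?_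
      · rintro rfl
        exact hy'.2.2.2 (hio hxo)
      · intro e
        refine hx.replaceOne hO hO2 hk hr₀ hr₀1 hwT.1 (nm hwT.2) (x := x) (by simp [hx₀])
          (l := [y]) (by simp) (by simp; omega) ?_ (by simpa using ⟨hy'.1, hy'.2.2⟩) (by simp)
        simp [e, hy'.2.1.symm]
    · intro z hz
      simp only [Finset.mem_union, Finset.mem_erase, not_or]
      rcases Finset.mem_insert.1 hz with rfl | hz
      · exact ⟨fun e => e.1 rfl, fun e => (honeX hxo).2 (hNQ _ e)⟩
      · exact ⟨fun e => (mem_att.1 hz).2.2.2 e.2, fun e => (mem_att.1 hz).2.2.1 (hNQ _ e)⟩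
    · intro z hz
      rcases Finset.mem_insert.1 hz with rfl | hz
      · exact Or.inl hxo
      · exact Or.inr ⟨w, hwT.1, nm hwT.2, ha₁, ha₂, hz⟩

end Vale.Agent.P048.Full
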