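import Vale.Agent.P048.Full.Clash.One
import Vale.Agent.P048.Full.Clash.Over
import Vale.Agent.P048.Full.Clash.Single
import Vale.Agent.P048.Full.Clash.Matching
import Vale.Agent.P048.Full.Clash.Degenerate

/-! # A large clique is impossible: assembly of the cases -/

namespace Vale.Agent.P048.Full

open Finset

/-- Block Clash. -/
theorem clashPin : ClashPin := by
  intro V G m a q X Q hC
  obtain ⟨c, hx⟩ := exists_ext hC
  have hO : OverPin := overPin cycPin
  have hO2 : Over2Pin := over2Pin cycPin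
  have hq2 := hC.hq2
  have hq1 := hC.hq1
  have hm := hC.hm
  by_cases htop : q + 1 = m
  · exact hC.top_false htop
  by_cases h0 : m = 2 * q ∧ c.rs = []
  · exact hx.empty_even_false hO hO2 h0.1 h0.2
  by_cases h1 : (∃ r ∈ c.rs, r.mid.length = 1) ∧
      (3 ≤ c.rs.length ∨ m ≤ q + 4 ∨ m = 10 ∧ q = 5)
  · exact hx.single_false hO hO2 h1.1 (h1.2.imp_right fun h => h.imp_right fun h =>
      ⟨h.1, h.2, hC.no_four h.1 h.2⟩)
  by_cases h2 : ∃ r, c.rs = [r] ∧ r.mid.length = Full.lim m q ∧ 2 * q ≤ m + 1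
  · obtain ⟨r, e1, e2, e3⟩ := h2
    exact hx.one_false hO hO2 e1 e2 e3
  have hE1 : ∀ r, c.rs = [r] → r.mid.length = Full.lim m q → m + 2 ≤ 2 * q := fun r e1 e2 => by
    by_contra h
    exact h2 ⟨r, e1, e2, by omega⟩
  have hns : (∀ r ∈ c.rs, r.mid.length ≠ 1) ∨ c.rs.length ≤ 2 ∧ q + 5 ≤ m ∧ 6 ≤ q := by
    by_cases h : ∃ r ∈ c.rs, r.mid.length = 1
    · right
      simp only [h, true_and, not_or, not_le] at h1
      omega
    · exact Or.inl fun r hr e => h ⟨r, hr, e⟩
  by_cases hV : c.ends.card + 2 ≤ q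
  · exact hx.general_false hO hO2 (by omega) hns (fun e e' => h0 ⟨e, e'⟩) hE1 hV
  · refine hx.matching_false hO hO2 (hns.resolve_right fun h => ?_) (by omega)
    have := ends_card_le c
    omega

end Vale.Agent.P048.Full
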