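import Vale.Agent.P048.Full.Clash.Cyc

/-! # Rearranging a state: joins, removals, separate places -/

namespace Vale.Agent.P048.Full

open Finset

variable {V : Type} {G : SimpleGraph V} {X Q : Finset V} {c : Conf V} {u v : V} {r : Run V}

/-- The sublists stay separate. -/
theorem Next.split {a b : V} : ∀ {l₁ l₂ : List V}, Next (l₁ ++ l₂) a b → Next l₁ a b ∨ Next l₂ a b ∨
    ∃ p s, l₁.getLast? = some p ∧ l₂.head? = some s ∧ (a = p ∧ b = s ∨ a = s ∧ b = p) := by
  intro l₁
  induction l₁ with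
  | nil => exact fun h => Or.inr (Or.inl h)
  | cons x t ih =>
    intro l₂ h
    cases t with
    | nil =>
      cases l₂ with
      | nil => exact absurd h not_next_singleton
      | cons y l =>
        rcases h.cons_cons with h | h
        · exact Or.inr (Or.inr ⟨x, y, rfl, rfl, h⟩)
        · exact Or.inr (Or.inl h)
    | cons y t =>
      rcases h.cons_cons with (h | h) | h
      · exact Or.inl (Or.inl ⟨[], t, by simp [h.1, h.2]⟩)
      · exact Or.inl (Or.inr ⟨[], t, by simp [h.1, h.2]⟩)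
      · rcases ih h with (e | e) | e | ⟨p, s, e1, e2, e3⟩
        · exact Or.inl (Or.inl (List.infix_cons_iff.2 (Or.inr e)))
        · exact Or.inl (Or.inr (List.infix_cons_iff.2 (Or.inr e)))
        · exact Or.inr (Or.inl e)
        · exact Or.inr (Or.inr ⟨p, s, by simpa using e1, e2, e3⟩)

theorem Next.mono {l l' : List V} {a b : V} (h : Next l a b) (hl : l <:+: l') : Next l' a b :=
  h.imp (fun e => e.trans hl) fun e => e.trans hl

theorem Next.swap {l : List V} {a b : V} (h : Next l a b) : Next l b a := h.symm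

theorem Next.reverse {l : List V} {a b : V} (h : Next l a b) : Next l.reverse a b := by
  rcases h with h | h
  · exact Or.inr (by simpa using List.reverse_infix.2 h)
  · exact Or.inl (by simpa using List.reverse_infix.2 h)

/-- In a list without repetition a pair determines the split. -/
theorem infix_pair_succ {l A B : List V} {x w : V} (hn : l.Nodup) (hl : l = A ++ x :: B)
    (h : [x, w] <:+: l) : B.head? = some w := by
  obtain ⟨s, t, hst⟩ := h
  have e : s ++ x :: (w :: t) = A ++ x :: B := by rw [← hl, ← hst]; simp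
  subst hl
  rw [List.nodup_append] at hn
  obtain ⟨-, hn2, hn3⟩ := hn
  rcases List.append_eq_append_iff.1 e with ⟨d, h1, h2⟩ | ⟨d, h1, h2⟩
  · rcases d with _ | ⟨d0, d⟩
    · simp only [List.nil_append, List.cons.injEq, true_and] at h2
      simp [← h2]
    · exfalso
      simp only [List.cons_append, List.cons.injEq] at h2
      exact hn3 x (by simp [h1, ← h2.1]) x (by simp) rfl
  · rcases d with _ | ⟨d0, d⟩
    · simp only [List.nil_append, List.cons.injEq, true_and] at h2
      simp [h2]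
    · exfalso
      simp only [List.cons_append, List.cons.injEq] at h2
      exact (List.nodup_cons.1 hn2).1 (by simp [h2.2])

/-- A run goes from `u` to the following vertex. -/
def Right (c : Conf V) (u : V) : Prop :=
  ∃ r ∈ c.rs, ∃ w, [u, w] <:+: c.L ∧ (r.a = u ∧ r.b = w ∨ r.a = w ∧ r.b = u)

/-- A run goes from `u` to the preceding vertex. -/
def Left (c : Conf V) (u : V) : Prop :=
  ∃ r ∈ c.rs, ∃ w, [w, u] <:+: c.L ∧ (r.a = u ∧ r.b = w ∨ r.a = w ∧ r.b = u)

/-- `u` has runs on both sides. -/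
def Middle (c : Conf V) (u : V) : Prop := Right c u ∧ Left c u

/-- No run crosses from `P` to `S`. -/
def Cut (c : Conf V) (P S : List V) : Prop :=
  c.L = P ++ S ∧ ∀ r ∈ c.rs, Next P r.a r.b ∨ Next S r.a r.b

/-- A cut separates `u` and `v`. -/
def Apart (c : Conf V) (u v : V) : Prop :=
  ∃ P S, Cut c P S ∧ (u ∈ P ∧ v ∈ S ∨ v ∈ P ∧ u ∈ S)

theorem Apart.symm (h : Apart c u v) : Apart c v u := by
  obtain ⟨P, S, h1, h2⟩ := h
  exact ⟨P, S, h1, h2.symm⟩

theorem cut_of_not_right {A B : List V} (h : c.Valid G X Q) (hl : c.L = A ++ u :: B)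
    (hu : ¬Right c u) : Cut c (A ++ [u]) B := by
  refine ⟨by simpa using hl, fun r hr => ?_⟩
  have hn := h.next r hr
  rw [show c.L = A ++ [u] ++ B by simpa using hl] at hn
  rcases hn.split with e | e | ⟨p, s, e1, e2, e3⟩
  · exact Or.inl e
  · exact Or.inr e
  · refine absurd ⟨r, hr, s, ?_, ?_⟩ hu
    · obtain ⟨B', hB⟩ : ∃ B', B = s :: B' := by
        cases B with
        | nil => simp at e2
        | cons b B' => exact ⟨B', by simpa using e2⟩
      exact ⟨A, B', by simp [hl, hB]⟩
    · simp only [List.getLast?_concat, Option.some.injEq] at e1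
      subst e1
      exact e3

theorem cut_of_not_left {A B : List V} (h : c.Valid G X Q) (hl : c.L = A ++ u :: B)
    (hu : ¬Left c u) : Cut c A (u :: B) := by
  refine ⟨hl, fun r hr => ?_⟩
  have hn := h.next r hr
  rw [hl] at hn
  rcases hn.split with e | e | ⟨p, s, e1, e2, e3⟩
  · exact Or.inl e
  · exact Or.inr e
  · simp only [List.head?_cons, Option.some.injEq] at e2
    subst e2
    refine absurd ⟨r, hr, p, ?_, ?_⟩ hu
    · obtain ⟨A', hA⟩ := List.getLast?_eq_some_iff.1 e1
      exact ⟨A', B, by simp [hl, hA]⟩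
    · exact e3.symm

/-- Inside one side of a cut, a non-middle vertex ends a piece. -/
theorem exists_piece {P S : List V} (h : c.Valid G X Q) (hl : ∃ T T', c.L = T ++ P ++ T')
    (hcut : ∀ r ∈ c.rs, Next P r.a r.b ∨ Next S r.a r.b) (hu : u ∈ P) (hm : ¬Middle c u) :
    ∃ Z Z' : List V, List.Perm (Z ++ Z') P ∧ Z.getLast? = some u ∧
      ∀ r ∈ c.rs, Next Z r.a r.b ∨ Next Z' r.a r.b ∨ Next S r.a r.b := by
  obtain ⟨A, B, rfl⟩ := List.mem_iff_append.1 hu
  obtain ⟨T, T', hL⟩ := hl
  rw [Middle, not_and_or] at hm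
  rcases hm with hm | hm
  · refine ⟨A ++ [u], B, by simp, by simp, fun r hr => ?_⟩
    rcases hcut r hr with e | e
    · rw [show A ++ u :: B = (A ++ [u]) ++ B by simp] at e
      rcases e.split with e | e | ⟨p, s, e1, e2, e3⟩
      · exact Or.inl e
      · exact Or.inr (Or.inl e)
      · simp only [List.getLast?_concat, Option.some.injEq] at e1
        subst e1
        obtain ⟨B', hB⟩ : ∃ B', B = s :: B' := by
          cases B with
          | nil => simp at e2
          | cons b B' => exact ⟨B', by simpa using e2⟩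
        exact absurd ⟨r, hr, s, ⟨T ++ A, B' ++ T', by simp [hL, hB]⟩, e3⟩ hm
    · exact Or.inr (Or.inr e)
  · refine ⟨(u :: B).reverse, A, ?_, by simp, fun r hr => ?_⟩
    · exact ((List.reverse_perm _).append_right A).trans List.perm_append_comm
    rcases hcut r hr with e | e
    · rcases e.split with e | e | ⟨p, s, e1, e2, e3⟩
      · exact Or.inr (Or.inl e)
      · exact Or.inl e.reverse
      · simp only [List.head?_cons, Option.some.injEq] at e2
        subst e2
        obtain ⟨A', hA⟩ := List.getLast?_eq_some_iff.1 e1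
        exact absurd ⟨r, hr, p, ⟨T ++ A', B ++ T', by simp [hL, hA]⟩, e3.symm⟩ hm
    · exact Or.inr (Or.inr e)

/-- Two separate non-middle vertices may be joined by a new run. -/
theorem join (h : c.Valid G X Q) (hA : Apart c u v) (hu : ¬Middle c u) (hv : ¬Middle c v)
    {mid : List V} (hne : mid ≠ []) (hch : List.IsChain G.Adj (u :: (mid ++ [v])))
    (hout : ∀ x ∈ mid, x ∈ X ∧ x ∉ Q) (hnd : mid.Nodup)
    (hdis : ∀ r ∈ c.rs, ∀ x ∈ r.mid, x ∉ mid) :
    ∃ c' : Conf V, c'.Valid G X Q ∧ c'.rs = ⟨u, v, mid⟩ :: c.rs := by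
  obtain ⟨P, S, ⟨hL, hcut⟩, hmem⟩ := hA
  obtain ⟨U, W, hUW, hu', hv', hper⟩ : ∃ U W : List V,
      (∀ r ∈ c.rs, Next U r.a r.b ∨ Next W r.a r.b) ∧ u ∈ U ∧ v ∈ W ∧ List.Perm (U ++ W) c.L ∧
      (∃ T T', c.L = T ++ U ++ T') ∧ ∃ T T', c.L = T ++ W ++ T' := by
    rcases hmem with ⟨h1, h2⟩ | ⟨h1, h2⟩
    · exact ⟨P, S, hcut, h1, h2, by rw [hL], ⟨[], S, by simp [hL]⟩, P, [], by simp [hL]⟩
    · exact ⟨S, P, fun r hr => (hcut r hr).symm, h2, h1,
        by rw [hL]; exact List.perm_append_comm, ⟨P, [], by simp [hL]⟩, [], S, by simp [hL]⟩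
  obtain ⟨hper, hTU, hTW⟩ := hper
  obtain ⟨Z, Z', hZ, hZu, hZc⟩ := exists_piece h hTU hUW hu' hu
  obtain ⟨Y, Y', hY, hYv, hYc⟩ :=
    exists_piece h hTW (fun r hr => (hUW r hr).symm) hv' hv
  have hsplit : ∀ r ∈ c.rs, Next Z r.a r.b ∨ Next Y r.a r.b ∨ Next Z' r.a r.b ∨ Next Y' r.a r.b := by
    intro r hr
    have hdisUW : ∀ x ∈ U, x ∉ W := by
      have := hper.nodup_iff.2 h.nodupL
      rw [List.nodup_append] at this
      exact fun x h1 h2 => this.2.2 x h1 x h2 rfl
    rcases hZc r hr with e | e | e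
    · exact Or.inl e
    · exact Or.inr (Or.inr (Or.inl e))
    · rcases hYc r hr with e' | e' | e'
      · exact Or.inr (Or.inl e')
      · exact Or.inr (Or.inr (Or.inr e'))
      · exact absurd e.mem.1 (hdisUW r.a e'.mem.1)
  let l := Z ++ (Y.reverse ++ (Z' ++ Y'))
  have hl : List.Perm l c.L := by
    refine List.Perm.trans ?_ hper
    have e1 : List.Perm l (Z ++ Z' ++ (Y ++ Y')) := by
      simp only [l, List.append_assoc]
      refine List.Perm.append_left Z ?_
      refine ((List.reverse_perm Y).append_right _).trans ?_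
      rw [← List.append_assoc, ← List.append_assoc]
      exact List.perm_append_comm.append_right Y'
    exact e1.trans (hZ.append hY)
  have hsame : ∀ r ∈ c.rs, Next l r.a r.b := by
    intro r hr
    rcases hsplit r hr with e | e | e | e
    · exact e.mono ⟨[], Y.reverse ++ (Z' ++ Y'), by simp [l]⟩
    · exact e.reverse.mono ⟨Z, Z' ++ Y', by simp [l]⟩
    · exact e.mono ⟨Z ++ Y.reverse, Y', by simp [l]⟩
    · exact e.mono ⟨Z ++ Y.reverse ++ Z', [], by simp [l]⟩
  refine ⟨⟨l, ⟨u, v, mid⟩ :: c.rs⟩,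
    { nodupL := hl.nodup_iff.2 h.nodupL
      memL := fun x => by simp only [hl.mem_iff, h.memL]
      ne := List.forall_mem_cons.2 ⟨hne, h.ne⟩
      chain := List.forall_mem_cons.2 ⟨hch, h.chain⟩
      out := List.forall_mem_cons.2 ⟨hout, h.out⟩
      next := List.forall_mem_cons.2 ⟨?_, hsame⟩
      nodupM := ?_
      apart := List.pairwise_cons.2 ⟨?_, h.apart⟩ }, rfl⟩
  · obtain ⟨Z0, hZ0⟩ := List.getLast?_eq_some_iff.1 hZu
    obtain ⟨Y0, hY0⟩ := List.getLast?_eq_some_iff.1 hYv
    exact Or.inl ⟨Z0, Y0.reverse ++ (Z' ++ Y'), by simp [l, hZ0, hY0]⟩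
  · rw [List.flatMap_cons, List.nodup_append]
    refine ⟨hnd, h.nodupM, fun x hx y hy e => ?_⟩
    obtain ⟨r, hr, hy⟩ := List.mem_flatMap.1 hy
    exact hdis r hr y hy (e ▸ hx)
  · intro r hr hs
    have hdisUW : ∀ x ∈ U, x ∉ W := by
      have := hper.nodup_iff.2 h.nodupL
      rw [List.nodup_append] at this
      exact fun x h1 h2 => this.2.2 x h1 x h2 rfl
    rcases hUW r hr with e | e <;> rcases hs with ⟨e1, e2⟩ | ⟨e1, e2⟩ <;>
      simp only at e1 e2 <;> subst e1 e2
    · exact hdisUW _ e.mem.2 hv'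
    · exact hdisUW _ e.mem.1 hv'
    · exact hdisUW _ hu' e.mem.1
    · exact hdisUW _ hu' e.mem.2

/-- Removing a run opens a cut between its ends. -/
theorem erase_run (h : c.Valid G X Q) {O₁ O₂ : List (Run V)} (hr : c.rs = O₁ ++ r :: O₂) :
    (⟨c.L, O₁ ++ O₂⟩ : Conf V).Valid G X Q ∧ Apart (⟨c.L, O₁ ++ O₂⟩ : Conf V) r.a r.b ∧
      ¬Middle (⟨c.L, O₁ ++ O₂⟩ : Conf V) r.a ∧ ¬Middle (⟨c.L, O₁ ++ O₂⟩ : Conf V) r.b := by
  let c' : Conf V := ⟨c.L, O₁ ++ O₂⟩
  have hs : List.Sublist (O₁ ++ O₂) c.rs := hr ▸ (List.sublist_cons_self r O₂).append_left O₁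
  have h' : c'.Valid G X Q := h.sub hs
  have hp := h.apart
  rw [hr, List.pairwise_append, List.pairwise_cons] at hp
  have hne : ∀ s ∈ O₁ ++ O₂, ¬SameEnds r s := by
    intro s hs
    rcases List.mem_append.1 hs with hs | hs
    · intro e
      refine hp.2.2 s hs r (by simp) ?_
      rcases e with ⟨e1, e2⟩ | ⟨e1, e2⟩
      · exact Or.inl ⟨e1.symm, e2.symm⟩
      · exact Or.inr ⟨e2.symm, e1.symm⟩
    · exact hp.2.1.1 s hs
  have key : ∀ x w, [x, w] <:+: c.L → (r.a = x ∧ r.b = w ∨ r.a = w ∧ r.b = x) →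
      ¬Right c' x ∧ ¬Left c' w := by
    intro x w hxw hr'
    obtain ⟨A, B, hAB⟩ := hxw
    have hl : c.L = A ++ x :: (w :: B) := by simp [← hAB]
    constructor
    · rintro ⟨s, hs', w', hw', e⟩
      have := infix_pair_succ h.nodupL hl hw'
      simp only [List.head?_cons, Option.some.injEq] at this
      subst this
      refine hne s hs' ?_
      rcases hr' with ⟨a1, a2⟩ | ⟨a1, a2⟩ <;> rcases e with ⟨b1, b2⟩ | ⟨b1, b2⟩ <;>
        simp [SameEnds, a1, a2, b1, b2]
    · rintro ⟨s, hs', x', hx', e⟩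
      have hl' : c.L.reverse = (w :: B).tail.reverse ++ w :: (x :: A.reverse) := by simp [hl]
      have := infix_pair_succ (List.nodup_reverse.2 h.nodupL) hl'
        (show [w, x'] <:+: c.L.reverse from List.reverse_infix.2 hx')
      simp only [List.head?_cons, Option.some.injEq] at this
      subst this
      refine hne s hs' ?_
      rcases hr' with ⟨a1, a2⟩ | ⟨a1, a2⟩ <;> rcases e with ⟨b1, b2⟩ | ⟨b1, b2⟩ <;>
        simp [SameEnds, a1, a2, b1, b2]
  refine ⟨h', ?_⟩
  rcases h.next r (by simp [hr]) with hn | hn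
  · obtain ⟨k1, k2⟩ := key r.a r.b hn (Or.inl ⟨rfl, rfl⟩)
    obtain ⟨A, B, hAB⟩ := hn
    refine ⟨⟨A ++ [r.a], r.b :: B, cut_of_not_right h' (by simp [c', ← hAB]) k1,
      Or.inl ⟨by simp, by simp⟩⟩, fun e => k1 e.1, fun e => k2 e.2⟩
  · obtain ⟨k1, k2⟩ := key r.b r.a hn (Or.inr ⟨rfl, rfl⟩)
    obtain ⟨A, B, hAB⟩ := hn
    refine ⟨⟨A ++ [r.b], r.a :: B, cut_of_not_right h' (by simp [c', ← hAB]) k1,
      Or.inr ⟨by simp, by simp⟩⟩, fun e => k2 e.2, fun e => k1 e.1⟩

/-- An unused vertex of `Q` is separate from all others. -/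
theorem apart_of_notMem_ends (h : c.Valid G X Q) (hu : u ∈ Q) (hv : v ∈ Q) (hne : v ≠ u)
    (hf : u ∉ c.ends) : Apart c u v ∧ ¬Middle c u := by
  classical
  have hno : ¬Right c u ∧ ¬Left c u := by
    refine ⟨?_, ?_⟩ <;> rintro ⟨r, hr, w, -, e⟩ <;> refine hf ?_ <;>
      simp only [Conf.ends, List.mem_toFinset, List.mem_flatMap] <;>
      refine ⟨r, hr, ?_⟩ <;> rcases e with ⟨e, -⟩ | ⟨-, e⟩ <;> simp [e]
  refine ⟨?_, fun e => hno.1 e.1⟩
  obtain ⟨A, B, hl⟩ := List.mem_iff_append.1 ((h.memL u).2 hu)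
  have hvL := (h.memL v).2 hv
  rw [hl, List.mem_append, List.mem_cons] at hvL
  rcases hvL with e | e | e
  · exact ⟨A, u :: B, cut_of_not_left h hl hno.2, Or.inr ⟨e, by simp⟩⟩
  · exact absurd e hne
  · exact ⟨A ++ [u], B, cut_of_not_right h hl hno.1, Or.inl ⟨by simp, e⟩⟩

/-- Two vertices with nothing on their left are separate. -/
theorem apart_of_not_left (h : c.Valid G X Q) (hu : u ∈ Q) (hv : v ∈ Q) (hne : v ≠ u)
    (h1 : ¬Left c u) (h2 : ¬Left c v) : Apart c u v := by
  obtain ⟨A, B, hl⟩ := List.mem_iff_append.1 ((h.memL u).2 hu)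
  have hvL := (h.memL v).2 hv
  rw [hl, List.mem_append, List.mem_cons] at hvL
  rcases hvL with e | e | e
  · exact ⟨A, u :: B, cut_of_not_left h hl h1, Or.inr ⟨e, by simp⟩⟩
  · exact absurd e hne
  · obtain ⟨B₁, B₂, hB⟩ := List.mem_iff_append.1 e
    exact ⟨A ++ u :: B₁, v :: B₂, cut_of_not_left h (by simp [hl, hB]) h2,
      Or.inl ⟨by simp, by simp⟩⟩

open Classical in
/-- Few vertices have a run on their left. -/
theorem card_left (h : c.Valid G X Q) :
    Q.card ≤ (Q.filter fun u => ¬Left c u).card + c.rs.length ∧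
      c.ends.card ≤ (c.ends.filter fun u => ¬Left c u).card + c.rs.length := by
  have key : ∀ T : Finset V, T.card ≤ (T.filter fun u => ¬Left c u).card + c.rs.length := by
    intro T
    rw [← Finset.card_filter_add_card_filter_not (s := T) (fun u => ¬Left c u)]
    refine Nat.add_le_add_left ?_ _
    let f : V → ℕ := fun u => if hu : Left c u then c.rs.idxOf hu.choose else 0
    have hlt : ∀ u ∈ T.filter (fun u => ¬¬Left c u), f u < c.rs.length := fun u hu => by
      simp only [Finset.mem_filter, not_not] at hu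
      simp only [f, dif_pos hu.2]
      exact List.idxOf_lt_length_iff.2 hu.2.choose_spec.1
    refine le_of_le_of_eq (Finset.card_le_card_of_injOn (t := Finset.range c.rs.length) f
      (fun u hu => Finset.mem_coe.2 (Finset.mem_range.2 (hlt u hu))) ?_) (Finset.card_range _)
    intro a ha b hb e
    simp only [Finset.coe_filter, Set.mem_ofPred_eq, not_not] at ha hb
    simp only [f, dif_pos ha.2, dif_pos hb.2] at e
    have e' : ha.2.choose = hb.2.choose := (List.idxOf_inj (List.idxOf_lt_length_iff.2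
      ha.2.choose_spec.1 |> fun _ => ha.2.choose_spec.1)).1 e
    obtain ⟨wa, ia, ea⟩ := ha.2.choose_spec.2
    obtain ⟨wb, ib, eb⟩ := hb.2.choose_spec.2
    rw [← e'] at eb
    have hnl := h.nodupL
    by_contra hne
    have hswap : wa = b ∧ wb = a := by
      rcases ea with ⟨a1, a2⟩ | ⟨a1, a2⟩ <;> rcases eb with ⟨b1, b2⟩ | ⟨b1, b2⟩
      · exact absurd (a1.symm.trans b1) hne
      · exact ⟨a2.symm.trans b2, b1.symm.trans a1⟩
      · exact ⟨a1.symm.trans b1, b2.symm.trans a2⟩
      · exact absurd (a2.symm.trans b2) hne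
    obtain ⟨rfl, rfl⟩ := hswap
    obtain ⟨A, B, hAB⟩ := ia
    obtain ⟨A', B', hAB'⟩ := ib
    have hl : c.L = A ++ wa :: (wb :: B) := by simp [← hAB]
    have hl' : c.L = (A ++ [wa]) ++ wb :: B := by simp [← hAB]
    have := infix_pair_succ hnl hl' ⟨A', B', hAB'⟩
    cases B with
    | nil => simp at this
    | cons z B =>
      simp only [List.head?_cons, Option.some.injEq] at this
      subst this
      rw [hl, List.nodup_append, List.nodup_cons] at hnl
      exact hnl.2.1.1 (by simp)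
  exact ⟨key Q, key c.ends⟩

open Classical in
/-- Middle vertices cost two run ends each. -/
theorem card_middle (h : c.Valid G X Q) :
    (Q.filter fun u => Middle c u).card + c.ends.card ≤ 2 * c.rs.length := by
  let E := c.rs.flatMap fun r => [r.a, r.b]
  have hlen : E.length = 2 * c.rs.length := by
    simp only [E]
    induction c.rs with
    | nil => simp
    | cons r t ih => simp [ih]; omega
  have hmid : (Q.filter fun u => Middle c u) ⊆ c.ends.filter fun u => 2 ≤ E.count u := by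
    intro u hu
    rw [Finset.mem_filter] at hu
    obtain ⟨-, ⟨r, hr, w, hw, er⟩, ⟨s, hs, w', hw', es⟩⟩ := hu
    have hne : r ≠ s := by
      rintro rfl
      have hww : w = w' := by
        rcases er with ⟨a1, a2⟩ | ⟨a1, a2⟩ <;> rcases es with ⟨b1, b2⟩ | ⟨b1, b2⟩
        · exact a2.symm.trans b2
        · exact (a2.symm.trans b2).trans (a1.symm.trans b1)
        · exact (a1.symm.trans b1).trans (a2.symm.trans b2)
        · exact a1.symm.trans b1
      subst hww
      obtain ⟨A, B, hAB⟩ := hw'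
      have hl : c.L = A ++ w :: (u :: B) := by simp [← hAB]
      have hl' : c.L = (A ++ [w]) ++ u :: B := by simp [← hAB]
      have := infix_pair_succ h.nodupL hl' hw
      have hnl := h.nodupL
      rw [hl, List.nodup_append, List.nodup_cons] at hnl
      exact hnl.2.1.1 (List.mem_cons_of_mem u (List.mem_of_mem_head? this))
    have hE : u ∈ c.ends := by
      simp only [Conf.ends, List.mem_toFinset, List.mem_flatMap]
      exact ⟨r, hr, by rcases er with ⟨e, -⟩ | ⟨-, e⟩ <;> simp [e]⟩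
    refine Finset.mem_filter.2 ⟨hE, ?_⟩
    obtain ⟨O₁, O₂, hsplit⟩ := List.mem_iff_append.1 hr
    have hs' : s ∈ O₁ ++ O₂ := by
      rw [hsplit] at hs
      simp only [List.mem_append, List.mem_cons] at hs ⊢
      rcases hs with e | e | e
      · exact Or.inl e
      · exact absurd e.symm hne
      · exact Or.inr e
    have e1 : 1 ≤ [r.a, r.b].count u := List.count_pos_iff.2 (by
      rcases er with ⟨e, -⟩ | ⟨-, e⟩ <;> simp [e])
    have e2 : 1 ≤ ((O₁ ++ O₂).flatMap fun r => [r.a, r.b]).count u := List.count_pos_iff.2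
      (List.mem_flatMap.2 ⟨s, hs', by rcases es with ⟨e, -⟩ | ⟨-, e⟩ <;> simp [e]⟩)
    simp only [E, hsplit, List.flatMap_append, List.flatMap_cons, List.count_append] at e2 ⊢
    omega
  have e3 : ∑ u ∈ c.ends, E.count u = E.length := List.sum_toFinset_count_eq_length E
  have e4 : (c.ends.filter fun u => 2 ≤ E.count u).card + c.ends.card ≤ ∑ u ∈ c.ends, E.count u := by
    rw [Finset.card_filter, Finset.card_eq_sum_ones c.ends, ← Finset.sum_add_distrib]
    refine Finset.sum_le_sum fun u hu => ?_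
    have : 1 ≤ E.count u := List.count_pos_iff.2 (by
      simpa [Conf.ends, E] using hu)
    split <;> omega
  have := Finset.card_le_card hmid
  omega

end Vale.Agent.P048.Full
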