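import Vale.Agent.P048.Full.Clash.Move

/-! # A short path between two sides -/

namespace Vale.Agent.P048.Full

open Finset

variable {V : Type} {G : SimpleGraph V}

open Classical in
/-- The ball of radius `r` around `W₀` inside `Y`. -/
noncomputable def ballIn (G : SimpleGraph V) (Y W₀ : Finset V) : ℕ → Finset V
  | 0 => W₀
  | r + 1 => Y.filter fun x => x ∈ ballIn G Y W₀ r ∨ ∃ y ∈ ballIn G Y W₀ r, G.Adj y x

theorem ballIn_subset {Y W₀ : Finset V} (h : W₀ ⊆ Y) : ∀ r, ballIn G Y W₀ r ⊆ Y
  | 0 => h
  | r + 1 => by classical exact Finset.filter_subset _ _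

theorem ballIn_succ {Y W₀ : Finset V} (h : W₀ ⊆ Y) (r : ℕ) {x : V} (hx : x ∈ ballIn G Y W₀ r) :
    x ∈ ballIn G Y W₀ (r + 1) := by
  classical
  exact Finset.mem_filter.2 ⟨ballIn_subset h r hx, Or.inl hx⟩

theorem exists_list_of_ballIn {Y W₀ : Finset V} (h : W₀ ⊆ Y) :
    ∀ (r : ℕ) (x : V), x ∈ ballIn G Y W₀ r → ∃ w l, w ∈ W₀ ∧ List.IsChain G.Adj (w :: l) ∧
      (∀ v ∈ w :: l, v ∈ Y) ∧ (w :: l).getLast (List.cons_ne_nil w l) = x ∧ l.length ≤ r := by
  classical
  intro r
  induction r with
  | zero =>
    intro x hx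
    exact ⟨x, [], hx, List.IsChain.singleton x, fun v hv => by
      rw [List.mem_singleton.1 hv]; exact h hx, rfl, le_rfl⟩
  | succ r ih =>
    intro x hx
    simp only [ballIn, Finset.mem_filter] at hx
    obtain ⟨hxY, hx | ⟨y, hy, hyx⟩⟩ := hx
    · obtain ⟨w, l, h1, h2, h3, h4, h5⟩ := ih x hx
      exact ⟨w, l, h1, h2, h3, h4, by omega⟩
    · obtain ⟨w, l, h1, h2, h3, h4, h5⟩ := ih y hy
      refine ⟨w, l ++ [x], h1, ?_, ?_, ?_, by simpa using h5⟩
      · rw [← List.cons_append]
        refine h2.append (List.IsChain.singleton x) fun p hp s hs => ?_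
        rw [List.getLast?_eq_some_getLast (List.cons_ne_nil w l), Option.mem_def,
          Option.some.injEq, h4] at hp
        simp only [List.head?_cons, Option.mem_def, Option.some.injEq] at hs
        exact hp ▸ hs ▸ hyx
      · intro v hv
        rw [← List.cons_append, List.mem_append, List.mem_singleton] at hv
        exact hv.elim (h3 v) fun e => e ▸ hxY
      · simp

/-- A path from `W₀` to `Z` with at most `n` vertices, avoiding both in between. -/
structure Link (G : SimpleGraph V) (Y W₀ Z : Finset V) (n : ℕ) (l : List V) : Prop where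
  chain : List.IsChain G.Adj l
  sub : ∀ v ∈ l, v ∈ Y
  len : l.length ≤ n
  nodup : l.Nodup
  ends : ∃ w z, l.head? = some w ∧ l.getLast? = some z ∧ w ∈ W₀ ∧ z ∈ Z
  inner : ∀ A v B, l = A ++ v :: B → (A ≠ [] → v ∉ W₀) ∧ (B ≠ [] → v ∉ Z)

variable {m a q : ℕ} {X Q : Finset V}

open Classical in
/-- Two sides of independence number at least two are at distance at most `m - 3`. -/
theorem Clash.near (hC : Clash G m a q X Q) {R W₀ Z : Finset V}
    (hR : R.card + 2 * q + 2 ≤ 2 * m) (hW : ∀ x ∈ W₀, x ∈ X ∧ x ∉ R)
    (hZ : ∀ x ∈ Z, x ∈ X ∧ x ∉ R) (aW : 2 ≤ alpha G W₀) (aZ : 2 ≤ alpha G Z) :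
    ∃ l, Link G (X.filter fun x => x ∉ R) W₀ Z (m - 2) l := by
  classical
  let Y := X.filter fun x => x ∉ R
  have hm := hC.hm
  have hW' : W₀ ⊆ Y := fun x hx => Finset.mem_filter.2 (hW x hx)
  have hZ' : Z ⊆ Y := fun x hx => Finset.mem_filter.2 (hZ x hx)
  have hex : ∃ n, ∃ w l, w ∈ W₀ ∧ List.IsChain G.Adj (w :: l) ∧ (∀ v ∈ w :: l, v ∈ Y) ∧
      (w :: l).getLast (List.cons_ne_nil w l) ∈ Z ∧ l.length = n ∧ n + 3 ≤ m := by
    by_contra hno
    have hfar : ∀ x ∈ Z, x ∉ ballIn G Y W₀ (m - 3) := fun x hx hx' => by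
      obtain ⟨w, l, h1, h2, h3, h4, h5⟩ := exists_list_of_ballIn hW' _ x hx'
      exact hno ⟨_, w, l, h1, h2, h3, h4 ▸ hx, rfl, by omega⟩
    have hmono : ∀ r d, ballIn G Y W₀ r ⊆ ballIn G Y W₀ (r + d) := fun r d => by
      induction d with
      | zero => exact subset_rfl
      | succ d ih => exact fun x hx => ballIn_succ hW' _ (ih hx)
    have grow : ∀ r, r + 4 ≤ m → alpha G W₀ + r ≤ alpha G (ballIn G Y W₀ r) := by
      intro r
      induction r with
      | zero => exact fun _ => by simp [ballIn]
      | succ r ih =>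
        intro hr
        have hih := ih (by omega)
        by_contra hg
        let U₂ := Y.filter fun x => x ∉ ballIn G Y W₀ (r + 1)
        have hZU : Z ⊆ U₂ := fun x hx => Finset.mem_filter.2 ⟨hZ' hx, fun e => hfar x hx (by
          have := hmono (r + 1) (m - 3 - (r + 1)) e
          rwa [show r + 1 + (m - 3 - (r + 1)) = m - 3 by omega] at this)⟩
        have hU : 2 ≤ alpha G U₂ := aZ.trans (alpha_mono hZU)
        have hsum : alpha G (ballIn G Y W₀ r) + alpha G U₂ ≤ alpha G X :=
          alpha_add_le ((ballIn_subset hW' r).trans (Finset.filter_subset _ _))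
            ((Finset.filter_subset _ _).trans (Finset.filter_subset _ _))
            (Finset.disjoint_left.2 fun x h1 h2 =>
              (Finset.mem_filter.1 h2).2 (ballIn_succ hW' r h1))
            fun p hp s hs e => (Finset.mem_filter.1 hs).2
              (Finset.mem_filter.2 ⟨(Finset.mem_filter.1 hs).1, Or.inr ⟨p, hp, e⟩⟩)
        have := alpha_mono (G := G) (show ballIn G Y W₀ r ⊆ ballIn G Y W₀ (r + 1) from
          fun x hx => ballIn_succ hW' r hx)
        have := hC.sep R (ballIn G Y W₀ (r + 1)) U₂ (fun x hx => by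
          by_cases h1 : x ∈ R
          · exact Or.inl h1
          by_cases h2 : x ∈ ballIn G Y W₀ (r + 1)
          · exact Or.inr (Or.inl h2)
          · exact Or.inr (Or.inr (Finset.mem_filter.2 ⟨Finset.mem_filter.2 ⟨hx, h1⟩, h2⟩)))
          ((ballIn_subset hW' _).trans (Finset.filter_subset _ _))
          ((Finset.filter_subset _ _).trans (Finset.filter_subset _ _)) hR (by omega) hU
        have := hC.hX
        omega
    have hlast := grow (m - 4) (by omega)
    have hsum : alpha G (ballIn G Y W₀ (m - 4)) + alpha G Z ≤ alpha G X :=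
      alpha_add_le ((ballIn_subset hW' _).trans (Finset.filter_subset _ _))
        (hZ'.trans (Finset.filter_subset _ _))
        (Finset.disjoint_left.2 fun x h1 h2 => hfar x h2 (by
          have := ballIn_succ hW' _ h1
          rwa [show m - 4 + 1 = m - 3 by omega] at this))
        fun p hp s hs e => hfar s hs (by
          have : s ∈ ballIn G Y W₀ (m - 4 + 1) :=
            Finset.mem_filter.2 ⟨hZ' hs, Or.inr ⟨p, hp, e⟩⟩
          rwa [show m - 4 + 1 = m - 3 by omega] at this)
    have := hC.hX
    have := hC.ha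
    omega
  obtain ⟨w, l, h1, h2, h3, h4, h5, h6⟩ := Nat.find_spec hex
  have hmin : ∀ w' l', w' ∈ W₀ → List.IsChain G.Adj (w' :: l') → (∀ v ∈ w' :: l', v ∈ Y) →
      (w' :: l').getLast (List.cons_ne_nil w' l') ∈ Z → l.length ≤ l'.length := by
    intro w' l' a1 a2 a3 a4
    by_contra hlt
    exact Nat.find_min hex (show l'.length < Nat.find hex by omega)
      ⟨w', l', a1, a2, a3, a4, rfl, by omega⟩
  have hW0 : ∀ A v B, w :: l = A ++ v :: B → A ≠ [] → v ∉ W₀ := by
    intro A v B e hA hv
    have hsuf : List.IsChain G.Adj (v :: B) := (e ▸ h2).right_of_append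
    have hl := congrArg List.length e
    simp only [List.length_cons, List.length_append] at hl
    have hA' := List.length_pos_iff.2 hA
    have := hmin v B hv hsuf (fun x hx => h3 x (e ▸ List.mem_append_right A hx)) (by
      simpa [e, List.getLast_append_of_ne_nil] using h4)
    omega
  have hZ0 : ∀ A v B, w :: l = A ++ v :: B → B ≠ [] → v ∉ Z := by
    intro A v B e hB hv
    have hB' := List.length_pos_iff.2 hB
    have hl := congrArg List.length e
    simp only [List.length_cons, List.length_append] at hl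
    rcases A with _ | ⟨A0, A⟩
    · simp only [List.nil_append, List.cons.injEq] at e
      have := hmin w [] h1 (List.IsChain.singleton w) (fun x hx => by
        rw [List.mem_singleton.1 hx]; exact h3 w (by simp)) (e.1 ▸ hv)
      simp only [List.length_nil] at this hl
      omega
    · simp only [List.cons_append, List.cons.injEq] at e
      have e' : w :: l = (w :: (A ++ [v])) ++ B := by simp [e.2]
      have := hmin w (A ++ [v]) h1 (e' ▸ h2).left_of_append
        (fun x hx => h3 x (e' ▸ List.mem_append_left B hx)) (by simpa using hv)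
      simp only [List.length_append, List.length_cons, List.length_nil] at this hl
      omega
  refine ⟨w :: l, h2, h3, by simp only [List.length_cons]; omega, ?_,
    ⟨w, _, rfl, List.getLast?_eq_some_getLast _, h1, h4⟩, fun A v B e => ⟨hW0 A v B e, hZ0 A v B e⟩⟩
  by_contra hnd
  obtain ⟨v, hv⟩ := List.exists_duplicate_iff_not_nodup.2 hnd
  obtain ⟨A, T, hA⟩ := List.mem_iff_append.1 hv.mem
  have hdup : v ∈ A ∨ v ∈ T := by
    by_contra hnot
    push Not at hnot
    have h2c := List.duplicate_iff_two_le_count.1 hv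
    rw [hA, List.count_append, List.count_cons_self, List.count_eq_zero.2 hnot.1,
      List.count_eq_zero.2 hnot.2] at h2c
    omega
  obtain ⟨P, M, S, e⟩ : ∃ P M S, w :: l = P ++ v :: (M ++ v :: S) := by
    rcases hdup with hd | hd
    · obtain ⟨A1, A2, e⟩ := List.mem_iff_append.1 hd
      exact ⟨A1, A2, T, by simp [hA, e]⟩
    · obtain ⟨T1, T2, e⟩ := List.mem_iff_append.1 hd
      exact ⟨A, T1, T2, by simp [hA, e]⟩
  have hc := h2
  rw [e, List.isChain_append] at hc
  have hshort : List.IsChain G.Adj (P ++ v :: S) := by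
    refine hc.1.append ?_ fun p hp s hs => hc.2.2 p hp s (by simpa using hs)
    have := hc.2.1
    rw [← List.cons_append] at this
    exact this.right_of_append
  have hl := congrArg List.length e
  simp only [List.length_cons, List.length_append] at hl
  rcases hP : P with _ | ⟨P0, P'⟩
  · subst hP
    simp only [List.nil_append, List.cons.injEq] at e
    have := hmin w S h1 (e.1 ▸ hshort) (fun x hx => h3 x (by
      rw [List.mem_cons] at hx
      rcases hx with hx | hx <;> simp [e.2, hx])) (by
      obtain ⟨ew, el⟩ := e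
      subst ew el
      rcases S.eq_nil_or_concat with rfl | ⟨S', s, rfl⟩
      · simpa using h4
      · simpa using h4)
    omega
  · subst hP
    simp only [List.cons_append, List.cons.injEq] at e
    obtain ⟨ew, el⟩ := e
    subst ew el
    simp only [List.cons_append] at hshort
    have := hmin w (P' ++ v :: S) h1 hshort (fun x hx => h3 x (by
      simp only [List.mem_cons, List.mem_append] at hx ⊢
      rcases hx with hx | hx | hx | hx <;> simp [hx])) (by
      simpa [List.getLast_append_of_ne_nil] using h4)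
    simp only [List.length_append, List.length_cons] at this hl
    omega

end Vale.Agent.P048.Full
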