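import Vale.Agent.P048.Full.Clash.General

/-! # One run of the largest length -/

namespace Vale.Agent.P048.Full

open Finset

variable {V : Type} {G : SimpleGraph V} {m a q : ℕ} {X Q : Finset V} {c : Conf V}

open Classical in
/-- A single run of the largest length is impossible. -/
theorem Ext.one_false (hx : Ext G m a q X Q c) (hO : OverPin) (hO2 : Over2Pin) {r : Run V}
    (hrs : c.rs = [r]) (hl : r.mid.length = Full.lim m q) (hq : 2 * q ≤ m + 1) : False := by
  have hm := hx.hC.hm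
  have hq1 := hx.hC.hq1
  have hlo := hx.lo
  have hr : r ∈ c.rs := by simp [hrs]
  have hQc : Q.card = q := hx.hC.hQc
  have hsig : c.sig = r.mid.length := by simp [Conf.sig, hrs]
  have hlim : r.mid.length + q + 1 ≤ m ∧ 3 ≤ r.mid.length := by
    simp only [Full.lim] at hl
    split at hl <;> omega
  have hK : q + 2 ≤ m := by omega
  have haE : r.a ∈ c.ends := mem_ends.2 ⟨r, hr, Or.inl rfl⟩
  have hbE : r.b ∈ c.ends := mem_ends.2 ⟨r, hr, Or.inr rfl⟩
  have haQ := hx.valid.ends_subset haE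
  have hbQ := hx.valid.ends_subset hbE
  have hab := hx.valid.ne_ends hr
  have hends : ∀ u ∈ c.ends, u = r.a ∨ u = r.b := by
    intro u hu
    obtain ⟨s, hs, e⟩ := mem_ends.1 hu
    rw [hrs, List.mem_singleton] at hs
    exact hs ▸ e
  have hV2 : c.ends.card ≤ 2 := by
    have := ends_card_le c
    simpa [hrs] using this
  have hnm : ∀ u, ¬Middle c u := fun u h => by
    obtain ⟨s, hs, t, ht, hne, -⟩ := h.two hx.valid
    rw [hrs, List.mem_singleton] at hs ht
    exact hne (hs.trans ht.symm)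
  have hF : 3 ≤ (Q \ c.ends).card := by
    rw [Finset.card_sdiff_of_subset hx.valid.ends_subset, hQc]
    omega
  obtain ⟨F, hFsub, hFc⟩ := Finset.exists_subset_card_eq hF
  obtain ⟨f₁, f₂, f₃, n12, n13, n23, rfl⟩ := Finset.card_eq_three.1 hFc
  simp only [Finset.insert_subset_iff, Finset.singleton_subset_iff, Finset.mem_sdiff] at hFsub
  obtain ⟨hf₁, hf₂, hf₃⟩ := hFsub
  have hfree : ∀ {u v}, u ∈ Q → u ∉ c.ends → v ∈ Q → v ≠ u → Apart c u v :=
    fun hu hu' hv hne => (apart_of_notMem_ends hx.valid hu hv hne hu').1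
  have sep : ∀ {u v}, u ∈ Q → u ∉ c.ends → v ∈ Q → v ≠ u →
      ∀ y ∈ att G X Q c u, ∀ z ∈ att G X Q c v, y ≠ z ∧ ¬G.Adj y z := by
    intro u v hu hu' hv hne
    refine hx.att_sep hO hO2 hK (hfree hu hu' hv hne) (hnm u) (hnm v)
      (Or.inr fun c' l hrs' => Or.inl ?_)
    have := Finset.card_le_card (ends_cons_subset hrs')
    have := Finset.card_insert_le u (insert v c.ends)
    have := Finset.card_insert_le v c.ends
    simp only at *
    omega
  have hexc : ∀ {u v : V} {l : List V} {c' : Conf V}, c'.rs = ⟨u, v, l⟩ :: c.rs →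
      (Exc m q c' ⟨u, v, l⟩ c.rs ∨ m = 2 * q ∧ c.rs = [] ∧ l.length + q + 1 = m) →
      l.length + q + 1 = m ∧ v ≠ r.a ∧ v ≠ r.b := by
    intro u v l c' hrs' h
    rcases h with ⟨-, ⟨-, ⟨h1, -, d, hd, -, hdd⟩ | ⟨-, -, -, d, hd, d', hd', -, -, -, -, hdd⟩⟩ |
        ⟨-, -, hc, -⟩⟩ | ⟨-, h, -⟩
    · rw [hrs, List.mem_singleton] at hd
      subst hd
      exact ⟨h1, hdd.2.2.1, hdd.2.2.2⟩
    · rw [hrs, List.mem_singleton] at hd hd'
      subst hd hd'
      exact absurd rfl hdd.1
    · have := Finset.card_le_card (ends_cons_subset hrs')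
      have := Finset.card_insert_le u (insert v c.ends)
      have := Finset.card_insert_le v c.ends
      simp only at *
      omega
    · simp [hrs] at h
  have hS := hx.att_pair hf₁.1 hf₂.1 (sep hf₁.1 hf₁.2 hf₂.1 n12.symm)
  by_cases hI : ∀ y ∈ att G X Q c r.a, ∀ z ∈ att G X Q c r.b, y ≠ z ∧ ¬G.Adj y z
  · let R := inner c ∪ Q \ {r.a, r.b}
    have hRc : R.card + 2 * q + 2 ≤ 2 * m := by
      have := Finset.card_union_le (inner c) (Q \ {r.a, r.b})
      rw [inner_card hx.valid, Finset.card_sdiff_of_subset (by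
        simp [Finset.insert_subset_iff, haQ, hbQ]), hQc, Finset.card_pair hab] at this
      simp only [R]
      omega
    have hR' : ∀ y ∈ R, y ∈ Q ∨ y ∈ inner c := fun y hy => by
      simp only [R, Finset.mem_union, Finset.mem_sdiff] at hy
      tauto
    obtain ⟨u, v, l, hu, hv, hne', hlen, hch, hout, -, hnd⟩ := hx.route hRc
      Finset.subset_union_left
      (fun x h => (Finset.mem_union.1 h).elim (att_notMem hR') (att_notMem hR'))
      (fun x h => (Finset.mem_union.1 h).elim (att_notMem hR') (att_notMem hR')) hS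
      (hx.att_pair haQ hbQ hI)
    have hvt : v = r.a ∨ v = r.b := by
      rcases hv with h | ⟨hvQ, hvR⟩
      · exact h
      · by_contra hno
        exact hvR (by simp [R, hvQ, not_or.1 hno])
    have hvE : v ∈ c.ends := by rcases hvt with rfl | rfl <;> assumption
    have huE : u ∈ Q ∧ u ∉ c.ends := by rcases hu with rfl | rfl <;> assumption
    obtain ⟨c', -, hrs', h⟩ := hx.joinStep hO hO2
      (hfree huE.1 huE.2 (hx.valid.ends_subset hvE) fun e => huE.2 (e ▸ hvE))
      (hnm u) (hnm v) hne' hlen hch hout hnd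
    obtain ⟨-, h2, h3⟩ := hexc hrs' h
    exact hvt.elim h2 h3
  simp only [not_forall] at hI
  obtain ⟨y, hy, z, hz, hI⟩ := hI
  have hy' := mem_att.1 hy
  have hz' := mem_att.1 hz
  obtain ⟨p, hp1, hp2, hpch, hpnd, hpmem⟩ : ∃ p : List V, 1 ≤ p.length ∧ p.length ≤ 2 ∧
      List.IsChain G.Adj (r.a :: (p ++ [r.b])) ∧ p.Nodup ∧ ∀ x ∈ p, x = y ∨ x = z := by
    by_cases h : y = z
    · subst h
      exact ⟨[y], by simp, by simp, by simp [hy'.2.1, hz'.2.1.symm], by simp, by simp⟩
    · have hadj : G.Adj y z := by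
        by_contra hn
        exact hI ⟨h, hn⟩
      exact ⟨[y, z], by simp, by simp, by simp [hy'.2.1, hadj, hz'.2.1.symm], by simp [h],
        by simp⟩
  let R := inner c ∪ {f₁, f₂}
  have hRc : R.card + 2 * q + 2 ≤ 2 * m := by
    have h1 := Finset.card_union_le (inner c) {f₁, f₂}
    rw [inner_card hx.valid, Finset.card_pair n12] at h1
    simp only [R]
    omega
  have hRA : ∀ f, ∀ x ∈ att G X Q c f, x ∉ R := by
    intro f x hxa hxR
    simp only [R, Finset.mem_union, Finset.mem_insert, Finset.mem_singleton] at hxR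
    obtain ⟨-, -, h1, h2⟩ := mem_att.1 hxa
    rcases hxR with h | rfl | rfl
    exacts [h2 h, h1 hf₁.1, h1 hf₂.1]
  obtain ⟨u, v, l, hu, hv, hne', hlen, hch, hout, -, hnd⟩ := hx.route hRc
    Finset.subset_union_left
    (fun x h => (Finset.mem_union.1 h).elim (hRA f₁ x) (hRA f₂ x))
    (fun x h => (Finset.mem_union.1 h).elim (hRA f₃ x) (hRA r.a x)) hS
    (hx.att_pair hf₃.1 haQ (sep hf₃.1 hf₃.2 haQ (fun e => hf₃.2 (e ▸ haE))))
  have huE : u ∈ Q ∧ u ∉ c.ends := by rcases hu with rfl | rfl <;> assumption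
  have hvQ : v ∈ Q ∧ v ≠ u := by
    rcases hv with (rfl | rfl) | ⟨hvQ, hvR⟩
    · exact ⟨hf₃.1, by rcases hu with rfl | rfl <;> [exact n13.symm; exact n23.symm]⟩
    · exact ⟨haQ, fun e => huE.2 (e ▸ haE)⟩
    · refine ⟨hvQ, fun e => hvR ?_⟩
      rcases hu with rfl | rfl <;> simp [R, e]
  -- the path cannot pass through the short parallel run
  have hlp : ∀ w ∈ l, w ∉ p := by
    intro w hw hwp
    obtain ⟨A, B, hAB⟩ := List.mem_iff_append.1 hw
    obtain ⟨t, htE, htQ, hwt⟩ : ∃ t, t ∈ c.ends ∧ t ∈ Q ∧ G.Adj w t := by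
      rcases hpmem w hwp with rfl | rfl
      exacts [⟨r.a, haE, haQ, hy'.2.1.symm⟩, ⟨r.b, hbE, hbQ, hz'.2.1.symm⟩]
    have hch' : List.IsChain G.Adj (u :: (A ++ [w] ++ [t])) := by
      have h0 : (u :: (l ++ [v])) = (u :: (A ++ [w])) ++ (B ++ [v]) := by simp [hAB]
      rw [h0] at hch
      rw [← List.cons_append]
      refine hch.left_of_append.append (List.IsChain.singleton t) fun x hx s hs => ?_
      simp only [List.getLast?_cons, List.getLast?_append, List.getLast?_singleton,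
        Option.some_or, Option.getD_some, Option.mem_def, Option.some.injEq] at hx
      simp only [List.head?_cons, Option.mem_def, Option.some.injEq] at hs
      exact hx ▸ hs ▸ hwt
    have hsl : List.Sublist (A ++ [w]) l := by
      rw [hAB, show A ++ w :: B = (A ++ [w]) ++ B by simp]
      exact List.sublist_append_left _ _
    obtain ⟨c₀, -, hrs₀, h⟩ := hx.joinStep hO hO2
      (hfree huE.1 huE.2 htQ fun e => huE.2 (e ▸ htE)) (hnm u) (hnm t) (l := A ++ [w]) (by simp)
      (by have := hsl.length_le; omega) hch' (fun x hx' => hout x (hsl.subset hx'))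
      (hnd.sublist hsl)
    obtain ⟨-, h2, h3⟩ := hexc hrs₀ h
    exact (hends t htE).elim h2 h3
  obtain ⟨c', -, hrs', h⟩ := hx.joinStep hO hO2 (hfree huE.1 huE.2 hvQ.1 hvQ.2) (hnm u) (hnm v)
    hne' hlen hch hout hnd
  obtain ⟨hN, hva, hvb⟩ := hexc hrs' h
  -- the long new run and the short parallel one together
  obtain ⟨h0, -, -, -⟩ := erase_run hx.valid (O₁ := []) (O₂ := []) (r := r) (by simp [hrs])
  have he0 : ∀ w, w ∉ (⟨c.L, [] ++ []⟩ : Conf V).ends := fun w hw => by
    obtain ⟨s, hs, -⟩ := mem_ends.1 hw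
    simp at hs
  obtain ⟨c₁, hv1, hrs1⟩ := join h0
    (apart_of_notMem_ends h0 huE.1 hvQ.1 hvQ.2 (he0 u)).1
    (not_middle_of_notMem_ends h0 (he0 u)) (not_middle_of_notMem_ends h0 (he0 v)) hne' hch
    (fun x hx' => ⟨(hout x hx').1, (hout x hx').2.1⟩) hnd (by simp)
  have he1 : ∀ w, w ∈ c₁.ends → w = u ∨ w = v := fun w hw => by
    obtain ⟨s, hs, e⟩ := mem_ends.1 hw
    rw [hrs1] at hs
    simp only [List.append_nil, List.mem_singleton] at hs
    subst hs
    exact e
  have ha1 : r.a ∉ c₁.ends := fun h =>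
    (he1 _ h).elim (fun e => huE.2 (e ▸ haE)) fun e => hva e.symm
  have hb1 : r.b ∉ c₁.ends := fun h =>
    (he1 _ h).elim (fun e => huE.2 (e ▸ hbE)) fun e => hvb e.symm
  obtain ⟨c₂, hv2, hrs2⟩ := join hv1 (apart_of_notMem_ends hv1 haQ hbQ hab.symm ha1).1
    (not_middle_of_notMem_ends hv1 ha1) (not_middle_of_notMem_ends hv1 hb1)
    (List.length_pos_iff.1 hp1) hpch
    (fun x hxp => by rcases hpmem x hxp with rfl | rfl <;>
      [exact ⟨hy'.1, hy'.2.2.1⟩; exact ⟨hz'.1, hz'.2.2.1⟩])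
    hpnd (fun s hs w hw hw' => by
      rw [hrs1] at hs
      simp only [List.append_nil, List.mem_singleton] at hs
      subst hs
      exact hlp w hw hw')
  have hs2 : c₂.sig = p.length + l.length := by simp [Conf.sig, hrs2, hrs1]
  have hc2 : c₂.ends.card ≤ 4 := by
    have := ends_card_le c₂
    simpa [hrs2, hrs1] using this
  by_cases hp : p.length = 1
  · exact hx.hC.exact hv2 (by omega)
  · exact hx.hC.free (cycPin V G m X Q c₂ hx.hC.hQ hv2 (by simp [hrs2]) (by omega) (by omega)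
      (by omega))

end Vale.Agent.P048.Full
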