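import Vale.Agent.P048.Full.Clash.Step

/-! # Attachment sets and routes between them -/

namespace Vale.Agent.P048.Full

open Finset

variable {V : Type} {G : SimpleGraph V} {m a q : ℕ} {X Q : Finset V} {c : Conf V}

theorem Conf.Valid.ne_ends (h : c.Valid G X Q) {r : Run V} (hr : r ∈ c.rs) : r.a ≠ r.b := by
  intro e
  have hn := h.nodupL
  rcases h.next r hr with hi | hi <;> rw [e] at hi <;> simpa using hn.sublist hi.sublist

theorem mem_ends {u : V} : u ∈ c.ends ↔ ∃ r ∈ c.rs, u = r.a ∨ u = r.b := by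
  classical simp [Conf.ends]

/-- A middle vertex has two different runs at it. -/
theorem Middle.two {u : V} (h : c.Valid G X Q) (hm : Middle c u) :
    ∃ r ∈ c.rs, ∃ s ∈ c.rs, r ≠ s ∧ (u = r.a ∨ u = r.b) ∧ (u = s.a ∨ u = s.b) := by
  obtain ⟨⟨r, hr, w, hw, er⟩, ⟨s, hs, w', hw', es⟩⟩ := hm
  refine ⟨r, hr, s, hs, ?_, ?_, ?_⟩
  · rintro rfl
    have hww : w = w' := by
      rcases er with ⟨a1, a2⟩ | ⟨a1, a2⟩ <;> rcases es with ⟨b1, b2⟩ | ⟨b1, b2⟩
      · exact a2.symm.trans b2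
      · exact (a2.symm.trans b2).trans (a1.symm.trans b1)
      · exact (a1.symm.trans b1).trans (a2.symm.trans b2)
      · exact a1.symm.trans b1
    subst hww
    obtain ⟨A, B, hAB⟩ := hw'
    have hl : c.L = A ++ w :: (u :: B) := by simp [← hAB]
    have hl' : c.L = (A ++ [w]) ++ u :: B := by simp [← hAB]
    have := infix_pair_succ h.nodupL hl' hw
    have hnl := h.nodupL
    rw [hl, List.nodup_append, List.nodup_cons] at hnl
    exact hnl.2.1.1 (List.mem_cons_of_mem u (List.mem_of_mem_head? this))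
  · rcases er with ⟨e, -⟩ | ⟨-, e⟩
    · exact Or.inl e.symm
    · exact Or.inr e.symm
  · rcases es with ⟨e, -⟩ | ⟨-, e⟩
    · exact Or.inl e.symm
    · exact Or.inr e.symm

theorem not_middle_of_notMem_ends (h : c.Valid G X Q) {u : V} (hu : u ∉ c.ends) : ¬Middle c u :=
  fun hm => by
    obtain ⟨r, hr, -, -, -, e, -⟩ := hm.two h
    exact hu (mem_ends.2 ⟨r, hr, e⟩)

open Classical in
/-- The ends after adding a run. -/
theorem ends_cons_subset {c' : Conf V} {D : Run V} (h : c'.rs = D :: c.rs) :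
    c'.ends ⊆ insert D.a (insert D.b c.ends) := by
  intro x hx
  obtain ⟨r, hr, e⟩ := mem_ends.1 hx
  rw [h, List.mem_cons] at hr
  rcases hr with rfl | hr
  · rcases e with rfl | rfl <;> simp
  · exact Finset.mem_insert_of_mem (Finset.mem_insert_of_mem (mem_ends.2 ⟨r, hr, e⟩))

open Classical in
/-- At most one vertex per run has a run on its left. -/
theorem card_middle_le (h : c.Valid G X Q) :
    (Q.filter fun u => Middle c u).card ≤ c.rs.length := by
  have h1 := (card_left h).1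
  have h2 := Finset.card_filter_add_card_filter_not (s := Q) (fun u => ¬Left c u)
  have h3 : (Q.filter fun u => Middle c u) ⊆ Q.filter fun u => ¬¬Left c u := fun u hu => by
    rw [Finset.mem_filter] at hu ⊢
    exact ⟨hu.1, not_not.2 hu.2.2⟩
  have := Finset.card_le_card h3
  omega

/-- Two attachment sets: a common vertex or an edge gives a short join. -/
theorem Ext.att_sep (hx : Ext G m a q X Q c) (hO : OverPin) (hO2 : Over2Pin) (hK : q + 2 ≤ m)
    {u v : V} (hA : Apart c u v) (hu : ¬Middle c u) (hv : ¬Middle c v)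
    (hD : (∃ r ∈ c.rs, r.mid.length = 1) ∨ ∀ (c' : Conf V) (l : List V),
      c'.rs = ⟨u, v, l⟩ :: c.rs → c'.ends.card < q ∨ m + 2 ≤ 2 * q ∨ c.sig + q + 1 ≠ m) :
    ∀ y ∈ att G X Q c u, ∀ z ∈ att G X Q c v, y ≠ z ∧ ¬G.Adj y z := by
  have hm := hx.hC.hm
  intro y hy z hz
  rw [mem_att] at hy hz
  have key : ∀ l : List V, l ≠ [] → l.length ≤ 2 → List.IsChain G.Adj (u :: (l ++ [v])) →
      (∀ x ∈ l, x ∈ X ∧ x ∉ Q ∧ x ∉ inner c) → l.Nodup → False := by
    intro l h1 h2 h3 h4 h5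
    obtain ⟨c', hv', hrs, h⟩ := hx.joinStep hO hO2 hA hu hv h1 (by omega) h3 h4 h5
    rcases h with ⟨hq, ⟨h6, -⟩ | ⟨-, hno, hcard, hs⟩⟩ | ⟨h6, -, h7⟩
    · simp only at h6
      omega
    · rcases hD with ⟨r, hr, h⟩ | hD
      · exact hno r hr h
      · have h8 : c.sig + q + 1 = m := hs
        rcases hD c' l hrs with h | h | h <;> omega
    · have := List.length_pos_iff.2 h1
      have := hx.hC.hq1
      omega
  constructor
  · rintro rfl
    exact key [y] (by simp) (by simp) (by simp [hy.2.1, hz.2.1.symm])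
      (by simpa using ⟨hy.1, hy.2.2⟩) (by simp)
  · intro e
    exact key [y, z] (by simp) (by simp) (by simp [hy.2.1, e, hz.2.1.symm])
      (by simp [hy.1, hy.2.2, hz.1, hz.2.2]) (by simp [e.ne])

open Classical in
/-- Separate attachment sets have independence number at least two together. -/
theorem Ext.att_pair (hx : Ext G m a q X Q c) {u v : V} (hu : u ∈ Q) (hv : v ∈ Q)
    (h : ∀ y ∈ att G X Q c u, ∀ z ∈ att G X Q c v, y ≠ z ∧ ¬G.Adj y z) :
    2 ≤ alpha G (att G X Q c u ∪ att G X Q c v) := by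
  obtain ⟨y, hy⟩ := hx.att_nonempty hu
  obtain ⟨z, hz⟩ := hx.att_nonempty hv
  exact two_le_alpha (Finset.mem_union_left _ hy) (Finset.mem_union_right _ hz) (h y hy z hz).1
    (h y hy z hz).2

/-- Either no vertex of `Q` lies on a list, or there is a first one. -/
theorem split_first (Q : Finset V) : ∀ l : List V,
    (∀ x ∈ l, x ∉ Q) ∨ ∃ A v B, l = A ++ v :: B ∧ v ∈ Q ∧ ∀ x ∈ A, x ∉ Q := by
  intro l
  induction l with
  | nil => exact Or.inl (by simp)
  | cons x t ih =>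
    by_cases hxQ : x ∈ Q
    · exact Or.inr ⟨[], x, t, rfl, hxQ, by simp⟩
    rcases ih with h | ⟨A, v, B, rfl, hv, hA⟩
    · exact Or.inl (List.forall_mem_cons.2 ⟨hxQ, h⟩)
    · exact Or.inr ⟨x :: A, v, B, rfl, hv, List.forall_mem_cons.2 ⟨hxQ, hA⟩⟩

open Classical in
/-- A path through attachments from one of two vertices of `Q` to another or to a vertex outside
`R`. -/
theorem Ext.route (hx : Ext G m a q X Q c) {R : Finset V} {u₁ u₂ t₁ t₂ : V}
    (hR : R.card + 2 * q + 2 ≤ 2 * m) (hin : inner c ⊆ R)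
    (hu : ∀ x ∈ att G X Q c u₁ ∪ att G X Q c u₂, x ∉ R)
    (ht : ∀ x ∈ att G X Q c t₁ ∪ att G X Q c t₂, x ∉ R)
    (aU : 2 ≤ alpha G (att G X Q c u₁ ∪ att G X Q c u₂))
    (aT : 2 ≤ alpha G (att G X Q c t₁ ∪ att G X Q c t₂)) :
    ∃ u v l, (u = u₁ ∨ u = u₂) ∧ ((v = t₁ ∨ v = t₂) ∨ v ∈ Q ∧ v ∉ R) ∧ l ≠ [] ∧
      l.length + 2 ≤ m ∧ List.IsChain G.Adj (u :: (l ++ [v])) ∧
      (∀ x ∈ l, x ∈ X ∧ x ∉ Q ∧ x ∉ inner c) ∧ (∀ x ∈ l, x ∉ R) ∧ l.Nodup := by
  classical
  have hX : ∀ {w : V} {W : Finset V} {p r : V}, W = att G X Q c p ∪ att G X Q c r → w ∈ W →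
      w ∈ X ∧ w ∉ Q ∧ w ∉ inner c := by
    intro w W p r e hw
    rw [e, Finset.mem_union, mem_att, mem_att] at hw
    exact hw.elim (fun h => ⟨h.1, h.2.2⟩) fun h => ⟨h.1, h.2.2⟩
  obtain ⟨l, hl⟩ := hx.hC.near (R := R) (W₀ := att G X Q c u₁ ∪ att G X Q c u₂)
    (Z := att G X Q c t₁ ∪ att G X Q c t₂) hR (fun x h => ⟨(hX rfl h).1, hu x h⟩)
    (fun x h => ⟨(hX rfl h).1, ht x h⟩) aU aT
  have hm := hx.hC.hm
  obtain ⟨w, z, hw, hz, hwW, hzZ⟩ := hl.ends
  obtain ⟨l', rfl⟩ : ∃ l', l = w :: l' := ⟨_, List.eq_cons_of_mem_head? hw⟩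
  obtain ⟨u, hu', huw⟩ : ∃ u, (u = u₁ ∨ u = u₂) ∧ G.Adj u w := by
    rcases Finset.mem_union.1 hwW with h | h
    · exact ⟨u₁, Or.inl rfl, (mem_att.1 h).2.1⟩
    · exact ⟨u₂, Or.inr rfl, (mem_att.1 h).2.1⟩
  have hsub : ∀ x ∈ w :: l', x ∈ X ∧ x ∉ R ∧ x ∉ inner c := fun x h => by
    obtain ⟨h1, h2⟩ := Finset.mem_filter.1 (hl.sub x h)
    exact ⟨h1, h2, fun e => h2 (hin e)⟩
  rcases split_first Q (w :: l') with h | ⟨A, v, B, e, hvQ, hA⟩
  · obtain ⟨t, ht', htz⟩ : ∃ t, (t = t₁ ∨ t = t₂) ∧ G.Adj z t := by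
      rcases Finset.mem_union.1 hzZ with h | h
      · exact ⟨t₁, Or.inl rfl, (mem_att.1 h).2.1.symm⟩
      · exact ⟨t₂, Or.inr rfl, (mem_att.1 h).2.1.symm⟩
    have hlen := hl.len
    refine ⟨u, t, w :: l', hu', Or.inl ht', by simp, by omega, ?_,
      fun x hx' => ⟨(hsub x hx').1, h x hx', (hsub x hx').2.2⟩, fun x hx' => (hsub x hx').2.1,
      hl.nodup⟩
    rw [List.cons_append, List.isChain_cons_cons, ← List.cons_append]
    refine ⟨huw, hl.chain.append (List.IsChain.singleton t) fun p hp s hs => ?_⟩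
    rw [Option.mem_def, hz, Option.some.injEq] at hp
    simp only [List.head?_cons, Option.mem_def, Option.some.injEq] at hs
    exact hp ▸ hs ▸ htz
  · have hA0 : A ≠ [] := by
      rintro rfl
      simp only [List.nil_append, List.cons.injEq] at e
      exact (hX rfl hwW).2.1 (e.1 ▸ hvQ)
    obtain ⟨A', rfl⟩ : ∃ A', A = w :: A' := by
      cases A with
      | nil => exact absurd rfl hA0
      | cons p A' =>
        simp only [List.cons_append, List.cons.injEq] at e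
        exact ⟨A', by rw [e.1]⟩
    have hvmem : v ∈ w :: l' := by rw [e]; simp
    have hlen := hl.len
    have hmem : ∀ x ∈ w :: A', x ∈ w :: l' := fun x h => e ▸ List.mem_append_left _ h
    refine ⟨u, v, w :: A', hu', Or.inr ⟨hvQ, (hsub v hvmem).2.1⟩, by simp, ?_, ?_,
      fun x hx' => ⟨(hsub x (hmem x hx')).1, hA x hx', (hsub x (hmem x hx')).2.2⟩,
      fun x hx' => (hsub x (hmem x hx')).2.1,
      hl.nodup.sublist (e ▸ List.sublist_append_left _ _)⟩
    · have := congrArg List.length e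
      simp only [List.length_append, List.length_cons] at this hlen ⊢
      omega
    · rw [List.cons_append, List.isChain_cons_cons, ← List.cons_append]
      refine ⟨huw, ?_⟩
      have hc := hl.chain
      rw [e, show (w :: A') ++ v :: B = ((w :: A') ++ [v]) ++ B by simp] at hc
      exact hc.left_of_append

end Vale.Agent.P048.Full
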