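import Vale.Agent.P048.Full.Clash.Near

/-! # Adding a path to an extremal state -/

namespace Vale.Agent.P048.Full

open Finset

variable {V : Type} {G : SimpleGraph V} {m a q : ℕ} {X Q : Finset V} {c : Conf V}

/-- An extremal state. -/
structure Ext (G : SimpleGraph V) (m a q : ℕ) (X Q : Finset V) (c : Conf V) : Prop where
  hC : Clash G m a q X Q
  valid : c.Valid G X Q
  lo : c.sig + q + 1 ≤ m
  lim : ∀ r ∈ c.rs, r.mid.length ≤ lim m q
  best : Best G X Q m q c.sig c.rs.length

theorem exists_ext (hC : Clash G m a q X Q) : ∃ c : Conf V, Ext G m a q X Q c := by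
  classical
  let Ok := fun c : Conf V =>
    c.Valid G X Q ∧ c.sig + q + 1 ≤ m ∧ ∀ r ∈ c.rs, r.mid.length ≤ Full.lim m q
  let c₀ : Conf V := ⟨Q.toList, []⟩
  have h0 : Ok c₀ := ⟨⟨Q.nodup_toList, fun x => Finset.mem_toList, by simp [c₀], by simp [c₀],
    by simp [c₀], by simp [c₀], by simp [c₀], by simp [c₀]⟩,
    by simpa [c₀, Conf.sig] using hC.hq2, by simp [c₀]⟩
  let σ := Nat.findGreatest (fun s => ∃ c, Ok c ∧ c.sig = s) m
  have hσ : ∃ c, Ok c ∧ c.sig = σ :=
    Nat.findGreatest_spec (P := fun s => ∃ c, Ok c ∧ c.sig = s) (Nat.zero_le m)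
      ⟨c₀, h0, by simp [c₀, Conf.sig]⟩
  have hk : ∃ k, ∃ c, Ok c ∧ c.sig = σ ∧ c.rs.length = k := by
    obtain ⟨c, h1, h2⟩ := hσ
    exact ⟨_, c, h1, h2, rfl⟩
  obtain ⟨c, ⟨hv, hlo, hlim⟩, hs, hlen⟩ := Nat.find_spec hk
  refine ⟨c, hC, hv, hlo, hlim, fun c' v' l' lim' => ?_⟩
  have hle : c'.sig ≤ σ := Nat.le_findGreatest (by omega) ⟨c', ⟨v', l', lim'⟩, rfl⟩
  rcases lt_or_eq_of_le hle with h | h
  · exact Or.inl (hs ▸ h)
  · exact Or.inr ⟨hs ▸ h, hlen ▸ Nat.find_min' hk ⟨c', ⟨v', l', lim'⟩, h, rfl⟩⟩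

theorem sum_len_sublist {O O' : List (Run V)} (h : List.Sublist O O') :
    (O.map fun r => r.mid.length).sum ≤ (O'.map fun r => r.mid.length).sum :=
  (h.map _).sum_le_sum fun _ _ => Nat.zero_le _

theorem Conf.Valid.ends_subset (h : c.Valid G X Q) : c.ends ⊆ Q := by
  classical
  intro v hv
  simp only [Conf.ends, List.mem_toFinset, List.mem_flatMap] at hv
  obtain ⟨r, hr, hv⟩ := hv
  simp only [List.mem_cons, List.not_mem_nil, or_false] at hv
  rcases hv with rfl | rfl
  · exact (h.memL _).1 (h.next r hr).mem.1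
  · exact (h.memL _).1 (h.next r hr).mem.2

theorem ends_card_le (c : Conf V) : c.ends.card ≤ 2 * c.rs.length := by
  classical
  refine (List.toFinset_card_le _).trans (le_of_eq ?_)
  induction c.rs with
  | nil => simp
  | cons r t ih => simp [ih]; omega

/-- A state with exactly `m - q` inner vertices is a cycle of length `m`. -/
theorem Clash.exact (hC : Clash G m a q X Q) (hv : c.Valid G X Q) (h : c.sig + q = m) : False := by
  have hne : c.rs ≠ [] := fun e => by
    have := hC.hq2
    simp [Conf.sig, e] at h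
    omega
  refine hC.free (cycPin V G m X Q c hC.hQ hv hne (by have := hC.hm; omega) ?_ (by rw [hC.hQc]; omega))
  have := Finset.card_le_card hv.ends_subset
  rw [hC.hQc] at this
  omega

/-- One long run is a cycle of length `m`. -/
theorem Clash.solo (hC : Clash G m a q X Q) (hv : c.Valid G X Q) {D : Run V} (hD : D ∈ c.rs)
    (h1 : m ≤ D.mid.length + q) (h2 : D.mid.length + 2 ≤ m) : False := by
  have hv' := hv.sub (rs := [D]) (List.singleton_sublist.2 hD)
  refine hC.free (cycPin V G m X Q _ hC.hQ hv' (by simp) (by have := hC.hm; omega) ?_ ?_)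
  · have := ends_card_le (⟨c.L, [D]⟩ : Conf V)
    simp [Conf.sig] at *
    omega
  · simp [Conf.sig, hC.hQc]
    omega

/-- No path of four vertices outside `Q` joins two vertices of `Q`. -/
def NoFour (G : SimpleGraph V) (X Q : Finset V) : Prop :=
  ∀ c : Conf V, c.Valid G X Q → ∀ r ∈ c.rs, r.mid.length ≠ 4

/-- The exceptions of adding a run. -/
def Exc (m q : ℕ) (c' : Conf V) (D : Run V) (O : List (Run V)) : Prop :=
  2 * q ≤ m + 1 ∧
    ((3 ≤ D.mid.length ∧
        ((D.mid.length + q + 1 = m ∧ (∀ r ∈ O, r.mid.length ≠ 1) ∧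
            ∃ d ∈ O, d.mid.length = lim m q ∧ EndsDisj D d) ∨
          (m = 14 ∧ q = 7 ∧ D.mid.length = 3 ∧
            ∃ d ∈ O, ∃ d' ∈ O, d.mid.length = 3 ∧ d'.mid.length = 3 ∧ EndsDisj D d ∧
              EndsDisj D d' ∧ EndsDisj d d'))) ∨
      (D.mid.length = 2 ∧ (∀ r ∈ O, r.mid.length ≠ 1) ∧ c'.ends.card = q ∧
        (O.map fun r => r.mid.length).sum + q + 1 = m))

/-- What can happen when a run is added to a part of an extremal state. -/
theorem Ext.add (hx : Ext G m a q X Q c) (hO : OverPin) (hO2 : Over2Pin) {c' : Conf V} {D : Run V}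
    {O : List (Run V)} (hv : c'.Valid G X Q) (hrs : c'.rs = D :: O) (hsub : List.Sublist O c.rs)
    (hN2 : D.mid.length + 2 ≤ m) :
    (Full.lim m q < D.mid.length ∧ (O.map fun r => r.mid.length).sum + D.mid.length + q + 1 ≤ m) ∨
      ((O.map fun r => r.mid.length).sum + D.mid.length ≤ c.sig ∧
        ((O.map fun r => r.mid.length).sum + D.mid.length = c.sig → c.rs.length ≤ O.length + 1)) ∨
      Exc m q c' D O := by
  classical
  have hsum : (O.map fun r => r.mid.length).sum ≤ c.sig := sum_len_sublist hsub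
  have hlo := hx.lo
  have hsig : c'.sig = D.mid.length + (O.map fun r => r.mid.length).sum := by
    simp [Conf.sig, hrs]
  by_cases hlong : m ≤ D.mid.length + q
  · exact (hx.hC.solo hv (hrs ▸ List.mem_cons_self) hlong hN2).elim
  by_cases hle : (O.map fun r => r.mid.length).sum + D.mid.length + q + 1 ≤ m
  · by_cases hlim : Full.lim m q < D.mid.length
    · exact Or.inl ⟨hlim, hle⟩
    refine Or.inr (Or.inl ?_)
    rcases hx.best c' hv (by omega) (by
      rw [hrs]
      exact List.forall_mem_cons.2 ⟨not_lt.1 hlim, fun r hr => hx.lim r (hsub.subset hr)⟩) with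
      h | ⟨h1, h2⟩
    · exact ⟨by omega, fun e => by omega⟩
    · exact ⟨by omega, fun _ => by simpa [hrs] using h2⟩
  by_cases heq : (O.map fun r => r.mid.length).sum + D.mid.length + q = m
  · exact (hx.hC.exact hv (by omega)).elim
  have hpart : (O.map fun r => r.mid.length).sum < c.sig → O.length < c.rs.length := fun h => by
    refine lt_of_le_of_ne hsub.length_le fun e => ?_
    rw [hsub.eq_of_length e] at h
    exact lt_irrefl _ h
  have hadd : Added G X Q m q c.sig c.rs.length c' D O :=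
    ⟨hv, hrs, hlo, hx.best, fun r hr => hx.lim r (hsub.subset hr), hsum, hsub.length_le, hpart,
      by omega⟩
  by_cases h3 : 3 ≤ D.mid.length
  · obtain ⟨e1, e2⟩ := hO V G m a q X Q hx.hC _ _ c' D O hadd h3 (by omega)
    exact Or.inr (Or.inr ⟨e1, Or.inl ⟨h3, e2⟩⟩)
  · obtain ⟨e1, e2, e3, e4⟩ := hO2 V G m a q X Q hx.hC _ _ c' D O hadd (by omega)
    exact Or.inr (Or.inr ⟨e3, Or.inr ⟨by omega, e1, e2, e4⟩⟩)

/-- The vertices inside the runs. -/
noncomputable def inner (c : Conf V) : Finset V :=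
  @List.toFinset V (Classical.decEq V) (c.rs.flatMap Run.mid)

theorem mem_inner {x : V} : x ∈ inner c ↔ ∃ r ∈ c.rs, x ∈ r.mid := by
  classical simp [inner]

theorem inner_card (h : c.Valid G X Q) : (inner c).card = c.sig := by
  classical
  rw [inner, List.toFinset_card_of_nodup h.nodupM, List.length_flatMap]
  rfl

/-- The free outside neighbours of a vertex of `Q`. -/
noncomputable def att (G : SimpleGraph V) (X Q : Finset V) (c : Conf V) (u : V) : Finset V :=
  @Finset.filter V (fun x => G.Adj u x ∧ x ∉ Q ∧ x ∉ inner c) (Classical.decPred _) X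

theorem mem_att {u x : V} : x ∈ att G X Q c u ↔ x ∈ X ∧ G.Adj u x ∧ x ∉ Q ∧ x ∉ inner c := by
  classical simp [att]

open Classical in
/-- Every vertex of `Q` has a free outside neighbour. -/
theorem Ext.att_card (hx : Ext G m a q X Q c) {u : V} (hu : u ∈ Q) :
    m ≤ (att G X Q c u).card + ((inner c).filter fun x => x ∈ nb G X u).card + q := by
  classical
  have := hx.hC.deg u (hx.hC.hQX hu)
  have h2 : nb G X u ⊆ att G X Q c u ∪ ((inner c).filter fun x => x ∈ nb G X u) ∪ Q.erase u := by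
    intro x hx'
    obtain ⟨h1, h2⟩ := mem_nb.1 hx'
    by_cases hQ : x ∈ Q
    · exact Finset.mem_union_right _ (Finset.mem_erase.2 ⟨h2.ne.symm, hQ⟩)
    by_cases hi : x ∈ inner c
    · exact Finset.mem_union_left _ (Finset.mem_union_right _ (Finset.mem_filter.2 ⟨hi, hx'⟩))
    · exact Finset.mem_union_left _ (Finset.mem_union_left _ (mem_att.2 ⟨h1, h2, hQ, hi⟩))
  have h3 := (Finset.card_le_card h2).trans (Finset.card_union_le _ _)
  have h4 := Finset.card_union_le (att G X Q c u) ((inner c).filter fun x => x ∈ nb G X u)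
  rw [Finset.card_erase_of_mem hu, hx.hC.hQc] at h3
  have := hx.hC.hq1
  omega

theorem Ext.att_nonempty (hx : Ext G m a q X Q c) {u : V} (hu : u ∈ Q) :
    (att G X Q c u).Nonempty := by
  classical
  rw [← Finset.card_pos]
  have h1 := hx.att_card hu
  have h2 := (Finset.card_filter_le (inner c) (fun x => x ∈ nb G X u))
  rw [inner_card hx.valid] at h2
  have := hx.lo
  omega

/-- A new run between two separate usable vertices. -/
theorem Ext.joinStep (hx : Ext G m a q X Q c) (hO : OverPin) (hO2 : Over2Pin) {u v : V}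
    (hA : Apart c u v) (hu : ¬Middle c u) (hv : ¬Middle c v) {l : List V} (hne : l ≠ [])
    (hlen : l.length + 2 ≤ m) (hch : List.IsChain G.Adj (u :: (l ++ [v])))
    (hout : ∀ x ∈ l, x ∈ X ∧ x ∉ Q ∧ x ∉ inner c) (hnd : l.Nodup) :
    ∃ c' : Conf V, c'.Valid G X Q ∧ c'.rs = ⟨u, v, l⟩ :: c.rs ∧
      (Exc m q c' ⟨u, v, l⟩ c.rs ∨ m = 2 * q ∧ c.rs = [] ∧ l.length + q + 1 = m) := by
  obtain ⟨c', hv', hrs⟩ := join hx.valid hA hu hv hne hch (fun x hx' => ⟨(hout x hx').1,
    (hout x hx').2.1⟩) hnd (fun r hr x hx1 hx2 => (hout x hx2).2.2 (mem_inner.2 ⟨r, hr, hx1⟩))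
  refine ⟨c', hv', hrs, ?_⟩
  have hpos := List.length_pos_iff.2 hne
  rcases hx.add hO hO2 hv' hrs (List.Sublist.refl _) hlen with ⟨h1, h2⟩ | ⟨h1, h2⟩ | h
  · refine Or.inr ?_
    simp only [Full.lim] at h1
    split at h1
    · refine ⟨by omega, ?_, by simp only at h2 ⊢; omega⟩
      cases hc : c.rs with
      | nil => rfl
      | cons r t =>
        have := List.length_pos_iff.2 (hx.valid.ne r (by simp [hc]))
        simp [hc] at h2
        omega
    · simp only at h1 h2
      omega
  · have h1' : c.sig + l.length ≤ c.sig := h1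
    omega
  · exact Or.inl h

/-- Runs of one vertex make every attachment harmless: one is replaced. -/
theorem Ext.replaceOne (hx : Ext G m a q X Q c) (hO : OverPin) (hO2 : Over2Pin)
    (hk : 3 ≤ c.rs.length ∨ m ≤ q + 4 ∨ m = 10 ∧ q = 5 ∧ NoFour G X Q) {r : Run V} (hr : r ∈ c.rs) (hr1 : r.mid.length = 1)
    {v x : V} (hvQ : v ∈ Q) (hv : ¬Middle c v) {l : List V}
    (hxr : x ∈ r.mid) (hl : 1 ≤ l.length) (hlen : l.length + 3 ≤ m)
    (hch : List.IsChain G.Adj (x :: (l ++ [v])))
    (hout : ∀ z ∈ l, z ∈ X ∧ z ∉ Q ∧ z ∉ inner c) (hnd : l.Nodup) : False := by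
  classical
  obtain ⟨O₁, O₂, hsplit⟩ := List.mem_iff_append.1 hr
  obtain ⟨h0, ⟨P, S, hcut, hab⟩, hna, hnb⟩ := erase_run hx.valid hsplit
  have hs0 : List.Sublist (O₁ ++ O₂) c.rs :=
    hsplit ▸ (List.sublist_cons_self r O₂).append_left O₁
  have hvm : ¬Middle (⟨c.L, O₁ ++ O₂⟩ : Conf V) v := fun ⟨⟨s, h1, h2⟩, ⟨s', h3, h4⟩⟩ =>
    hv ⟨⟨s, hs0.subset h1, h2⟩, ⟨s', hs0.subset h3, h4⟩⟩
  obtain ⟨y, hy⟩ := List.length_eq_one_iff.1 hr1
  rw [hy, List.mem_singleton] at hxr
  subst hxr
  have hch0 := hx.valid.chain r hr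
  simp only [hy, List.singleton_append, List.isChain_cons_cons, List.IsChain.singleton,
    and_true] at hch0
  have hend : ∃ e, (e = r.a ∨ e = r.b) ∧ Apart (⟨c.L, O₁ ++ O₂⟩ : Conf V) e v := by
    have hvL := (hx.valid.memL v).2 hvQ
    rw [show c.L = P ++ S from hcut.1, List.mem_append] at hvL
    rcases hvL with e | e <;> rcases hab with ⟨ha, hb⟩ | ⟨hb, ha⟩
    · exact ⟨r.b, Or.inr rfl, P, S, hcut, Or.inr ⟨e, hb⟩⟩
    · exact ⟨r.a, Or.inl rfl, P, S, hcut, Or.inr ⟨e, ha⟩⟩
    · exact ⟨r.a, Or.inl rfl, P, S, hcut, Or.inl ⟨ha, e⟩⟩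
    · exact ⟨r.b, Or.inr rfl, P, S, hcut, Or.inl ⟨hb, e⟩⟩
  obtain ⟨e, he, hap⟩ := hend
  have hea : G.Adj e x := by
    rcases he with rfl | rfl
    · exact hch0.1
    · exact hch0.2.symm
  have hne : ¬Middle (⟨c.L, O₁ ++ O₂⟩ : Conf V) e := by
    rcases he with rfl | rfl
    · exact hna
    · exact hnb
  have hxi : x ∈ inner c := mem_inner.2 ⟨r, hr, by simp [hy]⟩
  have hnd' : (x :: l).Nodup := List.nodup_cons.2 ⟨fun h => (hout x h).2.2 hxi, hnd⟩
  have hdis : ∀ s ∈ O₁ ++ O₂, ∀ z ∈ s.mid, z ∉ x :: l := by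
    intro s hs z hz hz'
    rcases List.mem_cons.1 hz' with rfl | hz'
    · have hn := hx.valid.nodupM
      rw [hsplit] at hn
      have : ((r :: (O₁ ++ O₂)).flatMap Run.mid).Nodup :=
        (List.perm_middle.flatMap_right Run.mid).nodup_iff.1 hn
      rw [List.flatMap_cons, List.nodup_append] at this
      exact this.2.2 z (by simp [hy]) z (List.mem_flatMap.2 ⟨s, hs, hz⟩) rfl
    · exact (hout z hz').2.2 (mem_inner.2 ⟨s, hs0.subset hs, hz⟩)
  obtain ⟨c', hv', hrs⟩ := join h0 hap hne hvm (mid := x :: l) (by simp)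
    (List.isChain_cons_cons.2 ⟨hea, hch⟩)
    (List.forall_mem_cons.2 ⟨hx.valid.out r hr x (by simp [hy]), fun z hz =>
      ⟨(hout z hz).1, (hout z hz).2.1⟩⟩) hnd' hdis
  have hsig : c.sig = 1 + ((O₁ ++ O₂).map fun s => s.mid.length).sum := by
    simp [Conf.sig, hsplit, hr1]; omega
  have hlen2 : c.rs.length = (O₁ ++ O₂).length + 1 := by simp [hsplit]; omega
  have hrs' : c'.rs = _ :: (O₁ ++ O₂) := hrs
  rcases hx.add hO hO2 hv' hrs' hs0 (by simp; omega) with ⟨h1, h2⟩ | ⟨h1, -⟩ | h
  · simp only [Full.lim, List.length_cons] at h1 h2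
    have hq := hx.hC.hq1
    have hm := hx.hC.hm
    rcases hk with hk | hk | ⟨e1, e2, hN⟩
    rotate_left 2
    · exact hN c' hv' _ (hrs' ▸ List.mem_cons_self) (by simp only [List.length_cons]; split at h1 <;> omega)
    rotate_left
    · split at h1 <;> omega
    have : 2 ≤ ((O₁ ++ O₂).map fun s => s.mid.length).sum := by
      have := List.length_le_sum_of_one_le ((O₁ ++ O₂).map fun s => s.mid.length) (by
        simp only [List.mem_map]
        rintro _ ⟨s, hs, rfl⟩
        exact List.length_pos_iff.2 (hx.valid.ne s (hs0.subset hs)))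
      simp only [List.length_map] at this
      omega
    split at h1 <;> omega
  · simp only [List.length_cons] at h1
    omega
  · obtain ⟨hq2, ⟨h3, h⟩ | ⟨h3, hno, -, hs⟩⟩ := h
    · rcases h with ⟨hN4, hno, d, hd, hdl, -⟩ | ⟨hm, hq, -, d, hd, d', hd', e1, e2, -, -, edd⟩
      · -- another run of length `lim` and a third one
        rcases hk with hk3 | hk4 | ⟨e1, e2, hN⟩
        rotate_left 2
        · exact hN c' hv' _ (hrs' ▸ List.mem_cons_self) (by simp only [List.length_cons] at hN4 ⊢; omega)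
        rotate_left
        · have hle : d.mid.length ≤ ((O₁ ++ O₂).map fun s => s.mid.length).sum :=
            List.le_sum_of_mem (List.mem_map.2 ⟨d, hd, rfl⟩)
          have := hx.lo
          have := hx.hC.hq1
          have := hx.hC.hm
          simp only [Full.lim] at hdl
          split at hdl <;> omega
        obtain ⟨A, B, hAB⟩ := List.mem_iff_append.1 hd
        have hpos : 1 ≤ (A ++ B).length := by
          rw [hAB] at hlen2
          simp at hlen2 ⊢
          omega
        obtain ⟨s, hs⟩ := List.exists_mem_of_ne_nil _ (List.length_pos_iff.1 hpos)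
        have hsO : s ∈ O₁ ++ O₂ := by
          rw [hAB]; simp only [List.mem_append, List.mem_cons] at hs ⊢; tauto
        have h2 : 2 ≤ s.mid.length := by
          have := List.length_pos_iff.2 (hx.valid.ne s (hs0.subset hsO))
          have := hno s hsO
          omega
        have hle : s.mid.length ≤ ((A ++ B).map fun s => s.mid.length).sum :=
          List.le_sum_of_mem (List.mem_map.2 ⟨s, hs, rfl⟩)
        rw [hAB] at hsig
        simp only [List.map_append, List.map_cons, List.sum_append, List.sum_cons] at hsig hle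
        have := hx.lo
        simp only [Full.lim] at hdl
        split at hdl <;> omega
      · have hne : d ≠ d' := fun e => edd.1 (by rw [e])
        have hdd : [d.mid.length, d'.mid.length].sum ≤
            ((O₁ ++ O₂).map fun s => s.mid.length).sum := by
          obtain ⟨A, B, hAB⟩ := List.mem_iff_append.1 hd
          have hd'' : d' ∈ A ++ B := by
            rw [hAB] at hd'
            simp only [List.mem_append, List.mem_cons] at hd' ⊢
            rcases hd' with e | e | e
            · exact Or.inl e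
            · exact absurd e.symm hne
            · exact Or.inr e
          have hle : d'.mid.length ≤ ((A ++ B).map fun s => s.mid.length).sum :=
            List.le_sum_of_mem (List.mem_map.2 ⟨d', hd'', rfl⟩)
          rw [hAB]
          simp only [List.map_append, List.map_cons, List.sum_append, List.sum_cons, List.sum_nil,
            add_zero] at hle ⊢
          omega
        simp only [List.sum_cons, List.sum_nil, add_zero] at hdd
        have := hx.lo
        omega
    · simp only [List.length_cons] at h3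
      have := hx.lo
      omega

/-- Two runs of one vertex are replaced by a run between their middles. -/
theorem Ext.replaceTwo (hx : Ext G m a q X Q c) (hO : OverPin) (hO2 : Over2Pin)
    (hk : 3 ≤ c.rs.length ∨ m ≤ q + 4 ∨ m = 10 ∧ q = 5 ∧ NoFour G X Q) {r s : Run V} (hr : r ∈ c.rs) (hs : s ∈ c.rs)
    (hne : r ≠ s) (hr1 : r.mid.length = 1) (hs1 : s.mid.length = 1) {x y : V} (hxr : x ∈ r.mid)
    (hys : y ∈ s.mid) {l : List V} (hlen : l.length + 4 ≤ m)
    (hch : List.IsChain G.Adj (x :: (l ++ [y])))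
    (hout : ∀ z ∈ l, z ∈ X ∧ z ∉ Q ∧ z ∉ inner c) (hnd : l.Nodup) : False := by
  classical
  obtain ⟨x', hx'⟩ := List.length_eq_one_iff.1 hr1
  obtain ⟨y', hy'⟩ := List.length_eq_one_iff.1 hs1
  rw [hx', List.mem_singleton] at hxr
  rw [hy', List.mem_singleton] at hys
  subst hxr hys
  obtain ⟨O₁, O₂, hsplit⟩ := List.mem_iff_append.1 hr
  obtain ⟨h1, ⟨P, S, hcut, hab⟩, hna, hnb⟩ := erase_run hx.valid hsplit
  have hs' : s ∈ O₁ ++ O₂ := by
    rw [hsplit] at hs
    simp only [List.mem_append, List.mem_cons] at hs ⊢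
    rcases hs with e | e | e
    · exact Or.inl e
    · exact absurd e.symm hne
    · exact Or.inr e
  obtain ⟨P₁, P₂, hsplit'⟩ := List.mem_iff_append.1 hs'
  obtain ⟨h2, -, hsa, hsb⟩ := erase_run h1 (show (⟨c.L, O₁ ++ O₂⟩ : Conf V).rs = _ from hsplit')
  have hsub : List.Sublist (P₁ ++ P₂) (O₁ ++ O₂) :=
    hsplit' ▸ (List.sublist_cons_self s P₂).append_left P₁
  have hsub' : List.Sublist (P₁ ++ P₂) c.rs :=
    hsub.trans (hsplit ▸ (List.sublist_cons_self r O₂).append_left O₁)
  have hm0 : ∀ w, ¬Middle (⟨c.L, O₁ ++ O₂⟩ : Conf V) w → ¬Middle (⟨c.L, P₁ ++ P₂⟩ : Conf V) w :=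
    fun w hw ⟨⟨s, a1, a2⟩, ⟨s', a3, a4⟩⟩ =>
      hw ⟨⟨s, hsub.subset a1, a2⟩, ⟨s', hsub.subset a3, a4⟩⟩
  have hcut' : Cut (⟨c.L, P₁ ++ P₂⟩ : Conf V) P S :=
    ⟨hcut.1, fun t ht => hcut.2 t (hsub.subset ht)⟩
  have hsPS := hcut.2 s hs'
  have hend : ∃ e e', (e = r.a ∨ e = r.b) ∧ (e' = s.a ∨ e' = s.b) ∧
      Apart (⟨c.L, P₁ ++ P₂⟩ : Conf V) e e' := by
    rcases hsPS with h | h <;> rcases hab with ⟨ha, hb⟩ | ⟨hb, ha⟩
    · exact ⟨r.b, s.a, Or.inr rfl, Or.inl rfl, P, S, hcut', Or.inr ⟨h.mem.1, hb⟩⟩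
    · exact ⟨r.a, s.a, Or.inl rfl, Or.inl rfl, P, S, hcut', Or.inr ⟨h.mem.1, ha⟩⟩
    · exact ⟨r.a, s.a, Or.inl rfl, Or.inl rfl, P, S, hcut', Or.inl ⟨ha, h.mem.1⟩⟩
    · exact ⟨r.b, s.a, Or.inr rfl, Or.inl rfl, P, S, hcut', Or.inl ⟨hb, h.mem.1⟩⟩
  obtain ⟨e, e', he, he', hap⟩ := hend
  have hne1 : ¬Middle (⟨c.L, P₁ ++ P₂⟩ : Conf V) e := by
    rcases he with rfl | rfl
    · exact hm0 _ hna
    · exact hm0 _ hnb
  have hne2 : ¬Middle (⟨c.L, P₁ ++ P₂⟩ : Conf V) e' := by
    rcases he' with rfl | rfl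
    · exact hsa
    · exact hsb
  have hcr := hx.valid.chain r hr
  have hcs := hx.valid.chain s hs
  simp only [hx', hy', List.singleton_append, List.isChain_cons_cons, List.IsChain.singleton,
    and_true] at hcr hcs
  have hea : G.Adj e x := by
    rcases he with rfl | rfl
    · exact hcr.1
    · exact hcr.2.symm
  have hea' : G.Adj y e' := by
    rcases he' with rfl | rfl
    · exact hcs.1.symm
    · exact hcs.2
  have hxi : x ∈ inner c := mem_inner.2 ⟨r, hr, by simp [hx']⟩
  have hyi : y ∈ inner c := mem_inner.2 ⟨s, hs, by simp [hy']⟩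
  have hn : ((r :: s :: (P₁ ++ P₂)).flatMap Run.mid).Nodup := by
    have h := hx.valid.nodupM
    rw [hsplit] at h
    have h' : ((r :: (O₁ ++ O₂)).flatMap Run.mid).Nodup :=
      (List.perm_middle.flatMap_right Run.mid).nodup_iff.1 h
    rw [hsplit'] at h'
    exact ((List.perm_middle.cons r).flatMap_right Run.mid).nodup_iff.1 h'
  simp only [List.flatMap_cons, hx', hy', List.singleton_append, List.nodup_cons, List.mem_cons,
    not_or] at hn
  have hnd' : (x :: (l ++ [y])).Nodup := by
    rw [List.nodup_cons, List.nodup_append]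
    refine ⟨?_, hnd, List.nodup_singleton y, fun z hz z' hz' e => ?_⟩
    · simp only [List.mem_append, List.mem_singleton, not_or]
      exact ⟨fun h => (hout x h).2.2 hxi, hn.1.1⟩
    · rw [List.mem_singleton] at hz'
      exact (hout z hz).2.2 (e ▸ hz' ▸ hyi)
  have hdis : ∀ t ∈ P₁ ++ P₂, ∀ z ∈ t.mid, z ∉ x :: (l ++ [y]) := by
    intro t ht z hz hz'
    simp only [List.mem_cons, List.mem_append, List.not_mem_nil, or_false] at hz'
    rcases hz' with rfl | hz' | rfl
    · exact hn.1.2 (List.mem_flatMap.2 ⟨t, ht, hz⟩)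
    · exact (hout z hz').2.2 (mem_inner.2 ⟨t, hsub'.subset ht, hz⟩)
    · exact hn.2.1 (List.mem_flatMap.2 ⟨t, ht, hz⟩)
  obtain ⟨c', hv', hrs⟩ := join h2 hap hne1 hne2 (mid := x :: (l ++ [y])) (by simp)
    (List.isChain_cons_cons.2 ⟨hea, by
      show List.IsChain G.Adj ((x :: (l ++ [y])) ++ [e'])
      refine hch.append (List.IsChain.singleton _) fun p hp w hw => ?_
      simp only [List.getLast?_cons, List.getLast?_concat, Option.mem_def, Option.getD_some,
        Option.some.injEq] at hp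
      simp only [List.head?_cons, Option.mem_def, Option.some.injEq] at hw
      exact hp ▸ hw ▸ hea'⟩)
    (fun z hz => by
      simp only [List.mem_cons, List.mem_append, List.not_mem_nil, or_false] at hz
      rcases hz with rfl | hz | rfl
      · exact hx.valid.out r hr z (by simp [hx'])
      · exact ⟨(hout z hz).1, (hout z hz).2.1⟩
      · exact hx.valid.out s hs z (by simp [hy']))
    hnd' hdis
  have hsig : c.sig = 2 + ((P₁ ++ P₂).map fun t => t.mid.length).sum := by
    have h : ((O₁ ++ O₂).map fun t => t.mid.length).sum + r.mid.length = c.sig := by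
      simp [Conf.sig, hsplit]; omega
    rw [hsplit'] at h
    simp only [List.map_append, List.map_cons, List.sum_append, List.sum_cons, hr1, hs1] at h ⊢
    omega
  have hlen2 : c.rs.length = (P₁ ++ P₂).length + 2 := by
    have h : c.rs.length = (O₁ ++ O₂).length + 1 := by simp [hsplit]; omega
    rw [hsplit'] at h
    simp at h ⊢
    omega
  have hm := hx.hC.hm
  have hq1 := hx.hC.hq1
  have hlo := hx.lo
  have hrs' : c'.rs = _ :: (P₁ ++ P₂) := hrs
  rcases hx.add hO hO2 hv' hrs' hsub' (by simp; omega) with ⟨a1, a2⟩ | ⟨a1, a3⟩ | h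
  · simp only [Full.lim, List.length_cons, List.length_append] at a1 a2
    rcases hk with hk | hk | ⟨e1, e2, hN⟩
    rotate_left 2
    · exact hN c' hv' _ (hrs' ▸ List.mem_cons_self)
        (by simp only [List.length_cons, List.length_append]; split at a1 <;> omega)
    rotate_left
    · split at a1 <;> omega
    have : 1 ≤ ((P₁ ++ P₂).map fun t => t.mid.length).sum := by
      have := List.length_le_sum_of_one_le ((P₁ ++ P₂).map fun t => t.mid.length) (by
        simp only [List.mem_map]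
        rintro _ ⟨t, ht, rfl⟩
        exact List.length_pos_iff.2 (hx.valid.ne t (hsub'.subset ht)))
      simp only [List.length_map] at this
      omega
    split at a1 <;> omega
  · simp only [List.length_cons, List.length_append, List.length_nil] at a1 a3 hlen2
    omega
  · obtain ⟨hq2, ⟨h3, h⟩ | ⟨h3, hno, -, hsum⟩⟩ := h
    · rcases h with ⟨-, -, d, hd, hdl, -⟩ | ⟨hm', hq', -, d, hd, d', hd', e1, e2, -, -, edd⟩
      · have hle : d.mid.length ≤ ((P₁ ++ P₂).map fun t => t.mid.length).sum :=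
          List.le_sum_of_mem (List.mem_map.2 ⟨d, hd, rfl⟩)
        simp only [Full.lim] at hdl
        split at hdl <;> omega
      · obtain ⟨A, B, hAB⟩ := List.mem_iff_append.1 hd
        have hd'' : d' ∈ A ++ B := by
          rw [hAB] at hd'
          simp only [List.mem_append, List.mem_cons] at hd' ⊢
          rcases hd' with e | e | e
          · exact Or.inl e
          · exact absurd (show d.a = d'.a by rw [e]) edd.1
          · exact Or.inr e
        have hle : d'.mid.length ≤ ((A ++ B).map fun t => t.mid.length).sum :=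
          List.le_sum_of_mem (List.mem_map.2 ⟨d', hd'', rfl⟩)
        rw [hAB] at hsig
        simp only [List.map_append, List.map_cons, List.sum_append, List.sum_cons] at hsig hle
        omega
    · simp only [List.length_cons, List.length_append, List.length_nil] at h3
      omega

end Vale.Agent.P048.Full
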