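import Vale.Agent.P048.Full.Clash.Sides

/-! # Ten vertices and a clique of five

No run of four vertices leaves and returns to the clique, and two runs of two vertices with two
free vertices are impossible. -/

namespace Vale.Agent.P048.Full

open Finset

variable {V : Type} {G : SimpleGraph V} {m a q : ℕ} {X Q : Finset V} {c : Conf V}

/-- A state with total between five and ten minus the vertices used closes. -/
theorem Clash.ten_cyc (hC : Clash G m a q X Q) (h10 : m = 10) (h5 : q = 5)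
    (hv : c.Valid G X Q) (h1 : 5 ≤ c.sig) (h2 : c.sig + c.ends.card ≤ 10) : False := by
  have hne : c.rs ≠ [] := fun e => by simp [Conf.sig, e] at h1
  exact hC.free (cycPin V G m X Q c hC.hQ hv hne (by omega) (by omega) (by rw [hC.hQc]; omega))

/-- A run of five to eight vertices closes. -/
theorem Clash.ten_solo (hC : Clash G m a q X Q) (h10 : m = 10) (h5 : q = 5)
    (h0 : c.Valid G X Q) (he : c.rs = []) {u v : V} (hu : u ∈ Q) (hv : v ∈ Q) (hne : v ≠ u)
    {l : List V} (hlo : 5 ≤ l.length) (hhi : l.length ≤ 8)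
    (hch : List.IsChain G.Adj (u :: (l ++ [v]))) (hout : ∀ x ∈ l, x ∈ X ∧ x ∉ Q) (hnd : l.Nodup) :
    False := by
  have hu0 : ∀ w, w ∉ c.ends := fun w hw => by
    obtain ⟨s, hs, -⟩ := mem_ends.1 hw
    simp [he] at hs
  obtain ⟨c', hv', hrs⟩ := join h0 (apart_of_notMem_ends h0 hu hv hne (hu0 u)).1
    (not_middle_of_notMem_ends h0 (hu0 u)) (not_middle_of_notMem_ends h0 (hu0 v))
    (List.length_pos_iff.1 (by omega)) hch hout hnd (fun r hr => by simp [he] at hr)
  exact hC.solo hv' (D := ⟨u, v, l⟩) (hrs ▸ List.mem_cons_self) (by simp; omega) (by simp; omega)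

theorem att_card_add (hC : Clash G m a q X Q) (hin : (inner c).card ≤ 4) (h5 : q = 5)
    (h10 : m = 10) {u : V} (hu : u ∈ Q) : 1 ≤ (att G X Q c u).card := by
  classical
  have h1 := hC.deg u (hC.hQX hu)
  have hsub : nb G X u ⊆ Q.erase u ∪ inner c ∪ att G X Q c u := fun z hz => by
    rw [mem_nb] at hz
    simp only [Finset.mem_union, Finset.mem_erase, mem_att]
    by_cases hQ : z ∈ Q
    · exact Or.inl (Or.inl ⟨hz.2.ne', hQ⟩)
    by_cases hi : z ∈ inner c
    · exact Or.inl (Or.inr hi)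
    · exact Or.inr ⟨hz.1, hz.2, hQ, hi⟩
  have h2 := (Finset.card_le_card hsub).trans (Finset.card_union_le _ _)
  have h3 := Finset.card_union_le (Q.erase u) (inner c)
  rw [Finset.card_erase_of_mem hu, hC.hQc] at h3
  omega

open Classical in
/-- A path from one side to a set of inner vertices of runs, avoiding `Q`. -/
theorem Clash.ten_route (hC : Clash G m a q X Q) (h10 : m = 10) (h5 : q = 5) {u₁ u₂ : V}
    {Z F : Finset V} (hF : F.card ≤ 3) (hFi : ∀ x ∈ F, x ∈ inner c)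
    (hin : ∀ x ∈ inner c, x ∈ F ∨ x ∈ Z) (hZX : ∀ z ∈ Z, z ∈ X ∧ z ∉ Q ∧ z ∉ F)
    (hZi : ∀ z ∈ Z, z ∈ inner c)
    (aW : 2 ≤ alpha G (att G X Q c u₁ ∪ att G X Q c u₂)) (aZ : 2 ≤ alpha G Z) :
    ∃ u z, ∃ A : List V, (u = u₁ ∨ u = u₂) ∧ z ∈ Z ∧ 1 ≤ A.length ∧ A.length ≤ 7 ∧
      List.IsChain G.Adj (u :: (A ++ [z])) ∧ A.Nodup ∧
      (∀ x ∈ A, x ∈ X ∧ x ∉ Q ∧ x ∉ inner c) := by
  classical
  let R := F ∪ Q
  have hR : R.card + 2 * q + 2 ≤ 2 * m := by
    have := Finset.card_union_le F Q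
    rw [hC.hQc] at this
    simp only [R]
    omega
  obtain ⟨l, hl⟩ := hC.near (R := R) (W₀ := att G X Q c u₁ ∪ att G X Q c u₂) (Z := Z) hR
    (fun x hx => by
      rcases Finset.mem_union.1 hx with h | h <;>
      · obtain ⟨h1, -, h2, h3⟩ := mem_att.1 h
        exact ⟨h1, fun e => (Finset.mem_union.1 e).elim (fun e => h3 (hFi x e)) h2⟩)
    (fun z hz => ⟨(hZX z hz).1, fun e => (Finset.mem_union.1 e).elim (hZX z hz).2.2 (hZX z hz).2.1⟩)
    aW aZ
  obtain ⟨w, z, hw, hz, hwW, hzZ⟩ := hl.ends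
  obtain ⟨A, rfl⟩ := List.getLast?_eq_some_iff.1 hz
  have hwi : w ∉ inner c := by
    rcases Finset.mem_union.1 hwW with h | h <;> exact (mem_att.1 h).2.2.2
  obtain ⟨A', rfl⟩ : ∃ A', A = w :: A' := by
    cases A with
    | nil =>
      simp only [List.nil_append, List.head?_cons, Option.some.injEq] at hw
      exact absurd (hw ▸ hZi z hzZ) hwi
    | cons p A' =>
      simp only [List.cons_append, List.head?_cons, Option.some.injEq] at hw
      exact ⟨A', by rw [hw]⟩
  obtain ⟨u, hu, huw⟩ : ∃ u, (u = u₁ ∨ u = u₂) ∧ G.Adj u w := by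
    rcases Finset.mem_union.1 hwW with h | h
    · exact ⟨u₁, Or.inl rfl, (mem_att.1 h).2.1⟩
    · exact ⟨u₂, Or.inr rfl, (mem_att.1 h).2.1⟩
  have hlen := hl.len
  simp only [List.length_append, List.length_cons, List.length_nil] at hlen
  refine ⟨u, z, w :: A', hu, hzZ, by simp, by simp; omega, ?_,
    hl.nodup.sublist (List.sublist_append_left _ _), fun x hx => ?_⟩
  · rw [List.cons_append, List.isChain_cons_cons, ← List.cons_append]
    exact ⟨huw, hl.chain⟩
  · obtain ⟨h1, h2⟩ := Finset.mem_filter.1 (hl.sub x (List.mem_append_left _ hx))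
    have h2' : x ∉ F ∧ x ∉ Q := by simpa [R] using h2
    refine ⟨h1, h2'.2, fun hi => (hin x hi).elim h2'.1 fun hxZ => ?_⟩
    obtain ⟨P₁, P₂, e⟩ := List.mem_iff_append.1 hx
    exact (hl.inner P₁ x (P₂ ++ [z]) (by simp [e])).2 (by simp) hxZ

/-- From inner vertex number one of a run of four there are two long ways out. -/
theorem Clash.four_out (hC : Clash G m a q X Q) (h10 : m = 10) (h5 : q = 5)
    (h0 : c.Valid G X Q) (he : c.rs = []) {u e e' x p p' p'' : V} (hu : u ∈ Q) (he1 : e ∈ Q)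
    (he2 : e' ∈ Q) (hue : e ≠ u) (hue' : e' ≠ u) (hex : G.Adj x e)
    (hch : List.IsChain G.Adj ([x, p, p', p''] ++ [e'])) (hnd : [x, p, p', p''].Nodup)
    (hout : ∀ y ∈ [x, p, p', p''], y ∈ X ∧ y ∉ Q) {A : List V} (hA1 : 1 ≤ A.length)
    (hA7 : A.length ≤ 7) (hAch : List.IsChain G.Adj (u :: (A ++ [x]))) (hAnd : A.Nodup)
    (hAout : ∀ y ∈ A, y ∈ X ∧ y ∉ Q ∧ y ∉ [x, p, p', p'']) : False := by
  by_cases h : A.length ≤ 4
  · refine hC.ten_solo h10 h5 h0 he hu he2 hue' (l := A ++ [x, p, p', p'']) (by simp; omega)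
      (by simp; omega) ?_ ?_ ?_
    · have h1 := hAch.append_overlap (l₁ := u :: A) (l₂ := [x]) (l₃ := [p, p', p'', e'])
        (by simpa using hch) (by simp)
      simpa using h1
    · intro y hy
      rcases List.mem_append.1 hy with hy | hy
      exacts [⟨(hAout y hy).1, (hAout y hy).2.1⟩, hout y hy]
    · exact List.nodup_append.2 ⟨hAnd, hnd, fun y hy y' hy' e => (hAout y hy).2.2 (e ▸ hy')⟩
  · refine hC.ten_solo h10 h5 h0 he hu he1 hue (l := A ++ [x]) (by simp; omega)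
      (by simp; omega) ?_ ?_ ?_
    · have h1 := hAch.append_overlap (l₁ := u :: A) (l₂ := [x]) (l₃ := [e])
        (by simp [hex]) (by simp)
      simpa using h1
    · intro y hy
      rcases List.mem_append.1 hy with hy | hy
      exacts [⟨(hAout y hy).1, (hAout y hy).2.1⟩, List.mem_singleton.1 hy ▸ hout x (by simp)]
    · exact List.nodup_append.2 ⟨hAnd, by simp, fun y hy y' hy' e =>
        (hAout y hy).2.2 (by rw [e, List.mem_singleton.1 hy']; simp)⟩

open Classical in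
/-- What a run of four vertices gives: no short second run, so attachment sets are separate. -/
theorem Clash.four_sep (hC : Clash G m a q X Q) (h10 : m = 10) (h5 : q = 5) {c₁ : Conf V}
    {D : Run V} (hv1 : c₁.Valid G X Q) (hc : c₁.rs = [D]) (hD4 : D.mid.length = 4) :
    (∀ {u v : V} {l : List V}, u ∈ Q → u ≠ D.a → u ≠ D.b → v ∈ Q → v ≠ u → l ≠ [] →
      l.length ≤ 2 → List.IsChain G.Adj (u :: (l ++ [v])) →
      (∀ x ∈ l, x ∈ X ∧ x ∉ Q ∧ x ∉ inner c₁) → l.Nodup → False) ∧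
    ∀ {u v : V}, u ∈ Q → u ≠ D.a → u ≠ D.b → v ∈ Q → v ≠ u →
      2 ≤ alpha G (att G X Q c₁ u ∪ att G X Q c₁ v) := by
  have hDm : D ∈ c₁.rs := by simp [hc]
  have hends : ∀ w ∈ c₁.ends, w = D.a ∨ w = D.b := fun w hw => by
    obtain ⟨s, hs, e⟩ := mem_ends.1 hw
    rw [hc, List.mem_singleton] at hs
    exact hs ▸ e
  have hic : (inner c₁).card ≤ 4 := by
    rw [inner_card hv1]
    simp [Conf.sig, hc, hD4]
  -- a short second run
  have short : ∀ {u v : V} {l : List V}, u ∈ Q → u ≠ D.a → u ≠ D.b → v ∈ Q → v ≠ u → l ≠ [] →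
      l.length ≤ 2 → List.IsChain G.Adj (u :: (l ++ [v])) →
      (∀ x ∈ l, x ∈ X ∧ x ∉ Q ∧ x ∉ inner c₁) → l.Nodup → False := by
    intro u v l hu hua hub hvQ hne hl0 hl hlch hlout hlnd
    have hue : u ∉ c₁.ends := fun h => (hends u h).elim hua hub
    obtain ⟨hA, hnu⟩ := apart_of_notMem_ends hv1 hu hvQ hne hue
    obtain ⟨c', hv', hrs⟩ := join hv1 hA (not_middle_of_notMem_ends hv1 hue)
      (fun hM => by
        obtain ⟨r, hr, s, hs, hrs, -⟩ := hM.two hv1
        rw [hc, List.mem_singleton] at hr hs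
        exact hrs (hr.trans hs.symm))
      hl0 hlch (fun x hx => ⟨(hlout x hx).1, (hlout x hx).2.1⟩) hlnd
      (fun r hr x h1 h2 => (hlout x h2).2.2 (mem_inner.2 ⟨r, hr, h1⟩))
    have hpos := List.length_pos_iff.2 hl0
    have hsig : c'.sig = l.length + 4 := by simp [Conf.sig, hrs, hc, hD4]
    have hce : c'.ends.card ≤ 4 := by
      have := ends_card_le c'
      simpa [hrs, hc] using this
    exact hC.ten_cyc h10 h5 hv' (by omega) (by omega)
  have sep : ∀ {u v : V}, u ∈ Q → u ≠ D.a → u ≠ D.b → v ∈ Q → v ≠ u →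
      2 ≤ alpha G (att G X Q c₁ u ∪ att G X Q c₁ v) := by
    intro u v hu hua hub hvQ hne
    obtain ⟨y, hy⟩ := Finset.card_pos.1 (att_card_add hC hic h5 h10 hu)
    obtain ⟨z, hz⟩ := Finset.card_pos.1 (att_card_add hC hic h5 h10 hvQ)
    have hy' := mem_att.1 hy
    have hz' := mem_att.1 hz
    refine two_le_alpha (Finset.mem_union_left _ hy) (Finset.mem_union_right _ hz) ?_ ?_
    · rintro rfl
      exact short (l := [y]) hu hua hub hvQ hne (by simp) (by simp)
        (by simp [hy'.2.1, hz'.2.1.symm]) (by simpa using ⟨hy'.1, hy'.2.2⟩) (by simp)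
    · intro e
      exact short (l := [y, z]) hu hua hub hvQ hne (by simp) (by simp)
        (by simp [hy'.2.1, e, hz'.2.1.symm])
        (by simp [hy'.1, hy'.2.2, hz'.1, hz'.2.2]) (by simp [e.ne])
  exact ⟨short, sep⟩

open Classical in
/-- A run of four vertices with adjacent ends. -/
theorem Clash.four_chord (hC : Clash G m a q X Q) (h10 : m = 10) (h5 : q = 5) {c₁ c₀ : Conf V}
    {D : Run V} (hv1 : c₁.Valid G X Q) (hc : c₁.rs = [D]) (hD4 : D.mid.length = 4)
    (h0 : c₀.Valid G X Q) (he0 : c₀.rs = []) {d1 d2 d3 d4 : V} (hd : D.mid = [d1, d2, d3, d4])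
    (hchord : G.Adj d1 d4) {f g h : V} (nfg : f ≠ g) (nfh : f ≠ h) (ngh : g ≠ h) (fb : f ≠ D.b)
    (fa : f ≠ D.a) (hfQ : f ∈ Q) (gb : g ≠ D.b) (ga : g ≠ D.a) (hgQ : g ∈ Q) (hb : h ≠ D.b)
    (ha : h ≠ D.a) (hhQ : h ∈ Q) : False := by
  have hDm : D ∈ c₁.rs := by simp [hc]
  obtain ⟨short, sep⟩ := hC.four_sep h10 h5 hv1 hc hD4
  have hout := hv1.out D hDm
  have hch := hv1.chain D hDm
  rw [hd] at hout hch
  simp only [List.cons_append, List.nil_append, List.isChain_cons_cons, List.IsChain.singleton,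
    and_true] at hch
  obtain ⟨ca, c12, c23, c34, cb⟩ := hch
  have haQ : D.a ∈ Q := hv1.ends_subset (mem_ends.2 ⟨D, hDm, Or.inl rfl⟩)
  have hbQ : D.b ∈ Q := hv1.ends_subset (mem_ends.2 ⟨D, hDm, Or.inr rfl⟩)
  have hi : ∀ x, x ∈ inner c₁ ↔ x ∈ [d1, d2, d3, d4] := fun x => by
    rw [mem_inner, ← hd]
    exact ⟨fun ⟨r, hr, h⟩ => by
      rw [hc, List.mem_singleton] at hr
      exact hr ▸ h, fun h => ⟨D, hDm, h⟩⟩
  have hic : (inner c₁).card ≤ 4 := by
    rw [inner_card hv1]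
    simp [Conf.sig, hc, hD4]
  have hab : Apart c₀ D.a D.b ∧ ¬Middle c₀ D.a ∧ ¬Middle c₀ D.b := by
    have hn : ∀ w, w ∉ c₀.ends := fun w hw => by
      obtain ⟨s, hs, -⟩ := mem_ends.1 hw
      simp [he0] at hs
    exact ⟨(apart_of_notMem_ends h0 haQ hbQ (hv1.ne_ends hDm).symm (hn D.a)).1,
      not_middle_of_notMem_ends h0 (hn _), not_middle_of_notMem_ends h0 (hn _)⟩
  obtain ⟨hA0, hn0a, hn0b⟩ := hab
  let R := inner c₁ ∪ {f, g}
  have hR : R.card + 2 * q + 2 ≤ 2 * m := by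
    have := Finset.card_union_le (inner c₁) {f, g}
    rw [Finset.card_pair nfg] at this
    simp only [R]
    omega
  have hatt : ∀ {u x}, x ∈ att G X Q c₁ u → x ∉ R := fun {u x} hx hxR => by
    obtain ⟨-, -, h1, h2⟩ := mem_att.1 hx
    simp only [R, Finset.mem_union, Finset.mem_insert, Finset.mem_singleton] at hxR
    rcases hxR with e | rfl | rfl
    exacts [h2 e, h1 hfQ, h1 hgQ]
  obtain ⟨l, hl⟩ := hC.near (R := R) (W₀ := att G X Q c₁ f ∪ att G X Q c₁ g)
    (Z := att G X Q c₁ h ∪ att G X Q c₁ D.a) hR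
    (fun x hx => by
      rcases Finset.mem_union.1 hx with e | e <;> exact ⟨(mem_att.1 e).1, hatt e⟩)
    (fun x hx => by
      rcases Finset.mem_union.1 hx with e | e <;> exact ⟨(mem_att.1 e).1, hatt e⟩)
    (sep hfQ fa fb hgQ nfg.symm) (sep hhQ ha hb haQ ha.symm)
  obtain ⟨w, z, hw, hz, hwW, hzZ⟩ := hl.ends
  obtain ⟨u, hu, huw⟩ : ∃ u, (u = f ∨ u = g) ∧ G.Adj u w := by
    rcases Finset.mem_union.1 hwW with e | e
    exacts [⟨f, Or.inl rfl, (mem_att.1 e).2.1⟩, ⟨g, Or.inr rfl, (mem_att.1 e).2.1⟩]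
  obtain ⟨huQ, hua, hub⟩ : u ∈ Q ∧ u ≠ D.a ∧ u ≠ D.b := by
    rcases hu with rfl | rfl
    exacts [⟨hfQ, fa, fb⟩, ⟨hgQ, ga, gb⟩]
  have huR : u ∈ R := by rcases hu with rfl | rfl <;> simp [R]
  have key : ∀ {l : List V} {v : V}, v ∈ Q → v ≠ u → l ≠ [] → l.length ≤ 8 →
      List.IsChain G.Adj (u :: (l ++ [v])) → (∀ x ∈ l, x ∈ X ∧ x ∉ Q ∧ x ∉ inner c₁) →
      l.Nodup → False := by
    intro l v hvQ hne hl0 hl8 hlch hlout hlnd
    by_cases h2 : l.length ≤ 2
    · exact short huQ hua hub hvQ hne hl0 h2 hlch hlout hlnd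
    by_cases h5' : 5 ≤ l.length
    · exact hC.ten_solo h10 h5 h0 he0 huQ hvQ hne h5' hl8 hlch
        (fun x hx => ⟨(hlout x hx).1, (hlout x hx).2.1⟩) hlnd
    obtain ⟨c', hv', hrs'⟩ := join h0 hA0 hn0a hn0b (mid := [d1, d4]) (by simp)
      (by simp [ca, hchord, cb]) (fun x hx => hout x (by simp at hx ⊢; tauto))
      (by simp [hchord.ne]) (fun r hr => by simp [he0] at hr)
    have he' : ∀ w ∈ c'.ends, w = D.a ∨ w = D.b := fun w hw => by
      obtain ⟨s, hs, e⟩ := mem_ends.1 hw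
      rw [hrs'] at hs
      simp only [he0, List.mem_singleton] at hs
      subst hs
      exact e
    have hue : u ∉ c'.ends := fun hh => (he' u hh).elim hua hub
    obtain ⟨hA, -⟩ := apart_of_notMem_ends hv' huQ hvQ hne hue
    obtain ⟨c'', hv'', hrs''⟩ := join hv' hA (not_middle_of_notMem_ends hv' hue)
      (fun hM => by
        obtain ⟨r, hr, s, hs, hrs, -⟩ := hM.two hv'
        simp only [hrs', he0, List.mem_singleton] at hr hs
        exact hrs (hr.trans hs.symm))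
      hl0 hlch (fun x hx => ⟨(hlout x hx).1, (hlout x hx).2.1⟩) hlnd
      (fun r hr x h1 h2 => by
        simp only [hrs', he0, List.mem_singleton] at hr
        subst hr
        exact (hlout x h2).2.2 ((hi x).2 (by simp at h1 ⊢; tauto)))
    have hsig : c''.sig = l.length + 2 := by simp [Conf.sig, hrs'', hrs', he0]
    have hce : c''.ends.card ≤ 4 := by
      have := ends_card_le c''
      simpa [hrs'', hrs', he0] using this
    exact hC.ten_cyc h10 h5 hv'' (by omega) (by omega)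
  have hlen := hl.len
  have hsub : ∀ x ∈ l, x ∈ X ∧ x ∉ R ∧ x ∉ inner c₁ := fun x hx => by
    obtain ⟨h1, h2⟩ := Finset.mem_filter.1 (hl.sub x hx)
    exact ⟨h1, h2, fun e => h2 (Finset.mem_union_left _ e)⟩
  obtain ⟨l', rfl⟩ : ∃ l', l = w :: l' := ⟨_, List.eq_cons_of_mem_head? hw⟩
  rcases split_first Q (w :: l') with hno | ⟨A, v, B, e, hvQ, hAQ⟩
  · obtain ⟨t, htQ, htu, htz⟩ : ∃ t, t ∈ Q ∧ t ≠ u ∧ G.Adj z t := by
      rcases Finset.mem_union.1 hzZ with e | e
      · refine ⟨h, hhQ, ?_, (mem_att.1 e).2.1.symm⟩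
        rcases hu with rfl | rfl
        exacts [nfh.symm, ngh.symm]
      · exact ⟨D.a, haQ, hua.symm, (mem_att.1 e).2.1.symm⟩
    refine key htQ htu (List.cons_ne_nil w l') (by omega) ?_
      (fun x hx => ⟨(hsub x hx).1, hno x hx, (hsub x hx).2.2⟩) hl.nodup
    rw [List.cons_append, List.isChain_cons_cons, ← List.cons_append]
    refine ⟨huw, hl.chain.append (List.IsChain.singleton t) fun p hp s hs => ?_⟩
    rw [Option.mem_def, hz, Option.some.injEq] at hp
    simp only [List.head?_cons, Option.mem_def, Option.some.injEq] at hs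
    exact hp ▸ hs ▸ htz
  · have hwQ : w ∉ Q := by
      rcases Finset.mem_union.1 hwW with e | e <;> exact (mem_att.1 e).2.2.1
    obtain ⟨A', rfl⟩ : ∃ A', A = w :: A' := by
      cases A with
      | nil =>
        simp only [List.nil_append, List.cons.injEq] at e
        exact absurd (e.1 ▸ hvQ) hwQ
      | cons p A' =>
        simp only [List.cons_append, List.cons.injEq] at e
        exact ⟨A', by rw [e.1]⟩
    have hmem : ∀ x ∈ w :: A', x ∈ w :: l' := fun x hx => e ▸ List.mem_append_left _ hx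
    have hvm : v ∈ w :: l' := by rw [e]; simp
    refine key hvQ (fun ev => (hsub v hvm).2.1 (ev ▸ huR)) (List.cons_ne_nil w A') ?_ ?_
      (fun x hx => ⟨(hsub x (hmem x hx)).1, hAQ x hx, (hsub x (hmem x hx)).2.2⟩)
      (hl.nodup.sublist (e ▸ List.sublist_append_left _ _))
    · have := congrArg List.length e
      simp only [List.length_append, List.length_cons] at this hlen ⊢
      omega
    · rw [List.cons_append, List.isChain_cons_cons, ← List.cons_append]
      refine ⟨huw, ?_⟩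
      have hc := hl.chain
      rw [e, show (w :: A') ++ v :: B = ((w :: A') ++ [v]) ++ B by simp] at hc
      exact hc.left_of_append

open Classical in
/-- A run of four vertices with non-adjacent ends. -/
theorem Clash.four_open (hC : Clash G m a q X Q) (h10 : m = 10) (h5 : q = 5) {c₁ c₀ : Conf V}
    {D : Run V} (hv1 : c₁.Valid G X Q) (hc : c₁.rs = [D]) (hD4 : D.mid.length = 4)
    (h0 : c₀.Valid G X Q) (he0 : c₀.rs = []) {d1 d2 d3 d4 : V} (hd : D.mid = [d1, d2, d3, d4])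
    (hchord : ¬G.Adj d1 d4) {f g : V} (nfg : f ≠ g) (fb : f ≠ D.b)
    (fa : f ≠ D.a) (hfQ : f ∈ Q) (gb : g ≠ D.b) (ga : g ≠ D.a) (hgQ : g ∈ Q) : False := by
  have hDm : D ∈ c₁.rs := by simp [hc]
  obtain ⟨-, sep⟩ := hC.four_sep h10 h5 hv1 hc hD4
  have hnd : [d1, d2, d3, d4].Nodup := hd ▸ (List.nodup_flatMap.1 hv1.nodupM).1 D hDm
  have hout := hv1.out D hDm
  have hch := hv1.chain D hDm
  rw [hd] at hout hch
  simp only [List.cons_append, List.nil_append, List.isChain_cons_cons, List.IsChain.singleton,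
    and_true] at hch
  obtain ⟨ca, c12, c23, c34, cb⟩ := hch
  have haQ : D.a ∈ Q := hv1.ends_subset (mem_ends.2 ⟨D, hDm, Or.inl rfl⟩)
  have hbQ : D.b ∈ Q := hv1.ends_subset (mem_ends.2 ⟨D, hDm, Or.inr rfl⟩)
  have hi : ∀ x, x ∈ inner c₁ ↔ x ∈ [d1, d2, d3, d4] := fun x => by
    rw [mem_inner, ← hd]
    exact ⟨fun ⟨r, hr, h⟩ => by
      rw [hc, List.mem_singleton] at hr
      exact hr ▸ h, fun h => ⟨D, hDm, h⟩⟩
  have h14 : d1 ≠ d4 := by simp at hnd; tauto
  obtain ⟨u, z, A, hu, hz, hA1, hA7, hAch, hAnd, hAout⟩ := hC.ten_route h10 h5 (c := c₁)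
    (F := ({d2, d3} : Finset V)) (Z := ({d1, d4} : Finset V))
    ((Finset.card_le_two (a := d2) (b := d3)).trans (by omega))
    (fun x hx => (hi x).2 (by simp at hx ⊢; tauto))
    (fun x hx => by have := (hi x).1 hx; simp at this ⊢; tauto)
    (fun z hz => by
      simp only [Finset.mem_insert, Finset.mem_singleton] at hz
      simp only [List.nodup_cons, List.mem_cons, List.not_mem_nil, or_false, not_or,
        List.nodup_nil, and_true] at hnd
      obtain ⟨h1, h2⟩ := hout z (by simp; tauto)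
      refine ⟨h1, h2, ?_⟩
      simp only [Finset.mem_insert, Finset.mem_singleton, not_or]
      rcases hz with rfl | rfl
      · exact ⟨hnd.1.1, hnd.1.2.1⟩
      · exact ⟨Ne.symm hnd.2.1.2, Ne.symm hnd.2.2.1⟩)
    (fun z hz => (hi z).2 (by simp at hz ⊢; tauto))
    (sep hfQ fa fb hgQ nfg.symm)
    (two_le_alpha (Finset.mem_insert_self d1 {d4})
      (Finset.mem_insert_of_mem (Finset.mem_singleton_self d4)) h14 hchord)
  obtain ⟨huQ, hua, hub⟩ : u ∈ Q ∧ u ≠ D.a ∧ u ≠ D.b := by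
    rcases hu with rfl | rfl
    exacts [⟨hfQ, fa, fb⟩, ⟨hgQ, ga, gb⟩]
  simp only [Finset.mem_insert, Finset.mem_singleton] at hz
  rcases hz with rfl | rfl
  · exact hC.four_out h10 h5 h0 he0 huQ haQ hbQ hua.symm hub.symm ca.symm
      (by simp [c12, c23, c34, cb]) hnd hout hA1 hA7 hAch hAnd
      (fun y hy => ⟨(hAout y hy).1, (hAout y hy).2.1, fun e => (hAout y hy).2.2 ((hi y).2 e)⟩)
  · exact hC.four_out h10 h5 h0 he0 huQ hbQ haQ hub.symm hua.symm cb
      (p := d3) (p' := d2) (p'' := d1) (by simp [c12.symm, c23.symm, c34.symm, ca.symm])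
      (by simpa using List.nodup_reverse.2 hnd)
      (fun y hy => hout y (by simp at hy ⊢; tauto)) hA1 hA7 hAch hAnd
      (fun y hy => ⟨(hAout y hy).1, (hAout y hy).2.1, fun e => (hAout y hy).2.2
        ((hi y).2 (by simp at e ⊢; tauto))⟩)


open Classical in
/-- There is no run of four vertices. -/
theorem Clash.no_four (hC : Clash G m a q X Q) (h10 : m = 10) (h5 : q = 5) : NoFour G X Q := by
  intro c₀ hv₀ D hD hD4
  have hv := hv₀.sub (rs := [D]) (List.singleton_sublist.2 hD)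
  have h0 := hv₀.sub (rs := []) (List.nil_sublist _)
  obtain ⟨d1, d2, d3, d4, hd⟩ : ∃ d1 d2 d3 d4, D.mid = [d1, d2, d3, d4] := by
    rcases hm : D.mid with _ | ⟨d1, _ | ⟨d2, _ | ⟨d3, _ | ⟨d4, _ | ⟨d5, t⟩⟩⟩⟩⟩
    all_goals first
      | exact ⟨_, _, _, _, rfl⟩
      | (rw [hm] at hD4; simp at hD4)
  obtain ⟨T, hT, hTc⟩ := Finset.exists_subset_card_eq
    (show 3 ≤ ((Q.erase D.a).erase D.b).card by
      have h1 := Finset.pred_card_le_card_erase (a := D.a) (s := Q)
      have h2 := Finset.pred_card_le_card_erase (a := D.b) (s := Q.erase D.a)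
      rw [hC.hQc] at h1
      omega)
  obtain ⟨f, g, h, nfg, nfh, ngh, rfl⟩ := Finset.card_eq_three.1 hTc
  simp only [Finset.insert_subset_iff, Finset.singleton_subset_iff, Finset.mem_erase] at hT
  obtain ⟨⟨fb, fa, hfQ⟩, ⟨gb, ga, hgQ⟩, hb, ha, hhQ⟩ := hT
  by_cases hchord : G.Adj d1 d4
  · exact hC.four_chord h10 h5 hv rfl hD4 h0 rfl hd hchord nfg nfh ngh fb fa hfQ gb ga hgQ hb ha
      hhQ
  · exact hC.four_open h10 h5 hv rfl hD4 h0 rfl hd hchord nfg fb fa hfQ gb ga hgQ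

end Vale.Agent.P048.Full
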